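import Crest.Agent.N207.S.Ex.Stab2

/-!
Row 207, S0320, block EX (helper49): interpolation, gluing, solutions for nearby data.
-/

set_option autoImplicit false

open Set Filter
open scoped Topology ContDiff

noncomputable section
namespace Crest.Agent.N207.S.Ex

section
variable {E : Type*} [NormedAddCommGroup E] [NormedSpace ℝ E]

theorem landau1 {f f1 f2 : ℝ → E} {M c h : ℝ}
    (h1 : ∀ x ∈ Icc (0 : ℝ) 1, HasDerivWithinAt f (f1 x) (Icc 0 1) x)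
    (h2 : ∀ x ∈ Icc (0 : ℝ) 1, HasDerivWithinAt f1 (f2 x) (Icc 0 1) x)
    (hM : ∀ x ∈ Icc (0 : ℝ) 1, ‖f x‖ ≤ M) (hc : ∀ x ∈ Icc (0 : ℝ) 1, ‖f2 x‖ ≤ c) (hh : 0 < h)
    (hh' : h ≤ 1 / 2) {x : ℝ} (hx : x ∈ Icc (0 : ℝ) 1) : h * ‖f1 x‖ ≤ 2 * M + c * h * h := by
  have hc0 : 0 ≤ c := (norm_nonneg _).trans (hc x hx)
  obtain ⟨y, hy, hxy⟩ : ∃ y ∈ Icc (0 : ℝ) 1, |y - x| = h := by
    rcases le_total x (1 / 2) with h3 | h3
    · exact ⟨x + h, ⟨by linarith [hx.1], by linarith⟩, by simp [abs_of_pos hh]⟩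
    · exact ⟨x - h, ⟨by linarith, by linarith [hx.2]⟩, by simp [abs_of_pos hh]⟩
  have hsub : uIcc x y ⊆ Icc 0 1 := uIcc_subset_Icc hx hy
  have k1 : ∀ s ∈ uIcc x y, ‖f1 s - f1 x‖ ≤ c * h := fun s hs => by
    refine ((convex_Icc (0 : ℝ) 1).norm_image_sub_le_of_norm_hasDerivWithin_le h2 hc hx
      (hsub hs)).trans (mul_le_mul_of_nonneg_left ?_ hc0)
    rw [← hxy]
    exact abs_sub_left_of_mem_uIcc hs
  have k2 := (convex_uIcc x y).norm_image_sub_le_of_norm_hasDerivWithin_le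
    (f := fun s => f s - (s - x) • f1 x) (f' := fun s => f1 s - f1 x)
    (fun s hs => by
      have := ((h1 s (hsub hs)).mono hsub).fun_sub
        (((hasDerivAt_id' s).sub_const x).smul_const (f1 x)).hasDerivWithinAt
      rwa [one_smul] at this) k1 left_mem_uIcc right_mem_uIcc
  simp only [sub_self, zero_smul, sub_zero, Real.norm_eq_abs, hxy] at k2
  have k3 : (y - x) • f1 x = f y - f x - (f y - (y - x) • f1 x - f x) := by abel
  have k4 : ‖(y - x) • f1 x‖ = h * ‖f1 x‖ := by rw [norm_smul, Real.norm_eq_abs, hxy]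
  rw [← k4, k3]
  refine (norm_sub_le _ _).trans (add_le_add ((norm_sub_le _ _).trans ?_) k2)
  linarith [hM y hy, hM x hx]

/-- **interpolation** -/
theorem interp (c : ℕ → ℝ) (j : ℕ) : ∀ ε > (0 : ℝ), ∃ η > (0 : ℝ), ∀ f : ℝ → E,
    ContDiffOn ℝ ∞ f (Icc 0 1) → (∀ x ∈ Icc (0 : ℝ) 1, ‖f x‖ ≤ η ∧ ∀ i, ‖jet i f x‖ ≤ c i) →
      ∀ x ∈ Icc (0 : ℝ) 1, ‖jet j f x‖ ≤ ε := by
  induction j with
  | zero => exact fun ε hε => ⟨ε, hε, fun f _ h x hx => (h x hx).1⟩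
  | succ j ih =>
    intro ε hε
    set h := min (1 / 2) (ε / (2 * (|c (j + 2)| + 1))) with hh
    have h0 : 0 < h := by positivity
    obtain ⟨η, hη, H⟩ := ih (ε * h / 4) (by positivity)
    refine ⟨η, hη, fun f hf hb x hx => ?_⟩
    have k1 := landau1 (fun y hy => jet_hd hf j hy) (fun y hy => jet_hd hf (j + 1) hy) (H f hf hb)
      (fun y hy => ((hb y hy).2 (j + 2)).trans (le_abs_self _)) h0 (min_le_left _ _) hx
    have k2 : h * (2 * (|c (j + 2)| + 1)) ≤ ε :=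
      (le_div_iff₀ (by positivity)).1 (min_le_right _ _)
    have k3 : h * ‖jet (j + 1) f x‖ ≤ h * ε := by nlinarith [abs_nonneg (c (j + 2))]
    exact le_of_mul_le_mul_left k3 h0

theorem interp2 (c c' : ℕ → ℝ) (j : ℕ) {ε : ℝ} (hε : 0 < ε) : ∃ η > (0 : ℝ), ∀ f g : ℝ → E,
    ContDiffOn ℝ ∞ f (Icc 0 1) → ContDiffOn ℝ ∞ g (Icc 0 1) →
      (∀ x ∈ Icc (0 : ℝ) 1, ‖f x - g x‖ ≤ η ∧ (∀ i, ‖jet i f x‖ ≤ c i) ∧ ∀ i, ‖jet i g x‖ ≤ c' i) →
      ∀ x ∈ Icc (0 : ℝ) 1, ‖jet j f x - jet j g x‖ ≤ ε := by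
  obtain ⟨η, hη, H⟩ := interp (E := E) (fun i => c i + c' i) j ε hε
  refine ⟨η, hη, fun f g hf hg hb x hx => ?_⟩
  rw [← jet_sub hf hg j hx]
  refine H _ (hf.sub hg) (fun y hy => ⟨(hb y hy).1, fun i => ?_⟩) x hx
  rw [jet_sub hf hg i hy]
  exact (norm_sub_le _ _).trans (add_le_add ((hb y hy).2.1 i) ((hb y hy).2.2 i))

end

variable {E : Type} [NormedAddCommGroup E] [InnerProductSpace ℝ E] [FiniteDimensional ℝ E]
  {S : Sys E}

/-- a solution with quantitative bounds -/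
structure Sol (S : Sys E) (u0 : ℝ → E) (T : ℝ) (K : Set (ℝ × E)) (c : ℕ → ℝ) (U : ℝ → ℝ → E) :
    Prop where
  sol : IsSol S 0 T U
  init : ∀ x ∈ Icc (0 : ℝ) 1, U 0 x = u0 x
  bd : ∀ t ∈ Icc 0 T, ∀ x ∈ Icc (0 : ℝ) 1, (x, U t x) ∈ K ∧ ∀ j, ‖jet j (U t) x‖ ≤ c j

omit [FiniteDimensional ℝ E] in
theorem Sol.mono {u0 : ℝ → E} {T T' : ℝ} {K : Set (ℝ × E)} {c : ℕ → ℝ} {U : ℝ → ℝ → E}
    (h : Sol S u0 T K c U) (hT : T' ≤ T) : Sol S u0 T' K c U :=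
  ⟨h.sol.mono le_rfl hT, h.init, fun t ht => h.bd t ⟨ht.1, ht.2.trans hT⟩⟩

/-- gluing with overlap -/
theorem glue_sol {t1 s τ : ℝ} {U V : ℝ → ℝ → E} (hU : IsSol S 0 t1 U) (hV : IsSol S 0 τ V)
    (hs : 0 ≤ s) (hs1 : s < t1) (hτ : 0 < τ) (e : ∀ x ∈ Icc (0 : ℝ) 1, V 0 x = U s x) :
    IsSol S 0 (s + τ) fun t => if t ≤ s then U t else V (t - s) := by
  have hm : s < min t1 (s + τ) := lt_min hs1 (by linarith)
  have h1 := (hU.mono hs (min_le_left _ (s + τ))).uniq ((hV.shift s).mono le_rfl (min_le_right _ _))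
    fun x hx => by rw [sub_self, e x hx]
  refine IsSol.union (t1 := min t1 (s + τ)) (s0 := s)
    ((hU.mono le_rfl (min_le_left _ _)).congr fun t ht x hx => ?_)
    ((hV.shift s).congr fun t ht x hx => ?_) hm
  · split_ifs with h
    · rfl
    · exact (h1 t ⟨(not_le.1 h).le, ht.2⟩ x hx).symm
  · split_ifs with h
    · exact h1 t ⟨ht.1, h.trans hm.le⟩ x hx
    · rfl

theorem Sol.glue {u0 : ℝ → E} {t1 s τ : ℝ} {K K' : Set (ℝ × E)} {c c' : ℕ → ℝ} {U V : ℝ → ℝ → E}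
    (hU : Sol S u0 t1 K c U) (hV : Sol S (U s) τ K' c' V) (hs : 0 ≤ s) (hs1 : s < t1) (hτ : 0 < τ) :
    Sol S u0 (s + τ) (K ∪ K') (fun j => max (c j) (c' j))
      fun t => if t ≤ s then U t else V (t - s) := by
  refine ⟨glue_sol hU.sol hV.sol hs hs1 hτ hV.init, fun x hx => ?_, fun t ht x hx => ?_⟩
  · rw [if_pos hs, hU.init x hx]
  · split_ifs with h
    · have := hU.bd t ⟨ht.1, h.trans hs1.le⟩ x hx
      exact ⟨Or.inl this.1, fun j => (this.2 j).trans (le_max_left _ _)⟩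
    · have := hV.bd (t - s) ⟨by linarith, by linarith [ht.2]⟩ x hx
      exact ⟨Or.inr this.1, fun j => (this.2 j).trans (le_max_right _ _)⟩

variable {P : Type} [TopologicalSpace P] {u0 : P → ℝ → E} {p : P}

/-- bounded solutions with nearby data are close in every `C^j` -/
theorem close (hp : ∀ ε, 0 < ε → ∀ᶠ p' in 𝓝 p, ∀ x ∈ Icc (0 : ℝ) 1, ‖u0 p' x - u0 p x‖ ≤ ε)
    {T : ℝ} {K K' : Set (ℝ × E)} {c : ℕ → ℝ} (c' : ℕ → ℝ) {U : ℝ → ℝ → E}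
    (hU : Sol S (u0 p) T K c U) (hK : IsCompact K) (hKO : K ⊆ S.Om) (hK' : IsCompact K')
    (hKO' : K' ⊆ S.Om) (j : ℕ) {ε : ℝ} (hε : 0 < ε) :
    ∀ᶠ p' in 𝓝 p, ∀ T' ≤ T, ∀ U', Sol S (u0 p') T' K' c' U' → ∀ s ∈ Icc 0 T',
      ∀ x ∈ Icc (0 : ℝ) 1, ‖jet j (U' s) x - jet j (U s) x‖ ≤ ε := by
  obtain ⟨η, hη, H⟩ := interp2 (E := E) c' c j hε
  obtain ⟨L, hL0, hL⟩ := stab S (hK'.union hK) (union_subset hKO' hKO)
    (max (c' 1) (max (c 1) (c 2)))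
  have hE := Real.exp_pos (L * T)
  filter_upwards [hp (η / Real.exp (L * T)) (by positivity)] with p' hp' T' hT U' hU' s hs
  have hs' : s ∈ Icc 0 T := ⟨hs.1, hs.2.trans hT⟩
  refine H _ _ (SmR.slice hU'.sol.smooth hs) (SmR.slice hU.sol.smooth hs') fun x hx =>
    ⟨?_, (hU'.bd s hs x hx).2, (hU.bd s hs' x hx).2⟩
  have hb := (hU.mono hT).bd
  refine (hL 0 T' _ U' U hU'.sol (hU.mono hT).sol (fun t ht y hy =>
    ⟨Or.inl (hU'.bd t ht y hy).1, Or.inr (hb t ht y hy).1,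
    ((hU'.bd t ht y hy).2 1).trans (le_max_left _ _),
    ((hb t ht y hy).2 1).trans ((le_max_left _ _).trans (le_max_right _ _)),
    ((hb t ht y hy).2 2).trans ((le_max_right _ _).trans (le_max_right _ _))⟩)
    (fun y hy => by rw [hU'.init y hy, hU.init y hy]; exact hp' y hy) s hs x hx).trans ?_
  rw [div_mul_eq_mul_div, div_le_iff₀ hE]
  refine mul_le_mul_of_nonneg_left (Real.exp_le_exp.2 ?_) hη.le
  exact mul_le_mul_of_nonneg_left (by linarith [hs'.2]) hL0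

/-- nearby data have bounded solutions on the same time interval -/
theorem near (hloc : LocStmt) (hsm : ∀ p, ContDiffOn ℝ ∞ (u0 p) (Icc 0 1))
    (hbd : ∀ j, ∃ C, ∀ p, ∀ x ∈ Icc (0 : ℝ) 1, ‖jet j (u0 p) x‖ ≤ C)
    (hp : ∀ ε, 0 < ε → ∀ᶠ p' in 𝓝 p, ∀ x ∈ Icc (0 : ℝ) 1, ‖u0 p' x - u0 p x‖ ≤ ε)
    {T : ℝ} (hT : 0 ≤ T) {K : Set (ℝ × E)} {c : ℕ → ℝ} {U : ℝ → ℝ → E}
    (hU : Sol S (u0 p) T K c U) (hK : IsCompact K) (hKO : K ⊆ S.Om) :
    ∃ K' : Set (ℝ × E), IsCompact K' ∧ K' ⊆ S.Om ∧ ∃ c' : ℕ → ℝ,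
      ∀ᶠ p' in 𝓝 p, ∃ U', Sol S (u0 p') T K' c' U' := by
  obtain ⟨η, hη, hηO⟩ := hK.exists_cthickening_subset_open S.isOpen hKO
  obtain ⟨τ, hτ, K1, hK1, hKO1, H⟩ := hloc E S _ hK.cthickening hηO
    (|c 0| + |c 1| + |c 2| + |c 3| + 1)
  have hη1 : 0 < min η 1 := lt_min hη one_pos
  have start : ∀ c1 : ℕ → ℝ, ∃ c2 : ℕ → ℝ, ∀ s ∈ Icc 0 T, ∀ f : ℝ → E,
      ContDiffOn ℝ ∞ f (Icc 0 1) → (∀ x ∈ Icc (0 : ℝ) 1, ∀ j, ‖jet j f x‖ ≤ c1 j) →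
      (∀ j ≤ 3, ∀ x ∈ Icc (0 : ℝ) 1, ‖jet j f x - jet j (U s) x‖ ≤ min η 1) →
      ∃ V, Sol S f τ K1 c2 V := by
    intro c1
    obtain ⟨c2, h2⟩ := H c1
    refine ⟨c2, fun s hs f hf hb hc => ?_⟩
    refine (h2 f hf fun x hx => ⟨?_, fun j hj => ?_, hb x hx⟩).imp fun V h => ⟨h.1, h.2.1, h.2.2⟩
    · refine Metric.mem_cthickening_of_dist_le _ _ _ _ (hU.bd s hs x hx).1 ?_
      rw [Prod.dist_eq, dist_self, dist_eq_norm]
      exact max_le hη.le ((hc 0 (Nat.zero_le _) x hx).trans (min_le_left _ _))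
    · have h6 := (norm_le_insert' (jet j f x) (jet j (U s) x)).trans (add_le_add
        ((hU.bd s hs x hx).2 j) ((hc j hj x hx).trans (min_le_right _ _)))
      have := abs_nonneg (c 0); have := abs_nonneg (c 1)
      have := abs_nonneg (c 2); have := abs_nonneg (c 3)
      have := le_abs_self (c j)
      interval_cases j <;> linarith
  have ind : ∀ k : ℕ, ∃ K' : Set (ℝ × E), IsCompact K' ∧ K' ⊆ S.Om ∧ ∃ c' : ℕ → ℝ,
      ∀ᶠ p' in 𝓝 p, ∃ U', Sol S (u0 p') (min (k * (τ / 2)) T + τ) K' c' U' := by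
    intro k
    induction k with
    | zero =>
      choose c1 hc1 using hbd
      obtain ⟨c2, h2⟩ := start c1
      refine ⟨K1, hK1, hKO1, c2, ?_⟩
      have h3 : ∀ j, ∀ᶠ p' in 𝓝 p, ∀ x ∈ Icc (0 : ℝ) 1,
          ‖jet j (u0 p') x - jet j (U 0) x‖ ≤ min η 1 := fun j => by
        obtain ⟨δ, hδ, h4⟩ := interp2 (E := E) c1 c1 j hη1
        filter_upwards [hp δ hδ] with p' hp' x hx
        rw [jet_congr hU.init j hx]
        exact h4 _ _ (hsm p') (hsm p)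
          (fun y hy => ⟨hp' y hy, fun i => hc1 i p' y hy, fun i => hc1 i p y hy⟩) x hx
      filter_upwards [(eventually_all_finite (finite_le_nat 3)).2 fun j _ => h3 j] with p' hp'
      simpa [min_eq_left hT] using h2 0 ⟨le_rfl, hT⟩ _ (hsm p')
        (fun x hx j => hc1 j p' x hx) fun j hj => hp' j hj
    | succ k ih =>
      obtain ⟨K', hK', hKO', c', ih⟩ := ih
      obtain ⟨c2, h2⟩ := start c'
      refine ⟨K' ∪ K1, hK'.union hK1, union_subset hKO' hKO1, fun j => max (c' j) (c2 j), ?_⟩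
      set s := min (((k + 1 : ℕ) : ℝ) * (τ / 2)) T with hs
      have hs0 : 0 ≤ s := le_min (by positivity) hT
      have hsT : s ≤ T := min_le_right _ _
      have hs1 : s < min (k * (τ / 2)) T + τ := by
        rw [← min_add_add_right, lt_min_iff]
        refine ⟨(min_le_left _ _).trans_lt ?_, by linarith⟩
        push_cast; linarith
      filter_upwards [ih, (eventually_all_finite (finite_le_nat 3)).2 fun j _ =>
        close hp c' hU hK hKO hK' hKO' j hη1] with p' ⟨U', hU'⟩ hp'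
      obtain ⟨V, hV⟩ := h2 s ⟨hs0, hsT⟩ (U' s) (SmR.slice hU'.sol.smooth ⟨hs0, hs1.le⟩)
        (fun x hx => (hU'.bd s ⟨hs0, hs1.le⟩ x hx).2)
        fun j hj => hp' j hj s hsT U' (hU'.mono hs1.le) s ⟨hs0, le_rfl⟩
      exact ⟨_, hU'.glue hV hs0 hs1 hτ⟩
  obtain ⟨k, hk⟩ := exists_nat_ge (T / (τ / 2))
  rw [div_le_iff₀ (by positivity)] at hk
  obtain ⟨K', hK', hKO', c', h⟩ := ind k
  refine ⟨K', hK', hKO', c', h.mono fun p' ⟨U', hU'⟩ => ⟨U', hU'.mono ?_⟩⟩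
  rw [min_eq_right hk]; linarith

end Crest.Agent.N207.S.Ex
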