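import Crest.Agent.N207.S.Ex.Asm1

/-!
Row 207, S0320, block EX (helper49): `LocStmt → FlowStmt`.
-/

set_option autoImplicit false

open Set Filter
open scoped Topology ContDiff

noncomputable section
namespace Crest.Agent.N207.S.Ex

variable {E : Type} [NormedAddCommGroup E] [InnerProductSpace ℝ E] [FiniteDimensional ℝ E]

/-- the domain of the flow -/
def dom (S : Sys E) {P : Type} (u0 : P → ℝ → E) : Set (P × ℝ) :=
  {y | 0 ≤ y.2 ∧ ∃ z : ℝ × (ℝ → ℝ → E), y.2 < z.1 ∧ IsSol S 0 z.1 z.2 ∧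
    ∀ x ∈ Icc (0 : ℝ) 1, z.2 0 x = u0 y.1 x}

open Classical in
/-- the flow -/
def flw (S : Sys E) {P : Type} (u0 : P → ℝ → E) (p : P) (t : ℝ) : ℝ → E :=
  if h : (p, t) ∈ dom S u0 then h.2.choose.2 t else u0 p

theorem flw_eq {S : Sys E} {P : Type} {u0 : P → ℝ → E} {p : P} {T : ℝ} {U : ℝ → ℝ → E}
    (hU : IsSol S 0 T U) (h0 : ∀ x ∈ Icc (0 : ℝ) 1, U 0 x = u0 p x) {t : ℝ} (ht : t ∈ Ico 0 T) :
    ∀ x ∈ Icc (0 : ℝ) 1, flw S u0 p t x = U t x := by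
  have h : (p, t) ∈ dom S u0 := ⟨ht.1, (T, U), ht.2, hU, h0⟩
  obtain ⟨h1, h2, h3⟩ := h.2.choose_spec
  rw [flw, dif_pos h]
  exact (h2.mono le_rfl h1.le).uniq (hU.mono le_rfl ht.2.le)
    (fun x hx => by rw [h3 x hx, h0 x hx]) t ⟨ht.1, le_rfl⟩

theorem flow_of_loc (hloc : LocStmt) : FlowStmt := by
  intro E _ _ _ S P _ u0 hsm hmem hbd hp
  have hsol : ∀ y ∈ dom S u0, ∃ T K c U, y.2 < T ∧ IsCompact K ∧ K ⊆ S.Om ∧
      Sol S (u0 y.1) T K c U := by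
    rintro y ⟨h0, ⟨T, U⟩, h1, h2, h3⟩
    obtain ⟨K, hK, hKO, c, hc⟩ := h2.cpt (h0.trans_lt h1)
    exact ⟨T, K, c, U, h1, hK, hKO, h2, h3, hc⟩
  have hz : ∀ p, (p, (0 : ℝ)) ∈ dom S u0 := by
    intro p
    choose c hc using hbd
    obtain ⟨τ, hτ, K', -, -, H⟩ := hloc E S ((fun x => (x, u0 p x)) '' Icc 0 1)
      (isCompact_Icc.image_of_continuousOn (continuousOn_id.prodMk (hsm p).continuousOn))
      (by rintro _ ⟨x, hx, rfl⟩; exact hmem p x hx) (|c 0| + |c 1| + |c 2| + |c 3|)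
    obtain ⟨c', H⟩ := H c
    obtain ⟨U, h1, h2, -⟩ := H (u0 p) (hsm p) fun x hx =>
      ⟨⟨x, hx, rfl⟩, fun j hj => by
        have := (hc j p x hx).trans (le_abs_self _)
        have := abs_nonneg (c 0); have := abs_nonneg (c 1)
        have := abs_nonneg (c 2); have := abs_nonneg (c 3)
        interval_cases j <;> linarith, fun j => hc j p x hx⟩
    exact ⟨le_rfl, (τ, U), hτ, h1, h2⟩
  refine ⟨dom S u0, flw S u0, hz, fun y hy => hy.1, ?_, fun y hy => ?_, ?_, fun p x hx => ?_,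
    fun j => ?_, ?_⟩
  · rintro p t s ⟨-, z, h1, h2⟩ hs hst
    exact ⟨hs, z, hst.trans_lt h1, h2⟩
  · obtain ⟨T, K, c, U, h1, hK, hKO, hU⟩ := hsol y hy
    obtain ⟨K', -, -, c', h⟩ := near hloc hsm hbd (hp y.1) (hy.1.trans h1.le) hU hK hKO
    filter_upwards [(continuous_fst.tendsto y).eventually h,
      (continuous_snd.tendsto y).eventually (gt_mem_nhds h1)] with z ⟨U', hU'⟩ h2 h3
    exact ⟨h3, (T, U'), h2, hU'.sol, hU'.init⟩
  · rintro p t ⟨-, ⟨T, U⟩, h1, h2, h3⟩ -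
    exact (h2.mono le_rfl h1.le).congr fun s hs => flw_eq h2 h3 ⟨hs.1, hs.2.trans_lt h1⟩
  · obtain ⟨-, ⟨T, U⟩, h1, h2, h3⟩ := hz p
    rw [flw_eq h2 h3 ⟨le_rfl, h1⟩ x hx, h3 x hx]
  · rintro ⟨y, x⟩ ⟨hy, hx⟩
    obtain ⟨T, K, c, U, h1, hK, hKO, hU⟩ := hsol y hy
    obtain ⟨K', hK', hKO', c', h⟩ := near hloc hsm hbd (hp y.1) (hy.1.trans h1.le) hU hK hKO
    rw [ContinuousWithinAt, Metric.tendsto_nhds]
    intro ε hε
    have h2 := close (hp y.1) c' hU hK hKO hK' hKO' j (ε := ε / 2) (by positivity)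
    have t1 : Tendsto (fun z : (P × ℝ) × ℝ => z.1.1) (𝓝[dom S u0 ×ˢ Icc 0 1] (y, x)) (𝓝 y.1) :=
      ((continuous_fst.comp continuous_fst).tendsto (y, x)).mono_left nhdsWithin_le_nhds
    have t2 : ∀ᶠ z : (P × ℝ) × ℝ in 𝓝[dom S u0 ×ˢ Icc 0 1] (y, x), z.1.2 < T :=
      (((continuous_snd.comp continuous_fst).tendsto (y, x)).mono_left
        nhdsWithin_le_nhds).eventually (gt_mem_nhds h1)
    have t3 : Tendsto (fun z : (P × ℝ) × ℝ => (z.1.2, z.2)) (𝓝[dom S u0 ×ˢ Icc 0 1] (y, x))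
        (𝓝[Icc 0 T ×ˢ Icc 0 1] (y.2, x)) := by
      refine tendsto_nhdsWithin_iff.2 ⟨(((continuous_snd.comp continuous_fst).prodMk
        continuous_snd).tendsto (y, x)).mono_left nhdsWithin_le_nhds, ?_⟩
      filter_upwards [t2, self_mem_nhdsWithin] with z a b using ⟨⟨b.1.1, a.le⟩, b.2⟩
    have t4 := Metric.tendsto_nhds.1 (((SmR.jet (hy.1.trans_lt h1) j hU.sol.smooth).continuousOn
      (y.2, x) ⟨⟨hy.1, h1.le⟩, hx⟩).tendsto.comp t3) (ε / 2) (by positivity)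
    filter_upwards [t1.eventually h, t1.eventually h2, t2, t4, self_mem_nhdsWithin]
      with z ⟨U', hU'⟩ a2 a3 a4 a5
    rw [jet_congr (flw_eq hU'.sol hU'.init ⟨a5.1.1, a3⟩) j a5.2,
      jet_congr (flw_eq hU.sol hU.init ⟨hy.1, h1⟩) j hx]
    have a6 := a2 T le_rfl U' hU' z.1.2 ⟨a5.1.1, a3.le⟩ z.2 a5.2
    rw [← dist_eq_norm] at a6
    refine (dist_triangle _ (jet j (U z.1.2) z.2) _).trans_lt ?_
    have a7 : dist (jet j (U z.1.2) z.2) (jet j (U y.2) x) < ε / 2 := a4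
    linarith
  · intro p T hT hD K hK hKO C hb
    obtain ⟨τ, hτ, K', -, -, H⟩ := hloc E S K hK hKO C
    have hs : max 0 (T - τ / 2) ∈ Ico 0 T := ⟨le_max_left _ _, max_lt hT (by linarith)⟩
    set s := max 0 (T - τ / 2) with hsd
    obtain ⟨T1, K1, c, U, h1, -, -, hU⟩ := hsol _ (hD s hs)
    have e := flw_eq hU.sol hU.init ⟨hs.1, h1⟩
    obtain ⟨c', H⟩ := H c
    obtain ⟨V, h2, h3, -⟩ := H (U s) (SmR.slice hU.sol.smooth ⟨hs.1, h1.le⟩) fun x hx =>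
      ⟨by rw [← e x hx]; exact (hb s hs x hx).1,
        fun j hj => by rw [← jet_congr e j hx]; exact (hb s hs x hx).2 j hj,
        (hU.bd s ⟨hs.1, h1.le⟩ x hx).2⟩
    refine ⟨hT.le, (s + τ, _), ?_, glue_sol hU.sol h2 hs.1 h1 hτ h3, fun x hx => ?_⟩
    · have : T - τ / 2 ≤ s := le_max_right _ _
      show T < s + τ
      linarith
    · show (if (0 : ℝ) ≤ s then U 0 else V (0 - s)) x = u0 p x
      rw [if_pos hs.1, hU.init x hx]

end Crest.Agent.N207.S.Ex
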