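import Crest.Agent.N207.S.Ex.MaxP

/-!
Row 207, S0320, block EX: calculus of `C^j` bounds on `[0,1]`.
-/

set_option autoImplicit false
set_option linter.unusedSectionVars false

open Set Filter
open scoped Topology ContDiff

noncomputable section
namespace Crest.Agent.N207.S.Ex

section
variable {F G H : Type*} [NormedAddCommGroup F] [NormedSpace ℝ F] [NormedAddCommGroup G]
  [NormedSpace ℝ G] [NormedAddCommGroup H] [NormedSpace ℝ H]

lemma Bd.mono {j j' : ℕ} {K K' : ℝ} {g : ℝ → F} (h : Bd j K g) (hj : j' ≤ j) (hK : K ≤ K') :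
    Bd j' K' g := fun i hi x hx => (h i (hi.trans hj) x hx).trans hK

lemma Bd.nonneg {j : ℕ} {K : ℝ} {g : ℝ → F} (h : Bd j K g) : 0 ≤ K :=
  (norm_nonneg _).trans (h 0 (Nat.zero_le _) 0 (by simp))

lemma Bd.zero {j : ℕ} {K : ℝ} {g : ℝ → F} (h : Bd j K g) {x : ℝ} (hx : x ∈ Icc (0 : ℝ) 1) :
    ‖g x‖ ≤ K := by simpa using h 0 (Nat.zero_le _) x hx

lemma bd_zero {K : ℝ} {g : ℝ → F} (h : ∀ x ∈ Icc (0 : ℝ) 1, ‖g x‖ ≤ K) : Bd 0 K g :=
  fun i hi x hx => by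
    obtain rfl : i = 0 := by omega
    simpa using h x hx

lemma Bd.deriv {j : ℕ} {K : ℝ} {g : ℝ → F} (h : Bd (j + 1) K g) : Bd j K (deriv g) :=
  fun i hi x hx => by
    rw [← iteratedDeriv_succ']
    exact h (i + 1) (by omega) x hx

lemma bd_succ {j : ℕ} {K : ℝ} {g : ℝ → F} (h0 : ∀ x ∈ Icc (0 : ℝ) 1, ‖g x‖ ≤ K)
    (h : Bd j K (deriv g)) : Bd (j + 1) K g := fun i hi x hx => by
  rcases i with _ | i
  · simpa using h0 x hx
  · rw [iteratedDeriv_succ']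
    exact h i (by omega) x hx

lemma bd_top {j : ℕ} {K : ℝ} {g : ℝ → F} (h : Bd j K g)
    (h1 : ∀ x ∈ Icc (0 : ℝ) 1, ‖iteratedDeriv (j + 1) g x‖ ≤ K) : Bd (j + 1) K g :=
  fun i hi x hx => by
    rcases eq_or_lt_of_le hi with e | e
    · rw [e]; exact h1 x hx
    · exact h i (by omega) x hx

lemma Bd.iter {i j : ℕ} {K : ℝ} {g : ℝ → F} (h : Bd (i + j) K g) :
    Bd i K (iteratedDeriv j g) := by
  induction j generalizing i with
  | zero => simpa using h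
  | succ j ih =>
    rw [iteratedDeriv_succ]
    exact (ih (i := i + 1) (by rwa [add_assoc, add_comm 1 j])).deriv

lemma contDiff_iter (j : ℕ) {g : ℝ → F} (h : ContDiff ℝ ∞ g) : ContDiff ℝ ∞ (iteratedDeriv j g) := by
  induction j with
  | zero => simpa using h
  | succ j ih => rw [iteratedDeriv_succ]; exact contDiff_deriv ih

lemma hda {g : ℝ → F} (h : ContDiff ℝ ∞ g) (x : ℝ) : HasDerivAt g (deriv g x) x :=
  (h.differentiable (by simp) x).hasDerivAt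

lemma exists_bd (j : ℕ) {g : ℝ → F} (h : ContDiff ℝ ∞ g) : ∃ K, Bd j K g := by
  induction j generalizing g with
  | zero =>
    obtain ⟨K, hK⟩ := (isCompact_Icc (a := (0 : ℝ)) (b := 1)).exists_bound_of_continuousOn
      h.continuous.continuousOn
    exact ⟨K, bd_zero hK⟩
  | succ j ih =>
    obtain ⟨K, hK⟩ := (isCompact_Icc (a := (0 : ℝ)) (b := 1)).exists_bound_of_continuousOn
      h.continuous.continuousOn
    obtain ⟨L, hL⟩ := ih (contDiff_deriv h)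
    exact ⟨max K L, bd_succ (fun x hx => (hK x hx).trans (le_max_left _ _))
      (hL.mono le_rfl (le_max_right _ _))⟩

lemma bd_const (j : ℕ) (c : F) : Bd j ‖c‖ (fun _ : ℝ => c) := fun i _ x _ => by
  rcases i with _ | i
  · simp
  · rw [iteratedDeriv_const]; simp

lemma Bd.add {j : ℕ} {K L : ℝ} {f g : ℝ → F} (hf : Bd j K f) (hg : Bd j L g)
    (sf : ContDiff ℝ ∞ f) (sg : ContDiff ℝ ∞ g) : Bd j (K + L) (fun x => f x + g x) := by
  induction j generalizing f g with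
  | zero => exact bd_zero fun x hx => norm_add_le_of_le (hf.zero hx) (hg.zero hx)
  | succ j ih =>
    refine bd_succ (fun x hx => norm_add_le_of_le (hf.zero hx) (hg.zero hx)) ?_
    have : _root_.deriv (fun x => f x + g x) = fun x => _root_.deriv f x + _root_.deriv g x :=
      funext fun x => ((hda sf x).fun_add (hda sg x)).deriv
    rw [this]
    exact ih hf.deriv hg.deriv (contDiff_deriv sf) (contDiff_deriv sg)

lemma Bd.clm {j : ℕ} {K : ℝ} {f : ℝ → F} (T : F →L[ℝ] G) (hf : Bd j K f)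
    (sf : ContDiff ℝ ∞ f) : Bd j (‖T‖ * K) (fun x => T (f x)) := by
  have h0 : ∀ {j : ℕ} {f : ℝ → F}, Bd j K f → ∀ x ∈ Icc (0 : ℝ) 1, ‖T (f x)‖ ≤ ‖T‖ * K :=
    fun hf x hx => (T.le_opNorm _).trans (mul_le_mul_of_nonneg_left (hf.zero hx) (norm_nonneg _))
  induction j generalizing f with
  | zero => exact bd_zero (h0 hf)
  | succ j ih =>
    refine bd_succ (h0 hf) ?_
    have : _root_.deriv (fun x => T (f x)) = fun x => T (_root_.deriv f x) :=
      funext fun x => (T.hasFDerivAt.comp_hasDerivAt x (hda sf x)).deriv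
    rw [this]
    exact ih hf.deriv (contDiff_deriv sf)

lemma Bd.bilin {j : ℕ} {K L : ℝ} {f : ℝ → F} {g : ℝ → G} (B : F →L[ℝ] G →L[ℝ] H) (hB : ‖B‖ ≤ 1)
    (hf : Bd j K f) (hg : Bd j L g) (sf : ContDiff ℝ ∞ f) (sg : ContDiff ℝ ∞ g) :
    Bd j (2 ^ j * (K * L)) (fun x => B (f x) (g x)) := by
  have h0 : ∀ {j : ℕ} {f : ℝ → F} {g : ℝ → G}, Bd j K f → Bd j L g →
      ∀ x ∈ Icc (0 : ℝ) 1, ‖B (f x) (g x)‖ ≤ K * L := fun hf hg x hx => by
    refine (B.le_opNorm₂ _ _).trans ?_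
    have h1 := mul_le_mul hB (hf.zero hx) (norm_nonneg _) zero_le_one
    rw [one_mul] at h1
    exact mul_le_mul h1 (hg.zero hx) (norm_nonneg _) hf.nonneg
  induction j generalizing f g with
  | zero => exact bd_zero fun x hx => by simpa using h0 hf hg x hx
  | succ j ih =>
    have hKL : 0 ≤ K * L := mul_nonneg hf.nonneg hg.nonneg
    refine bd_succ (fun x hx => (h0 hf hg x hx).trans
      (le_mul_of_one_le_left hKL (one_le_pow₀ one_le_two))) ?_
    have : _root_.deriv (fun x => B (f x) (g x)) =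
        fun x => B (_root_.deriv f x) (g x) + B (f x) (_root_.deriv g x) :=
      funext fun x =>
        ((B.hasFDerivAt.comp_hasDerivAt x (hda sf x)).clm_apply (hda sg x)).deriv
    rw [this]
    have s1 := contDiff_deriv sf
    have s2 := contDiff_deriv sg
    refine ((ih hf.deriv (hg.mono (Nat.le_succ j) le_rfl) s1 sg).add
      (ih (hf.mono (Nat.le_succ j) le_rfl) hg.deriv sf s2) (by fun_prop) (by fun_prop)).mono
      le_rfl (le_of_eq (by ring))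

lemma Bd.smul {j : ℕ} {K L : ℝ} {f : ℝ → ℝ} {g : ℝ → G} (hf : Bd j K f) (hg : Bd j L g)
    (sf : ContDiff ℝ ∞ f) (sg : ContDiff ℝ ∞ g) :
    Bd j (2 ^ j * (K * L)) (fun x => f x • g x) :=
  Bd.bilin (ContinuousLinearMap.lsmul ℝ ℝ) ContinuousLinearMap.opNorm_lsmul_le hf hg sf sg

lemma Bd.app {j : ℕ} {K L : ℝ} {f : ℝ → G →L[ℝ] H} {g : ℝ → G} (hf : Bd j K f) (hg : Bd j L g)
    (sf : ContDiff ℝ ∞ f) (sg : ContDiff ℝ ∞ g) :
    Bd j (2 ^ j * (K * L)) (fun x => f x (g x)) :=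
  Bd.bilin (ContinuousLinearMap.id ℝ (G →L[ℝ] H)) ContinuousLinearMap.norm_id_le hf hg sf sg

lemma Bd.csmul {j : ℕ} {K : ℝ} {f : ℝ → F} (c : ℝ) (hf : Bd j K f) (sf : ContDiff ℝ ∞ f) :
    Bd j (|c| * K) (fun x => c • f x) := by
  have := hf.clm (c • ContinuousLinearMap.id ℝ F) sf
  refine Bd.mono this le_rfl (mul_le_mul_of_nonneg_right ?_ hf.nonneg)
  rw [norm_smul, Real.norm_eq_abs]
  exact mul_le_of_le_one_right (abs_nonneg _) ContinuousLinearMap.norm_id_le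

lemma Bd.pair {j : ℕ} {K L : ℝ} {f : ℝ → F} {g : ℝ → G} (hf : Bd j K f) (hg : Bd j L g)
    (sf : ContDiff ℝ ∞ f) (sg : ContDiff ℝ ∞ g) : Bd j (K + L) (fun x => (f x, g x)) := by
  have h1 := (hf.clm (ContinuousLinearMap.inl ℝ F G) sf).add
    (hg.clm (ContinuousLinearMap.inr ℝ F G) sg) (by fun_prop) (by fun_prop)
  have e : (fun x => ContinuousLinearMap.inl ℝ F G (f x) + ContinuousLinearMap.inr ℝ F G (g x)) =
      fun x => (f x, g x) := by funext x; simp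
  rw [e] at h1
  exact h1.mono le_rfl (add_le_add
    (mul_le_of_le_one_left hf.nonneg (ContinuousLinearMap.norm_inl_le_one ℝ F G))
    (mul_le_of_le_one_left hg.nonneg (ContinuousLinearMap.norm_inr_le_one ℝ F G)))

end

variable {E : Type} [NormedAddCommGroup E] [NormedSpace ℝ E] [FiniteDimensional ℝ E]

lemma deriv_comp_graph {H : Type*} [NormedAddCommGroup H] [NormedSpace ℝ H] {Φ : ℝ × E → H}
    (hΦ : ContDiff ℝ ∞ Φ) {u : ℝ → E} (hu : ContDiff ℝ ∞ u) :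
    deriv (fun x => Φ (x, u x)) = fun x => fderiv ℝ Φ (x, u x) (1, deriv u x) := by
  funext x
  exact ((hΦ.differentiable (by simp) _).hasFDerivAt.comp_hasDerivAt x
    ((hasDerivAt_id x).prodMk (hda hu x))).deriv

lemma bd_comp0 {H : Type*} [NormedAddCommGroup H] {Φ : ℝ × E → H} (hΦ : Continuous Φ) (K : ℝ) :
    ∃ C, 0 ≤ C ∧ ∀ x ∈ Icc (0 : ℝ) 1, ∀ e : E, ‖e‖ ≤ K → ‖Φ (x, e)‖ ≤ C := by
  have : ProperSpace E := FiniteDimensional.proper ℝ E
  obtain ⟨C, hC⟩ := ((isCompact_Icc (a := (0 : ℝ)) (b := 1)).prod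
    (isCompact_closedBall (0 : E) K)).exists_bound_of_continuousOn hΦ.continuousOn
  exact ⟨max C 0, le_max_right _ _, fun x hx e he =>
    (hC (x, e) ⟨hx, by simpa using he⟩).trans (le_max_left _ _)⟩

lemma bd_comp_step {j : ℕ} {H : Type} [NormedAddCommGroup H] [NormedSpace ℝ H] {Φ : ℝ × E → H}
    (hΦ : ContDiff ℝ ∞ Φ) {K C : ℝ}
    (hC : ∀ u : ℝ → E, ContDiff ℝ ∞ u → Bd j K u → Bd j C fun x => fderiv ℝ Φ (x, u x)) :
    ∃ C', 0 ≤ C' ∧ ∀ (u : ℝ → E) (L : ℝ), ContDiff ℝ ∞ u → Bd j K u → Bd (j + 1) L u →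
      Bd (j + 1) (C' * (1 + L)) fun x => Φ (x, u x) := by
  obtain ⟨C0, h0, hC0⟩ := bd_comp0 hΦ.continuous K
  refine ⟨C0 + 2 ^ j * |C|, by positivity, fun u L hu hK hL => ?_⟩
  have hL0 := hL.nonneg
  have hp : (0 : ℝ) ≤ 2 ^ j * |C| := by positivity
  refine bd_succ (fun x hx => (hC0 x hx _ (hK.zero hx)).trans (by nlinarith)) ?_
  rw [deriv_comp_graph hΦ hu]
  have s1 := contDiff_deriv hu
  have sD : ContDiff ℝ ∞ (fderiv ℝ Φ) := (contDiff_infty_iff_fderiv.1 hΦ).2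
  have h1 := ((hC u hu hK).mono le_rfl (le_abs_self C)).app
    ((bd_const j (1 : ℝ)).pair hL.deriv contDiff_const s1) (by fun_prop) (by fun_prop)
  refine h1.mono le_rfl ?_
  rw [norm_one]
  nlinarith

lemma bd_comp (j : ℕ) : ∀ {H : Type} [NormedAddCommGroup H] [NormedSpace ℝ H] {Φ : ℝ × E → H},
    ContDiff ℝ ∞ Φ → ∀ K : ℝ, ∃ C, 0 ≤ C ∧ ∀ u : ℝ → E, ContDiff ℝ ∞ u → Bd j K u →
      Bd j C fun x => Φ (x, u x) := by
  induction j with
  | zero =>
    intro H _ _ Φ hΦ K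
    obtain ⟨C0, h0, hC0⟩ := bd_comp0 hΦ.continuous K
    exact ⟨C0, h0, fun u _ hK => bd_zero fun x hx => hC0 x hx _ (hK.zero hx)⟩
  | succ j ih =>
    intro H _ _ Φ hΦ K
    obtain ⟨C, -, hC⟩ := ih (contDiff_infty_iff_fderiv.1 hΦ).2 K
    obtain ⟨C', h0, hC'⟩ := bd_comp_step hΦ hC
    refine ⟨C' * (1 + |K|), by positivity, fun u hu hK => ?_⟩
    exact hC' u |K| hu (hK.mono (Nat.le_succ j) le_rfl) (hK.mono le_rfl (le_abs_self K))

/-- tame estimate for compositions. -/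
lemma bd_comp_tame (j : ℕ) {H : Type} [NormedAddCommGroup H] [NormedSpace ℝ H] {Φ : ℝ × E → H}
    (hΦ : ContDiff ℝ ∞ Φ) (K : ℝ) :
    ∃ C', 0 ≤ C' ∧ ∀ (u : ℝ → E) (L : ℝ), ContDiff ℝ ∞ u → Bd j K u → Bd (j + 1) L u →
      Bd (j + 1) (C' * (1 + L)) fun x => Φ (x, u x) := by
  obtain ⟨C, -, hC⟩ := bd_comp j (contDiff_infty_iff_fderiv.1 hΦ).2 K
  exact bd_comp_step hΦ hC

end Crest.Agent.N207.S.Ex
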