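import Crest.Agent.N207.S.Ex.Defs

/-!
Row 207, S0320, block EX: the intermediate statements (helper49).
`CoreStmt → LocStmt → FlowStmt`.
-/

set_option autoImplicit false

open Set Filter
open scoped Topology ContDiff

noncomputable section
namespace Crest.Agent.N207.S.Ex

/-- local existence for core systems: the time depends only on a `C²` bound. -/
def CoreStmt : Prop :=
  ∀ (E : Type) [NormedAddCommGroup E] [InnerProductSpace ℝ E] [FiniteDimensional ℝ E]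
    (S : Core E) (C ε : ℝ), 0 < ε → ∃ τ : ℝ, 0 < τ ∧ ∀ c : ℕ → ℝ, ∃ c' : ℕ → ℝ,
      ∀ u0 : ℝ → E, ContDiff ℝ ∞ u0 → Bd 2 C u0 → (∀ j, Bd j (c j) u0) →
        ∃ U : ℝ → ℝ → E, IsSolF S.F 0 τ U ∧ (∀ x ∈ Icc (0 : ℝ) 1, U 0 x = u0 x) ∧
          ∀ t ∈ Icc 0 τ, ∀ x ∈ Icc (0 : ℝ) 1, ‖U t x - u0 x‖ ≤ ε ∧ ∀ j, ‖jet j (U t) x‖ ≤ c' j

/-- local existence for systems: the time depends only on a compact set and a `C³` bound. -/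
def LocStmt : Prop :=
  ∀ (E : Type) [NormedAddCommGroup E] [InnerProductSpace ℝ E] [FiniteDimensional ℝ E]
    (S : Sys E) (K : Set (ℝ × E)), IsCompact K → K ⊆ S.Om → ∀ C : ℝ,
    ∃ τ : ℝ, 0 < τ ∧ ∃ K' : Set (ℝ × E), IsCompact K' ∧ K' ⊆ S.Om ∧ ∀ c : ℕ → ℝ, ∃ c' : ℕ → ℝ,
      ∀ u0 : ℝ → E, ContDiffOn ℝ ∞ u0 (Icc 0 1) →
        (∀ x ∈ Icc (0 : ℝ) 1, (x, u0 x) ∈ K ∧ (∀ j ≤ 3, ‖jet j u0 x‖ ≤ C) ∧
          ∀ j, ‖jet j u0 x‖ ≤ c j) →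
        ∃ U : ℝ → ℝ → E, IsSol S 0 τ U ∧ (∀ x ∈ Icc (0 : ℝ) 1, U 0 x = u0 x) ∧
          ∀ t ∈ Icc 0 τ, ∀ x ∈ Icc (0 : ℝ) 1, (x, U t x) ∈ K' ∧ ∀ j, ‖jet j (U t) x‖ ≤ c' j

end Crest.Agent.N207.S.Ex
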