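import Crest.Agent.N207.S.Ex.Disc

/-!
Row 207, S0320, block EX: the Rothe sequence and its uniform bounds.
-/

set_option autoImplicit false
set_option linter.unusedSectionVars false

open Set Filter
open scoped Topology ContDiff

noncomputable section
namespace Crest.Agent.N207.S.Ex

variable {E : Type} [NormedAddCommGroup E] [InnerProductSpace ℝ E] [FiniteDimensional ℝ E]

lemma low_aux (S : Core E) (K : ℝ) (j : ℕ) (hj : j ≤ 3) : ∃ h0 A, 0 < h0 ∧ h0 ≤ 1 ∧ 0 ≤ A ∧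
    ∀ h, 0 < h → h ≤ h0 → ∀ (u v : ℝ → E) (L : ℝ), ContDiff ℝ ∞ u → Step S h u v →
      Bd 2 L u → L ≤ K → ∀ l < j, ∀ x ∈ Icc (0 : ℝ) 1, ‖iteratedDeriv l v x‖ ≤ L + h * A := by
  induction j with
  | zero => exact ⟨1, 0, one_pos, le_rfl, le_rfl, fun _ _ _ _ _ _ _ _ _ _ l hl => by omega⟩
  | succ j ih =>
    obtain ⟨h0, A, p0, p1, pA, hA⟩ := ih (by omega)
    obtain ⟨M1, m1, hM1⟩ := bd_comp 2 S.ha K
    obtain ⟨M2, m2, hM2⟩ := bd_comp 2 S.hB K
    obtain ⟨M3, m3, hM3⟩ := bd_comp 2 S.hG K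
    obtain ⟨θ, C, pθ, pC, hl⟩ := level S K (|K| + A) (by positivity) j
    set c := C * (M1 + M2 + M3) with hc
    have pc : 0 ≤ c := by positivity
    refine ⟨min h0 (1 / (2 * θ + 1)), A + (c + 2 * θ * (|K| + c)), by positivity,
      (min_le_left _ _).trans p1, by positivity, fun h hh hh0 u v L hu hv hL hLK l hl' x hx => ?_⟩
    have q0 : h ≤ h0 := hh0.trans (min_le_left _ _)
    have q1 : h * (2 * θ + 1) ≤ 1 := by
      rw [← le_div_iff₀ (by positivity)]; exact hh0.trans (min_le_right _ _)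
    have hK := hL.mono le_rfl hLK
    have pp : 0 ≤ h * (c + 2 * θ * (|K| + c)) := by positivity
    rcases lt_or_eq_of_le (Nat.lt_succ_iff.1 hl') with e | e
    · exact (hA h hh q0 u v L hu hv hL hLK l e x hx).trans (by nlinarith)
    · subst e
      have k := hl h hh (by nlinarith) u v (M1 + M2 + M3) L hu hv hK
        ((hM1 u hu hK).mono (by omega) (by linarith)) ((hM2 u hu hK).mono (by omega) (by linarith))
        ((hM3 u hu hK).mono (by omega) (by linarith))
        (fun i hi y hy => (hA h hh q0 u v L hu hv hL hLK i hi y hy).trans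
          (by nlinarith [le_abs_self K])) (hL l (by omega)) x hx
      refine k.trans ?_
      rw [← hc]
      have r1 : L + h * c ≤ |K| + c := by nlinarith [le_abs_self K]
      have r2 : 2 * h * θ * (L + h * c) ≤ 2 * h * θ * (|K| + c) :=
        mul_le_mul_of_nonneg_left r1 (by positivity)
      nlinarith [mul_nonneg hh.le pA]

lemma low (S : Core E) (K : ℝ) : ∃ h0 A, 0 < h0 ∧ 0 ≤ A ∧
    ∀ h, 0 < h → h ≤ h0 → ∀ (u v : ℝ → E) (L : ℝ), ContDiff ℝ ∞ u → Step S h u v →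
      Bd 2 L u → L ≤ K → Bd 2 (L + h * A) v := by
  obtain ⟨h0, A, p0, -, pA, hA⟩ := low_aux S K 3 le_rfl
  exact ⟨h0, A, p0, pA, fun h hh hh0 u v L hu hv hL hLK l hl =>
    hA h hh hh0 u v L hu hv hL hLK l (by omega)⟩

lemma high (S : Core E) (K K' : ℝ) (hK' : 0 ≤ K') (j : ℕ) : ∃ h0 Θ, 0 < h0 ∧ 0 ≤ Θ ∧
    ∀ h, 0 < h → h ≤ h0 → ∀ (u v : ℝ → E) (L : ℝ), ContDiff ℝ ∞ u → Step S h u v →
      Bd 2 K u → Bd j K' u → Bd j K' v → K' ≤ L → Bd (j + 1) L u →
      Bd (j + 1) ((1 + L) * (1 + h * Θ) - 1) v := by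
  obtain ⟨M1, m1, hM1⟩ := bd_comp_tame j S.ha K'
  obtain ⟨M2, m2, hM2⟩ := bd_comp_tame j S.hB K'
  obtain ⟨M3, m3, hM3⟩ := bd_comp_tame j S.hG K'
  obtain ⟨θ, C, pθ, pC, hl⟩ := level S K K' hK' (j + 1)
  set c := C * (M1 + M2 + M3) with hc
  have pc : 0 ≤ c := by positivity
  refine ⟨1 / (2 * θ + 1), 2 * θ + c + c, by positivity, by positivity,
    fun h hh hh0 u v L hu hv hK hu' hv' hL hu1 => ?_⟩
  have q1 : h * (2 * θ + 1) ≤ 1 := by rwa [← le_div_iff₀ (by positivity)]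
  have pL : 0 ≤ L := hu1.nonneg
  have pp : 0 ≤ (1 + L) * (h * (2 * θ + c + c)) := by positivity
  refine bd_top (hv'.mono le_rfl (by nlinarith)) fun x hx => ?_
  have k := hl h hh (by nlinarith) u v ((M1 + M2 + M3) * (1 + L)) L hu hv hK
    ((hM1 u L hu hu' hu1).mono le_rfl (by nlinarith))
    ((hM2 u L hu hu' hu1).mono le_rfl (by nlinarith))
    ((hM3 u L hu hu' hu1).mono le_rfl (by nlinarith))
    (fun i hi => hv' i (by omega)) (hu1 (j + 1) le_rfl) x hx
  refine k.trans ?_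
  rw [← mul_assoc C, ← hc]
  have r1 : 2 * h * θ * (h * (c * (1 + L))) ≤ 1 * (h * (c * (1 + L))) :=
    mul_le_mul_of_nonneg_right (by nlinarith) (by positivity)
  nlinarith [mul_nonneg hh.le pθ]

open Classical in
/-- the Rothe sequence. -/
def roth (S : Core E) (h : ℝ) (u0 : ℝ → E) : ℕ → ℝ → E
  | 0 => u0
  | n + 1 => if H : ∃ v, Step S h (roth S h u0 n) v then H.choose else roth S h u0 n

lemma roth_step {S : Core E} {h : ℝ} {u0 : ℝ → E} {n : ℕ} (H : ∃ v, Step S h (roth S h u0 n) v) :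
    Step S h (roth S h u0 n) (roth S h u0 (n + 1)) := by
  simp only [roth, dif_pos H]
  exact H.choose_spec

lemma roth_smooth {S : Core E} {h : ℝ} {u0 : ℝ → E} (hu : ContDiff ℝ ∞ u0) (n : ℕ) :
    ContDiff ℝ ∞ (roth S h u0 n) := by
  induction n with
  | zero => exact hu
  | succ n ih =>
    by_cases H : ∃ v, Step S h (roth S h u0 n) v
    · exact (roth_step H).1
    · simp only [roth, dif_neg H]; exact ih

lemma roth_low (S : Core E) (K : ℝ) : ∃ δ h0 : ℝ, 0 < δ ∧ 0 < h0 ∧ ∀ u0 : ℝ → E, ContDiff ℝ ∞ u0 →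
    Bd 2 K u0 → ∀ h : ℝ, 0 < h → h ≤ h0 → ∀ n : ℕ, n * h ≤ δ →
      Bd 2 (K + 1) (roth S h u0 n) ∧ Step S h (roth S h u0 n) (roth S h u0 (n + 1)) := by
  obtain ⟨h0, A, p0, pA, hA⟩ := low S (K + 1)
  obtain ⟨h1, p1, h1'⟩ := step_exists S (K + 1)
  refine ⟨1 / (A + 1), min h0 h1, by positivity, by positivity, fun u0 hu hK h hh hh0 => ?_⟩
  have key : ∀ n : ℕ, n * h ≤ 1 / (A + 1) → n * h * A ≤ 1 := fun n hn => by
    rw [le_div_iff₀ (by positivity)] at hn
    nlinarith [mul_nonneg (Nat.cast_nonneg (α := ℝ) n) hh.le]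
  have st : ∀ n : ℕ, Bd 2 (K + 1) (roth S h u0 n) →
      Step S h (roth S h u0 n) (roth S h u0 (n + 1)) := fun n hn =>
    roth_step (h1' h hh (hh0.trans (min_le_right _ _)) _ (roth_smooth hu n)
      (hn.mono (by omega) le_rfl))
  have main : ∀ n : ℕ, n * h ≤ 1 / (A + 1) → Bd 2 (K + n * h * A) (roth S h u0 n) := by
    intro n
    induction n with
    | zero => intro _; simpa [roth] using hK
    | succ n ih =>
      intro hn
      have hn' : n * h ≤ 1 / (A + 1) := by push_cast at hn; nlinarith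
      have b1 := ih hn'
      have b2 : K + n * h * A ≤ K + 1 := by linarith [key n hn']
      refine (hA h hh (hh0.trans (min_le_left _ _)) _ _ _ (roth_smooth hu n)
        (st n (b1.mono le_rfl b2)) b1 b2).mono le_rfl (le_of_eq ?_)
      push_cast; ring
  intro n hn
  have b := (main n hn).mono le_rfl (show K + n * h * A ≤ K + 1 by linarith [key n hn])
  exact ⟨b, st n b⟩

lemma roth_high (S : Core E) {K δ h1 : ℝ} (p1 : 0 < h1)
    (hlow : ∀ u0 : ℝ → E, ContDiff ℝ ∞ u0 → Bd 2 K u0 → ∀ h : ℝ, 0 < h → h ≤ h1 → ∀ n : ℕ, n * h ≤ δ →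
      Bd 2 (K + 1) (roth S h u0 n) ∧ Step S h (roth S h u0 n) (roth S h u0 (n + 1)))
    (j : ℕ) (L : ℝ) : ∃ C h0 : ℝ, 0 < h0 ∧ h0 ≤ h1 ∧ ∀ u0 : ℝ → E, ContDiff ℝ ∞ u0 → Bd 2 K u0 →
      Bd j L u0 → ∀ h : ℝ, 0 < h → h ≤ h0 → ∀ n : ℕ, n * h ≤ δ → Bd j C (roth S h u0 n) := by
  induction j with
  | zero => exact ⟨K + 1, h1, p1, le_rfl, fun u0 hu hK _ h hh hh0 n hn =>
      (hlow u0 hu hK h hh hh0 n hn).1.mono (by omega) le_rfl⟩
  | succ j ih =>
    obtain ⟨C, h0, p0, p01, hC⟩ := ih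
    obtain ⟨h2, Θ, p2, pΘ, hΘ⟩ := high S (K + 1) |C| (abs_nonneg _) j
    refine ⟨(1 + (|C| + |L|)) * Real.exp (δ * Θ), min h0 h2, by positivity,
      (min_le_left _ _).trans p01, fun u0 hu hK hL h hh hh0 => ?_⟩
    have q0 := hh0.trans (min_le_left _ _)
    have lo : ∀ n : ℕ, n * h ≤ δ → Bd j |C| (roth S h u0 n) := fun n hn =>
      (hC u0 hu hK (hL.mono (by omega) le_rfl) h hh q0 n hn).mono le_rfl (le_abs_self C)
    have main : ∀ n : ℕ, n * h ≤ δ →
        Bd (j + 1) ((1 + (|C| + |L|)) * Real.exp (n * h * Θ) - 1) (roth S h u0 n) := by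
      intro n
      induction n with
      | zero =>
        intro _
        refine Bd.mono (K := L) (by simpa [roth] using hL) le_rfl ?_
        simp only [Nat.cast_zero, zero_mul, Real.exp_zero]
        linarith [abs_nonneg C, le_abs_self L]
      | succ n ih =>
        intro hn
        have hn' : n * h ≤ δ := by push_cast at hn; nlinarith
        have e1 : 1 ≤ Real.exp (n * h * Θ) := Real.one_le_exp (by positivity)
        have l1 := hlow u0 hu hK h hh (q0.trans p01) n hn'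
        refine (hΘ h hh (hh0.trans (min_le_right _ _)) _ _ _ (roth_smooth hu n) l1.2 l1.1
          (lo n hn') (lo (n + 1) hn) (by nlinarith [abs_nonneg C, abs_nonneg L]) (ih hn')).mono
          le_rfl ?_
        have e2 : 1 + h * Θ ≤ Real.exp (h * Θ) := by linarith [Real.add_one_le_exp (h * Θ)]
        have e3 : ((n + 1 : ℕ) : ℝ) * h * Θ = n * h * Θ + h * Θ := by push_cast; ring
        rw [e3, Real.exp_add, add_sub_cancel, ← mul_assoc]
        have := mul_le_mul_of_nonneg_left e2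
          (show 0 ≤ (1 + (|C| + |L|)) * Real.exp (n * h * Θ) by positivity)
        linarith
    intro n hn
    refine (main n hn).mono le_rfl ?_
    have e1 : Real.exp (n * h * Θ) ≤ Real.exp (δ * Θ) :=
      Real.exp_le_exp.2 (mul_le_mul_of_nonneg_right hn pΘ)
    have := mul_le_mul_of_nonneg_left e1 (show 0 ≤ 1 + (|C| + |L|) by positivity)
    linarith

/-- increments of one step. -/
lemma step_incr (S : Core E) (j : ℕ) (C : ℝ) : ∃ C', 0 ≤ C' ∧ ∀ (h : ℝ) (u v : ℝ → E), 0 < h →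
    ContDiff ℝ ∞ u → Step S h u v → Bd j C u → Bd (j + 2) C v →
      ∀ x ∈ Icc (0 : ℝ) 1, ‖iteratedDeriv j v x - iteratedDeriv j u x‖ ≤ h * C' := by
  obtain ⟨M1, m1, hM1⟩ := bd_comp j S.ha C
  obtain ⟨M2, m2, hM2⟩ := bd_comp j S.hB C
  obtain ⟨M3, m3, hM3⟩ := bd_comp j S.hG C
  obtain ⟨P, hP⟩ := exists_bd j contDiff_mu
  have sq : ContDiff ℝ ∞ fun x : ℝ => (S.b : ℝ) * (1 - 2 * x) := by fun_prop
  obtain ⟨Q, hQ⟩ := exists_bd j sq
  refine ⟨|2 ^ j * (M1 * (2 ^ j * (P * C) + 2 ^ j * (Q * C))) + 2 ^ j * (M2 * (2 ^ j * (P * C))) +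
    M3|, abs_nonneg _, fun h u v hh hu hv bu bv x hx => ?_⟩
  have := S.ha
  have := S.hB
  have := S.hG
  have sm := contDiff_mu
  have s1 := contDiff_deriv hv.1
  have s2 := contDiff_deriv s1
  have sv := hv.1
  have b1 : Bd j C (deriv v) := (bv.mono (by omega) le_rfl : Bd (j + 1) C v).deriv
  have b2 : Bd j C (deriv (deriv v)) := bv.deriv.deriv
  have k := ((((hM1 u hu bu).smul ((hP.smul b2 sm s2).add (hQ.smul b1 sq s1) (by fun_prop)
    (by fun_prop)) (by fun_prop) (by fun_prop)).add ((hM2 u hu bu).app (hP.smul b1 sm s1)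
    (by fun_prop) (by fun_prop)) (by fun_prop) (by fun_prop)).add (hM3 u hu bu) (by fun_prop)
    (by fun_prop)).csmul h (by fun_prop)
  have e : ∀ i : ℕ, ∀ x ∈ Icc (0 : ℝ) 1, iteratedDeriv i v x - iteratedDeriv i u x =
      iteratedDeriv i (fun x => h • (S.a (x, u x) • (mu x • deriv (deriv v) x +
        ((S.b : ℝ) * (1 - 2 * x)) • deriv v x) + S.B (x, u x) (mu x • deriv v x) +
        S.G (x, u x))) x := by
    intro i
    induction i with
    | zero =>
      intro x hx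
      have := hv.2 x hx
      simp only [Lop] at this
      simp only [iteratedDeriv_zero]
      rw [eq_add_of_sub_eq this]
      module
    | succ i ih =>
      intro x hx
      have t1 := contDiff_iter i sv
      have t2 := contDiff_iter i hu
      have := deriv_eqOn_Icc (by fun_prop) (contDiff_iter i (by fun_prop)) ih x hx
      rw [((hda t1 x).fun_sub (hda t2 x)).deriv] at this
      simpa only [iteratedDeriv_succ] using this
  rw [e j x hx]
  refine (k j le_rfl x hx).trans ?_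
  rw [abs_of_pos hh]
  exact mul_le_mul_of_nonneg_left (le_abs_self _) hh.le

end Crest.Agent.N207.S.Ex
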