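import Crest.Agent.N207.S.Ex.Lim
import Crest.Agent.N207.S.Ex.Rothe
import Crest.Agent.N207.S.Ex.LDefs

/-!
Row 207, S0320, block EX: local existence for core systems.
-/

set_option autoImplicit false

open Set Filter
open scoped Topology ContDiff

noncomputable section
namespace Crest.Agent.N207.S.Ex

lemma jet_eq_of_smooth {E : Type*} [NormedAddCommGroup E] [NormedSpace ℝ E] {g : ℝ → E}
    (hg : ContDiff ℝ ∞ g) (j : ℕ) {x : ℝ} (hx : x ∈ Icc (0 : ℝ) 1) :
    jet j g x = iteratedDeriv j g x :=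
  iteratedDerivWithin_eq_iteratedDeriv (uniqueDiffOn_Icc zero_lt_one)
    (hg.contDiffAt.of_le (by exact_mod_cast le_top)) hx

theorem core : CoreStmt := by
  intro E _ _ _ S K ε hε
  have : CompleteSpace E := FiniteDimensional.complete ℝ E
  obtain ⟨δ, h1, pδ, p1, hlow⟩ := roth_low S K
  obtain ⟨C0, pC0, hC0⟩ := step_incr S 0 (K + 1)
  have hτ : 0 < min δ (ε / (C0 + 1)) := by positivity
  refine ⟨min δ (ε / (C0 + 1)), hτ, fun c => ?_⟩
  choose c' h0 p0 p01 hc' using fun j => roth_high S p1 hlow j (c j)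
  refine ⟨c', fun u0 hu hK hc => ?_⟩
  have ev : ∀ h : ℝ, 0 < h → ∀ᶠ N in atTop, hN N ≤ h := fun h hh =>
    (tendsto_hN.eventually (gt_mem_nhds hh)).mono fun N hN => hN.le
  have le1 : ∀ (N n : ℕ), (n + 1 : ℕ) * hN N ≤ min δ (ε / (C0 + 1)) →
      n * hN N ≤ δ ∧ (n + 1 : ℕ) * hN N ≤ δ := fun N n hn => by
    have h2 := hn.trans (min_le_left _ _)
    refine ⟨le_trans ?_ h2, h2⟩
    exact mul_le_mul_of_nonneg_right (by exact_mod_cast Nat.le_succ n) (hN_pos N).le
  have hF : ContDiff ℝ ∞ fun z : ℝ × E × E × E => S.F (z.1, z.2.1) z.2.2.1 z.2.2.2 := by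
    have := S.ha
    have := S.hB
    have := S.hG
    have := contDiff_mu
    unfold Core.F
    fun_prop
  obtain ⟨D, hD, hE, h0', hb⟩ := scheme_limit (τ := min δ (ε / (C0 + 1))) (C0 := C0) (c := c')
    (w := fun N => roth S (hN N) u0) (u0 := u0) hF (fun N n => roth_smooth hu n) (fun N => rfl)
    (fun j => (ev _ (p0 j)).mono fun N hN' n hn =>
      hc' j u0 hu hK (hc j) _ (hN_pos N) hN' n (hn.trans (min_le_left _ _)))
    (fun j => by
      by_cases hj : j = 0
      · subst hj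
        refine ⟨C0, pC0, fun _ => rfl, (ev _ p1).mono fun N hN' n hn => ?_⟩
        have a := hlow u0 hu hK _ (hN_pos N) hN' n (le1 N n hn).1
        have b := hlow u0 hu hK _ (hN_pos N) hN' (n + 1) (le1 N n hn).2
        exact hC0 _ _ _ (hN_pos N) (roth_smooth hu n) a.2 (a.1.mono (by omega) le_rfl) b.1
      · obtain ⟨C, pC, hC⟩ := step_incr S j (c' (j + 2))
        refine ⟨C, pC, fun h => absurd h hj, (ev _ (p0 (j + 2))).mono fun N hN' n hn => ?_⟩
        have a := hlow u0 hu hK _ (hN_pos N) (hN'.trans (p01 _)) n (le1 N n hn).1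
        exact hC _ _ _ (hN_pos N) (roth_smooth hu n) a.2
          ((hc' _ u0 hu hK (hc _) _ (hN_pos N) hN' n (le1 N n hn).1).mono (by omega) le_rfl)
          (hc' _ u0 hu hK (hc _) _ (hN_pos N) hN' (n + 1) (le1 N n hn).2))
    ((ev _ p1).mono fun N hN' n hn x hx => by
      have a := (hlow u0 hu hK _ (hN_pos N) hN' n (le1 N n hn).1).2.2 x hx
      simp only [Lop] at a
      simp only [Core.F, iteratedDeriv_succ, iteratedDeriv_zero]
      rw [eq_add_of_sub_eq a]
      module)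
  refine ⟨D 0, hD.isSolF hτ hF hE, h0', fun t ht x hx => ⟨(hb t ht x hx).1.trans ?_, fun j => ?_⟩⟩
  · have h2 := ht.2.trans (min_le_right _ _)
    rw [le_div_iff₀ (by positivity)] at h2
    nlinarith [ht.1]
  · rw [hD.jet_eq j ht x hx]
    exact (hb t ht x hx).2 j

end Crest.Agent.N207.S.Ex
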