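import Mathlib

/-!
Row 207, S0320, block EX: definitions.  Degenerate parabolic systems on `[0,1]`,
`U_t = a(x,U) μ U'' + Ψ((x,U),U')` with `μ = x(1-x)` and inward drift `± a b` at the poles.
-/

set_option autoImplicit false

open Set Filter
open scoped Topology ContDiff

noncomputable section
namespace Crest.Agent.N207.S.Ex

/-- the degenerate diffusion factor `μ(x) = x(1-x)`. -/
def mu (x : ℝ) : ℝ := x * (1 - x)

/-- `j`-th derivative of `f` on the closed interval `[0,1]`. -/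
abbrev jet {E : Type*} [NormedAddCommGroup E] [NormedSpace ℝ E] (j : ℕ) (f : ℝ → E) (x : ℝ) : E :=
  iteratedDerivWithin j f (Icc 0 1) x

/-- smooth solutions of `U_t = Φ (x,U) U' U''` on the closed rectangle `[t0,t1] × [0,1]`. -/
structure IsSolF {E : Type*} [NormedAddCommGroup E] [NormedSpace ℝ E]
    (Φ : ℝ × E → E → E → E) (t0 t1 : ℝ) (U : ℝ → ℝ → E) : Prop where
  smooth : ContDiffOn ℝ ∞ (fun p : ℝ × ℝ => U p.1 p.2) (Icc t0 t1 ×ˢ Icc 0 1)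
  eqn : ∀ t ∈ Icc t0 t1, ∀ x ∈ Icc (0 : ℝ) 1,
    HasDerivWithinAt (fun s => U s x) (Φ (x, U t x) (jet 1 (U t) x) (jet 2 (U t) x)) (Icc t0 t1) t

/-- the data of a degenerate parabolic system on `[0,1]`. -/
structure Sys (E : Type) [NormedAddCommGroup E] [NormedSpace ℝ E] where
  b : ℕ
  hb : 1 ≤ b
  Om : Set (ℝ × E)
  isOpen : IsOpen Om
  a : ℝ × E → ℝ
  Psi : (ℝ × E) × E → E
  ha : ContDiffOn ℝ ∞ a Om
  hPsi : ContDiffOn ℝ ∞ Psi (Om ×ˢ univ)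
  apos : ∀ y ∈ Om, 0 < a y
  pole0 : ∀ u p, ((0 : ℝ), u) ∈ Om → Psi ((0, u), p) = Psi ((0, u), 0) + (a (0, u) * b) • p
  pole1 : ∀ u p, ((1 : ℝ), u) ∈ Om → Psi ((1, u), p) = Psi ((1, u), 0) - (a (1, u) * b) • p

/-- right-hand side of a system. -/
def Sys.F {E : Type} [NormedAddCommGroup E] [NormedSpace ℝ E] (S : Sys E)
    (y : ℝ × E) (d1 d2 : E) : E :=
  (S.a y * mu y.1) • d2 + S.Psi (y, d1)

/-- smooth solutions of the system with graph in the domain. -/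
structure IsSol {E : Type} [NormedAddCommGroup E] [NormedSpace ℝ E] (S : Sys E) (t0 t1 : ℝ)
    (U : ℝ → ℝ → E) : Prop extends IsSolF S.F t0 t1 U where
  mem : ∀ t ∈ Icc t0 t1, ∀ x ∈ Icc (0 : ℝ) 1, (x, U t x) ∈ S.Om

/-- The output of block EX for a family of initial data `u0 p`. -/
structure IsFlow {E : Type} [NormedAddCommGroup E] [NormedSpace ℝ E] (S : Sys E)
    {P : Type*} [TopologicalSpace P] (u0 : P → ℝ → E) (D : Set (P × ℝ))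
    (U : P → ℝ → ℝ → E) : Prop where
  zero_mem : ∀ p, (p, (0 : ℝ)) ∈ D
  nonneg : ∀ y ∈ D, 0 ≤ y.2
  down : ∀ p t s, (p, t) ∈ D → 0 ≤ s → s ≤ t → (p, s) ∈ D
  opn : ∀ y ∈ D, ∀ᶠ z in 𝓝 y, 0 ≤ z.2 → z ∈ D
  sol : ∀ p t, (p, t) ∈ D → 0 < t → IsSol S 0 t (U p)
  init : ∀ p, ∀ x ∈ Icc (0 : ℝ) 1, U p 0 x = u0 p x
  cont : ∀ j, ContinuousOn (fun y : (P × ℝ) × ℝ => jet j (U y.1.1 y.1.2) y.2) (D ×ˢ Icc 0 1)
  extend : ∀ p T, 0 < T → (∀ t ∈ Ico 0 T, (p, t) ∈ D) → ∀ K : Set (ℝ × E), IsCompact K →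
    K ⊆ S.Om → ∀ C : ℝ, (∀ t ∈ Ico 0 T, ∀ x ∈ Icc (0 : ℝ) 1, (x, U p t x) ∈ K ∧
      ∀ j ≤ 3, ‖jet j (U p t) x‖ ≤ C) → (p, T) ∈ D

/-- The statement proved by block EX (`Ex/Flow`). -/
def FlowStmt : Prop :=
  ∀ (E : Type) [NormedAddCommGroup E] [InnerProductSpace ℝ E] [FiniteDimensional ℝ E]
    (S : Sys E) (P : Type) [TopologicalSpace P] (u0 : P → ℝ → E),
    (∀ p, ContDiffOn ℝ ∞ (u0 p) (Icc 0 1)) →
    (∀ p, ∀ x ∈ Icc (0 : ℝ) 1, (x, u0 p x) ∈ S.Om) →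
    (∀ j, ∃ C, ∀ p, ∀ x ∈ Icc (0 : ℝ) 1, ‖jet j (u0 p) x‖ ≤ C) →
    (∀ p ε, 0 < ε → ∀ᶠ p' in 𝓝 p, ∀ x ∈ Icc (0 : ℝ) 1, ‖u0 p' x - u0 p x‖ ≤ ε) →
    ∃ D U, IsFlow S u0 D U

/-- the model operator `μ v'' + c (1-2x) v'`. -/
def Lop {E : Type*} [NormedAddCommGroup E] [NormedSpace ℝ E] (c : ℝ) (v : ℝ → E) (x : ℝ) : E :=
  mu x • deriv (deriv v) x + (c * (1 - 2 * x)) • deriv v x

/-- the globally defined semilinear-in-`U'` systems `U_t = a L_b U + B (μ U') + G`. -/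
structure Core (E : Type) [NormedAddCommGroup E] [NormedSpace ℝ E] where
  b : ℕ
  hb : 1 ≤ b
  a : ℝ × E → ℝ
  B : ℝ × E → E →L[ℝ] E
  G : ℝ × E → E
  ha : ContDiff ℝ ∞ a
  hB : ContDiff ℝ ∞ B
  hG : ContDiff ℝ ∞ G
  apos : ∀ y, 0 < a y

/-- right-hand side of a core system. -/
def Core.F {E : Type} [NormedAddCommGroup E] [NormedSpace ℝ E] (S : Core E)
    (y : ℝ × E) (d1 d2 : E) : E :=
  S.a y • (mu y.1 • d2 + ((S.b : ℝ) * (1 - 2 * y.1)) • d1) + S.B y (mu y.1 • d1) + S.G y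

/-- all derivatives of order `≤ j` of `g` are bounded by `K` on `[0,1]`. -/
def Bd {E : Type*} [NormedAddCommGroup E] [NormedSpace ℝ E] (j : ℕ) (K : ℝ) (g : ℝ → E) : Prop :=
  ∀ i ≤ j, ∀ x ∈ Icc (0 : ℝ) 1, ‖iteratedDeriv i g x‖ ≤ K

lemma contDiff_mu : ContDiff ℝ ∞ mu := by unfold mu; fun_prop

lemma hasDerivAt_mu (x : ℝ) : HasDerivAt mu (1 - 2 * x) x := by
  have h := (hasDerivAt_id x).mul ((hasDerivAt_id x).const_sub 1)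
  refine HasDerivAt.congr_deriv h ?_
  simp only [id]; ring

lemma mu_nonneg {x : ℝ} (hx : x ∈ Icc (0 : ℝ) 1) : 0 ≤ mu x :=
  mul_nonneg hx.1 (sub_nonneg.2 hx.2)

lemma mu_le {x : ℝ} : mu x ≤ 1 / 4 := by unfold mu; nlinarith [sq_nonneg (x - 1 / 2)]

end Crest.Agent.N207.S.Ex
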