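import Crest.Agent.N207.S.Ex.Defs
import Crest.Agent.N207.S.MP

/-!
Row 207, S0320, block EX: maximum principle for vector valued functions on `[0,1]`.
-/

set_option autoImplicit false
set_option linter.unusedSectionVars false

open Set Filter
open scoped Topology ContDiff RealInnerProductSpace

noncomputable section
namespace Crest.Agent.N207.S.Ex

variable {E : Type*} [NormedAddCommGroup E] [InnerProductSpace ℝ E]

/-- the sign of the degenerate operator at a maximum point of the norm. -/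
lemma max_inner {v v1 : ℝ → E} {d2 : E} {x κ : ℝ} (hx : x ∈ Icc (0 : ℝ) 1)
    (hv : ∀ y ∈ Icc (0 : ℝ) 1, HasDerivWithinAt v (v1 y) (Icc 0 1) y)
    (hv1 : HasDerivWithinAt v1 d2 (Icc 0 1) x) (hmax : ∀ y ∈ Icc (0 : ℝ) 1, ‖v y‖ ≤ ‖v x‖)
    (h0 : x = 0 → 0 ≤ κ) (h1 : x = 1 → κ ≤ 0) :
    ⟪v x, mu x • d2 + κ • v1 x⟫ + mu x * ‖v1 x‖ ^ 2 ≤ 0 := by
  have hf : ∀ y ∈ Icc (0 : ℝ) 1, HasDerivWithinAt (fun y => ⟪v y, v y⟫ - ⟪v x, v x⟫)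
      (2 * ⟪v y, v1 y⟫) (Icc 0 1) y := fun y hy => by
    refine HasDerivWithinAt.congr_deriv (((hv y hy).inner ℝ (hv y hy)).sub_const _) ?_
    rw [real_inner_comm (v y) (v1 y)]; ring
  have hp : ∀ y ∈ Icc (0 : ℝ) 1, ⟪v y, v y⟫ - ⟪v x, v x⟫ ≤ 0 := fun y hy => by
    rw [real_inner_self_eq_norm_sq, real_inner_self_eq_norm_sq]
    nlinarith [hmax y hy, norm_nonneg (v y)]
  rw [inner_add_right, inner_smul_right, inner_smul_right]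
  rcases eq_or_lt_of_le hx.1 with h | h
  · subst h
    have := MP.deriv_nonpos_of_right one_pos (hf 0 hx) (sub_self _)
      fun y a b => hp y ⟨a.le, b.le⟩
    simp only [mu, zero_mul, zero_add, add_zero]
    nlinarith [h0 rfl]
  rcases eq_or_lt_of_le hx.2 with h' | h'
  · subst h'
    have := MP.deriv_nonneg_of_left one_pos (hf 1 hx) (sub_self _)
      fun y a b => hp y ⟨a.le, b.le⟩
    simp only [mu, sub_self, mul_zero, zero_mul, zero_add, add_zero]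
    nlinarith [h1 rfl]
  have hn : ∀ y, 0 < y → y < 1 → Icc (0 : ℝ) 1 ∈ 𝓝 y := fun y a b => Icc_mem_nhds a b
  have hd : HasDerivAt (fun y => 2 * ⟪v y, v1 y⟫) (2 * (⟪v x, d2⟫ + ⟪v1 x, v1 x⟫)) x :=
    (((hv x hx).hasDerivAt (hn x h h')).inner ℝ (hv1.hasDerivAt (hn x h h'))).const_mul 2
  obtain ⟨e1, e2⟩ := MP.interior_max h h'
    (fun y a b => (hf y ⟨a.le, b.le⟩).hasDerivAt (hn y a b)) hd (sub_self _)
    fun y a b => hp y ⟨a.le, b.le⟩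
  rw [real_inner_self_eq_norm_sq] at e2
  have e3 : ⟪v x, v1 x⟫ = 0 := by linarith
  rw [e3]
  nlinarith [mu_nonneg hx]

/-- absorbing the first order term. -/
lemma max_inner_le {w w1 d2 : E} {β : E →L[ℝ] E} {m α α0 Bb κ : ℝ} (hm0 : 0 ≤ m) (hm : m ≤ 1 / 4)
    (hα0 : 0 < α0) (hα : α0 ≤ α) (hβ : ‖β‖ ≤ Bb)
    (h : ⟪w, m • d2 + κ • w1⟫ + m * ‖w1‖ ^ 2 ≤ 0) :
    ⟪w, α • (m • d2 + κ • w1) + β (m • w1)⟫ ≤ Bb ^ 2 / (16 * α0) * ‖w‖ ^ 2 := by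
  rw [inner_add_right, inner_smul_right]
  have hB : 0 ≤ Bb := (norm_nonneg _).trans hβ
  have h1 : ⟪w, β (m • w1)⟫ ≤ ‖w‖ * (Bb * (m * ‖w1‖)) := by
    refine (real_inner_le_norm _ _).trans (mul_le_mul_of_nonneg_left ?_ (norm_nonneg _))
    refine (β.le_opNorm _).trans ?_
    rw [norm_smul, Real.norm_eq_abs, abs_of_nonneg hm0]
    exact mul_le_mul_of_nonneg_right hβ (by positivity)
  have h2 : ‖w‖ * Bb * ‖w1‖ ≤ α0 * ‖w1‖ ^ 2 + Bb ^ 2 / (4 * α0) * ‖w‖ ^ 2 := by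
    have : α0 * ‖w1‖ ^ 2 + Bb ^ 2 / (4 * α0) * ‖w‖ ^ 2 - ‖w‖ * Bb * ‖w1‖ =
        (2 * α0 * ‖w1‖ - Bb * ‖w‖) ^ 2 / (4 * α0) := by field_simp; ring
    have h3 : 0 ≤ (2 * α0 * ‖w1‖ - Bb * ‖w‖) ^ 2 / (4 * α0) := by positivity
    linarith
  have h4 : m * (Bb ^ 2 / (4 * α0) * ‖w‖ ^ 2) ≤ Bb ^ 2 / (16 * α0) * ‖w‖ ^ 2 := by
    have : Bb ^ 2 / (16 * α0) * ‖w‖ ^ 2 = 1 / 4 * (Bb ^ 2 / (4 * α0) * ‖w‖ ^ 2) := by
      field_simp; ring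
    rw [this]
    exact mul_le_mul_of_nonneg_right hm (by positivity)
  have h5 : α * ⟪w, m • d2 + κ • w1⟫ ≤ -(α0 * (m * ‖w1‖ ^ 2)) := by
    have h6 : 0 ≤ m * ‖w1‖ ^ 2 := by positivity
    nlinarith
  nlinarith [mul_le_mul_of_nonneg_left h2 hm0]

lemma hasDerivWithinAt_of_smooth {F : Type*} [NormedAddCommGroup F] [NormedSpace ℝ F]
    {v : ℝ → F} (hv : ContDiff ℝ ∞ v) (s : Set ℝ) (y : ℝ) :
    HasDerivWithinAt v (deriv v y) s y :=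
  (hv.differentiable (by simp) y).hasDerivAt.hasDerivWithinAt

lemma contDiff_deriv {F : Type*} [NormedAddCommGroup F] [NormedSpace ℝ F]
    {v : ℝ → F} (hv : ContDiff ℝ ∞ v) : ContDiff ℝ ∞ (deriv v) :=
  (contDiff_infty_iff_deriv.1 hv).2

/-- the stationary maximum principle. -/
theorem stat_max {v f : ℝ → E} {α : ℝ → ℝ} {β γ : ℝ → E →L[ℝ] E} {c h α0 Bb Γ F : ℝ}
    (hv : ContDiff ℝ ∞ v) (hc : 0 ≤ c) (hh : 0 ≤ h) (hα0 : 0 < α0)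
    (hα : ∀ x ∈ Icc (0 : ℝ) 1, α0 ≤ α x) (hβ : ∀ x ∈ Icc (0 : ℝ) 1, ‖β x‖ ≤ Bb)
    (hγ : ∀ x ∈ Icc (0 : ℝ) 1, ‖γ x‖ ≤ Γ) (hf : ∀ x ∈ Icc (0 : ℝ) 1, ‖f x‖ ≤ F)
    (heq : ∀ x ∈ Icc (0 : ℝ) 1,
      v x - h • (α x • Lop c v x + β x (mu x • deriv v x) + γ x (v x)) = f x) :
    ∀ x ∈ Icc (0 : ℝ) 1, (1 - h * (Bb ^ 2 / (16 * α0) + Γ)) * ‖v x‖ ≤ F := by
  obtain ⟨x, hx, hmax⟩ := (isCompact_Icc (a := (0 : ℝ)) (b := 1)).exists_isMaxOn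
    ⟨0, by simp⟩ (hv.continuous.norm.continuousOn)
  have hF : 0 ≤ F := (norm_nonneg _).trans (hf x hx)
  have k1 := max_inner (κ := c * (1 - 2 * x)) hx (fun y _ => hasDerivWithinAt_of_smooth hv _ y)
    (hasDerivWithinAt_of_smooth (contDiff_deriv hv) _ x) (fun y hy => hmax hy)
    (fun h => by rw [h]; linarith) (fun h => by rw [h]; linarith)
  have k2 := max_inner_le (mu_nonneg hx) mu_le hα0 (hα x hx) (hβ x hx) k1
  have k3 : ⟪v x, γ x (v x)⟫ ≤ Γ * ‖v x‖ ^ 2 := by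
    refine (real_inner_le_norm _ _).trans ?_
    have := ((γ x).le_opNorm (v x)).trans (mul_le_mul_of_nonneg_right (hγ x hx) (norm_nonneg _))
    nlinarith [norm_nonneg (v x)]
  have k4 : ⟪v x, f x⟫ ≤ ‖v x‖ * F :=
    (real_inner_le_norm _ _).trans (mul_le_mul_of_nonneg_left (hf x hx) (norm_nonneg _))
  rw [← heq x hx, inner_sub_right, inner_smul_right, inner_add_right,
    real_inner_self_eq_norm_sq] at k4
  have k5 : (1 - h * (Bb ^ 2 / (16 * α0) + Γ)) * ‖v x‖ ^ 2 ≤ ‖v x‖ * F := by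
    have : h * (⟪v x, α x • Lop c v x + β x (mu x • deriv v x)⟫ + ⟪v x, γ x (v x)⟫) ≤
        h * (Bb ^ 2 / (16 * α0) * ‖v x‖ ^ 2 + Γ * ‖v x‖ ^ 2) :=
      mul_le_mul_of_nonneg_left (add_le_add k2 k3) hh
    nlinarith
  have k6 : (1 - h * (Bb ^ 2 / (16 * α0) + Γ)) * ‖v x‖ ≤ F := by
    rcases eq_or_lt_of_le (norm_nonneg (v x)) with h0 | h0
    · rw [← h0, mul_zero]; exact hF
    · nlinarith
  intro y hy
  rcases le_total 0 (1 - h * (Bb ^ 2 / (16 * α0) + Γ)) with h0 | h0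
  · exact (mul_le_mul_of_nonneg_left (hmax hy) h0).trans k6
  · exact (mul_nonpos_of_nonpos_of_nonneg h0 (norm_nonneg _)).trans hF

end Crest.Agent.N207.S.Ex
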