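import Crest.Agent.N207.S.Ex.Volt2
import Crest.Agent.N207.S.Ex.MaxP

/-!
Row 207, S0320, block EX: the resolvent problem on `[0,1]` (matching of the two pole solutions).
-/

set_option autoImplicit false
set_option linter.unusedSectionVars false

open Set Filter
open scoped Topology ContDiff NNReal

noncomputable section
namespace Crest.Agent.N207.S.Ex

section
variable {E : Type*} [NormedAddCommGroup E] [NormedSpace ℝ E] [CompleteSpace E]

/-- the ODE at one point. -/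
def Ode (c : ℝ) (A Q : ℝ → E →L[ℝ] E) (g v : ℝ → E) (x : ℝ) : Prop :=
  Lop c v x = A x (v x) + Q x (mu x • deriv v x) + g x

theorem right_sol (k : ℕ) {A Q : ℝ → E →L[ℝ] E} {g : ℝ → E} (hA : ContDiff ℝ ∞ A)
    (hQ : ContDiff ℝ ∞ Q) (hg : ContDiff ℝ ∞ g) (v1 : E) :
    ∃ v : ℝ → E, ContDiff ℝ ∞ v ∧ v 1 = v1 ∧ ∀ x ∈ Ioo (3 / 8 : ℝ) (9 / 8),
      Ode ((k : ℝ) + 1) A Q g v x := by
  obtain ⟨w, hw, h0, he⟩ := left_sol k (A := fun x => A (1 - x)) (Q := fun x => -Q (1 - x))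
    (g := fun x => g (1 - x)) (by fun_prop) (by fun_prop) (by fun_prop) v1
  refine ⟨fun x => w (1 - x), by fun_prop, by simpa using h0, fun x hx => ?_⟩
  have h1 : deriv (fun x => w (1 - x)) = fun x => -deriv w (1 - x) :=
    funext fun x => deriv_comp_const_sub _ _ _
  have h2 : deriv (fun x => -deriv w (1 - x)) x = deriv (deriv w) (1 - x) := by
    rw [deriv.fun_neg, deriv_comp_const_sub, neg_neg]
  have h3 := he (1 - x) ⟨by linarith [hx.2], by linarith [hx.1]⟩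
  have h4 : mu (1 - x) = mu x := by unfold mu; ring
  simp only [Lop, h4, sub_sub_cancel, ContinuousLinearMap.neg_apply] at h3
  simp only [Ode, Lop, h1, h2, smul_neg, map_neg]
  rw [← h3]
  module

lemma ode_unique {c : ℝ} {A Q : ℝ → E →L[ℝ] E} {g v w : ℝ → E} (hA : Continuous A)
    (hQ : Continuous Q) (hv : ContDiff ℝ ∞ v) (hw : ContDiff ℝ ∞ w)
    (ev : ∀ x ∈ Ioo (3 / 8 : ℝ) (5 / 8), Ode c A Q g v x)
    (ew : ∀ x ∈ Ioo (3 / 8 : ℝ) (5 / 8), Ode c A Q g w x) (h0 : v (1 / 2) = w (1 / 2))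
    (h1 : deriv v (1 / 2) = deriv w (1 / 2)) : EqOn v w (Ioo (3 / 8 : ℝ) (5 / 8)) := by
  let Λ : ℝ → (E × E) →L[ℝ] (E × E) := fun t => (ContinuousLinearMap.snd ℝ E E).prod
    ((mu t)⁻¹ • ((A t).comp (ContinuousLinearMap.fst ℝ E E) +
      mu t • (Q t).comp (ContinuousLinearMap.snd ℝ E E) -
      (c * (1 - 2 * t)) • ContinuousLinearMap.snd ℝ E E))
  have hmu : ∀ t ∈ Icc (3 / 8 : ℝ) (5 / 8), mu t ≠ 0 := fun t ht => by
    unfold mu
    exact mul_ne_zero (by linarith [ht.1]) (by linarith [ht.2])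
  have hΛ : ContinuousOn Λ (Icc (3 / 8 : ℝ) (5 / 8)) := by
    have hm := contDiff_mu.continuous
    have h2 : ContinuousOn (fun t => (mu t)⁻¹ • ((A t).comp (ContinuousLinearMap.fst ℝ E E) +
      mu t • (Q t).comp (ContinuousLinearMap.snd ℝ E E) -
      (c * (1 - 2 * t)) • ContinuousLinearMap.snd ℝ E E)) (Icc (3 / 8 : ℝ) (5 / 8)) :=
      (hm.continuousOn.inv₀ hmu).smul (Continuous.continuousOn (by fun_prop))
    exact (ContinuousLinearMap.prodₗᵢ ℝ).continuous.comp_continuousOn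
      (continuousOn_const.prodMk h2)
  obtain ⟨K, hK⟩ := isCompact_Icc.exists_bound_of_continuousOn hΛ
  have key : ∀ u : ℝ → E, ContDiff ℝ ∞ u → (∀ x ∈ Ioo (3 / 8 : ℝ) (5 / 8), Ode c A Q g u x) →
      ∀ t ∈ Ioo (3 / 8 : ℝ) (5 / 8), HasDerivAt (fun t => (u t, deriv u t))
        (Λ t (u t, deriv u t) + (0, (mu t)⁻¹ • g t)) t ∧ (u t, deriv u t) ∈ (univ : Set (E × E)) := by
    intro u hu eu t ht
    refine ⟨?_, trivial⟩
    have h2 := ((hu.differentiable (by simp) t).hasDerivAt).prodMk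
      (((contDiff_deriv hu).differentiable (by simp) t).hasDerivAt)
    refine h2.congr_deriv ?_
    have h3 := eu t ht
    have h4 := hmu t (Ioo_subset_Icc_self ht)
    simp only [Ode, Lop, map_smul] at h3
    ext
    · simp [Λ]
    · simp only [Λ, ContinuousLinearMap.prod_apply, Prod.mk_add_mk, ContinuousLinearMap.smul_apply,
        ContinuousLinearMap.sub_apply, ContinuousLinearMap.add_apply,
        ContinuousLinearMap.comp_apply, ContinuousLinearMap.coe_fst', ContinuousLinearMap.coe_snd']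
      rw [← smul_add]
      have h5 : mu t • deriv (deriv u) t = A t (u t) + mu t • Q t (deriv u t) -
          (c * (1 - 2 * t)) • deriv u t + g t := by
        rw [eq_sub_of_add_eq h3]; abel
      rw [← h5, smul_smul, inv_mul_cancel₀ h4, one_smul]
  have := ODE_solution_unique_of_mem_Ioo (K := Real.toNNReal K)
    (v := fun t Y => Λ t Y + (0, (mu t)⁻¹ • g t)) (s := fun _ => univ) (t₀ := 1 / 2)
    (fun t ht => by
      refine LipschitzWith.lipschitzOnWith (LipschitzWith.of_dist_le_mul fun Y Y' => ?_)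
      rw [dist_add_right, dist_eq_norm, dist_eq_norm, ← map_sub]
      refine ((Λ t).le_opNorm _).trans (mul_le_mul_of_nonneg_right ?_ (norm_nonneg _))
      exact (hK t (Ioo_subset_Icc_self ht)).trans (Real.le_coe_toNNReal K))
    (by norm_num) (key v hv ev) (key w hw ew) (by simp only [h0, h1])
  exact fun x hx => congrArg Prod.fst (this hx)

lemma Ode.congr {c : ℝ} {A Q : ℝ → E →L[ℝ] E} {g v w : ℝ → E} {x : ℝ} (h : Ode c A Q g v x)
    (e : w =ᶠ[𝓝 x] v) : Ode c A Q g w x := by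
  have e1 := e.deriv
  have e2 := e1.deriv
  simp only [Ode, Lop] at h ⊢
  rw [e.eq_of_nhds, e1.eq_of_nhds, e2.eq_of_nhds]
  exact h

lemma glue {c : ℝ} {A Q : ℝ → E →L[ℝ] E} {g v w : ℝ → E} (hA : Continuous A)
    (hQ : Continuous Q) (hv : ContDiff ℝ ∞ v) (hw : ContDiff ℝ ∞ w)
    (ev : ∀ x ∈ Ioo (-1 / 8 : ℝ) (5 / 8), Ode c A Q g v x)
    (ew : ∀ x ∈ Ioo (3 / 8 : ℝ) (9 / 8), Ode c A Q g w x) (h0 : v (1 / 2) = w (1 / 2))
    (h1 : deriv v (1 / 2) = deriv w (1 / 2)) :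
    ∃ u : ℝ → E, ContDiff ℝ ∞ u ∧ u 0 = v 0 ∧ u 1 = w 1 ∧
      ∀ x ∈ Icc (0 : ℝ) 1, Ode c A Q g u x := by
  have e := ode_unique hA hQ hv hw (fun x hx => ev x ⟨by linarith [hx.1], hx.2⟩)
    (fun x hx => ew x ⟨hx.1, by linarith [hx.2]⟩) h0 h1
  let u : ℝ → E := fun x => if x ≤ 1 / 2 then v x else w x
  have e1 : ∀ x < (5 / 8 : ℝ), u =ᶠ[𝓝 x] v := fun x hx => by
    filter_upwards [Iio_mem_nhds hx] with y hy
    simp only [u]
    split_ifs with h
    · rfl
    · exact (e ⟨by linarith, hy⟩).symm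
  have e2 : ∀ x > (3 / 8 : ℝ), u =ᶠ[𝓝 x] w := fun x hx => by
    filter_upwards [Ioi_mem_nhds hx] with y hy
    simp only [u]
    split_ifs with h
    · exact e ⟨hy, by linarith⟩
    · rfl
  refine ⟨u, contDiff_iff_contDiffAt.2 fun x => ?_, (e1 0 (by norm_num)).eq_of_nhds,
    (e2 1 (by norm_num)).eq_of_nhds, fun x hx => ?_⟩
  · rcases lt_or_ge x (5 / 8) with h | h
    · exact hv.contDiffAt.congr_of_eventuallyEq (e1 x h)
    · exact hw.contDiffAt.congr_of_eventuallyEq (e2 x (by linarith))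
  · rcases lt_or_ge x (5 / 8) with h | h
    · exact (ev x ⟨by linarith [hx.1], h⟩).congr (e1 x h)
    · exact (ew x ⟨by linarith, by linarith [hx.2]⟩).congr (e2 x (by linarith))

lemma deriv_add_apply {p : ℝ → E} {M : ℝ → E →L[ℝ] E} (hp : ContDiff ℝ ∞ p) (hM : ContDiff ℝ ∞ M)
    (e : E) : deriv (fun x => p x + M x e) = fun x => deriv p x + deriv M x e := by
  funext x
  have := ((hp.differentiable (by simp) x).hasDerivAt).fun_add
    (((hM.differentiable (by simp) x).hasDerivAt).clm_apply (hasDerivAt_const x e))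
  simpa using this.deriv

lemma ode_add_apply {c : ℝ} {A Q : ℝ → E →L[ℝ] E} {g p : ℝ → E} {M : ℝ → E →L[ℝ] E} {x : ℝ}
    (hp : ContDiff ℝ ∞ p) (hM : ContDiff ℝ ∞ M) (ep : Ode c A Q g p x)
    (eM : Ode c (fun x => ContinuousLinearMap.compL ℝ E E E (A x))
      (fun x => ContinuousLinearMap.compL ℝ E E E (Q x)) (fun _ => 0) M x) (e : E) :
    Ode c A Q g (fun x => p x + M x e) x := by
  have h1 := congrArg (fun T : E →L[ℝ] E => T e) eM
  simp only [Lop, ContinuousLinearMap.add_apply, ContinuousLinearMap.smul_apply,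
    ContinuousLinearMap.compL_apply, ContinuousLinearMap.comp_apply, add_zero, map_smul] at h1
  simp only [Ode, Lop, map_smul] at ep ⊢
  rw [deriv_add_apply hp hM, deriv_add_apply (contDiff_deriv hp) (contDiff_deriv hM)]
  simp only [map_add, smul_add]
  have : ∀ a b a' b' : E, a + a' + (b + b') = (a + b) + (a' + b') := fun _ _ _ _ => by abel
  rw [this, ep, h1]
  abel

lemma ode_zero {c : ℝ} {A Q : ℝ → E →L[ℝ] E} {x : ℝ} :
    Ode c A Q (fun _ => 0) (fun _ => 0) x := by simp [Ode, Lop]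

theorem bvp_exists [FiniteDimensional ℝ E] (k : ℕ) {A Q : ℝ → E →L[ℝ] E} {g : ℝ → E}
    (hA : ContDiff ℝ ∞ A) (hQ : ContDiff ℝ ∞ Q) (hg : ContDiff ℝ ∞ g)
    (huniq : ∀ v : ℝ → E, ContDiff ℝ ∞ v →
      (∀ x ∈ Icc (0 : ℝ) 1, Ode ((k : ℝ) + 1) A Q (fun _ => 0) v x) → v 0 = 0 ∧ v 1 = 0) :
    ∃ v : ℝ → E, ContDiff ℝ ∞ v ∧ ∀ x ∈ Icc (0 : ℝ) 1, Ode ((k : ℝ) + 1) A Q g v x := by
  have hA' : ContDiff ℝ ∞ fun x => ContinuousLinearMap.compL ℝ E E E (A x) := by fun_prop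
  have hQ' : ContDiff ℝ ∞ fun x => ContinuousLinearMap.compL ℝ E E E (Q x) := by fun_prop
  obtain ⟨ML, hML, hML0, eML⟩ := left_sol k (g := fun _ => 0) hA' hQ' contDiff_const
    (ContinuousLinearMap.id ℝ E)
  obtain ⟨MR, hMR, hMR0, eMR⟩ := right_sol k (g := fun _ => 0) hA' hQ' contDiff_const
    (ContinuousLinearMap.id ℝ E)
  obtain ⟨pL, hpL, -, epL⟩ := left_sol k hA hQ hg 0
  obtain ⟨pR, hpR, -, epR⟩ := right_sol k hA hQ hg 0
  let Λ : (E × E) →L[ℝ] (E × E) :=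
    ((ML (1 / 2)).coprod (-MR (1 / 2))).prod ((deriv ML (1 / 2)).coprod (-deriv MR (1 / 2)))
  have hΛ : ∀ y : E × E, Λ y = (ML (1 / 2) y.1 - MR (1 / 2) y.2,
      deriv ML (1 / 2) y.1 - deriv MR (1 / 2) y.2) := fun y => by
    simp [Λ, sub_eq_add_neg]
  have hinj : Function.Injective (Λ : (E × E) →ₗ[ℝ] (E × E)) := by
    rw [injective_iff_map_eq_zero]
    intro y hy
    have hy' : Λ y = 0 := hy
    rw [hΛ, Prod.mk_eq_zero, sub_eq_zero, sub_eq_zero] at hy'
    have z : ContDiff ℝ ∞ fun _ : ℝ => (0 : E) := contDiff_const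
    obtain ⟨u, hu, u0, u1, eu⟩ := glue hA.continuous hQ.continuous
      (v := fun x => 0 + ML x y.1) (w := fun x => 0 + MR x y.2) (by fun_prop) (by fun_prop)
      (fun x hx => ode_add_apply z hML ode_zero (eML x hx) y.1)
      (fun x hx => ode_add_apply z hMR ode_zero (eMR x hx) y.2) (by rw [hy'.1])
      (by rw [deriv_add_apply z hML, deriv_add_apply z hMR]; simp only [hy'.2])
    obtain ⟨a, b⟩ := huniq u hu eu
    rw [u0, hML0] at a
    rw [u1, hMR0] at b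
    ext
    · simpa using a
    · simpa using b
  obtain ⟨y, hy⟩ := LinearMap.injective_iff_surjective.1 hinj
    (pR (1 / 2) - pL (1 / 2), deriv pR (1 / 2) - deriv pL (1 / 2))
  have hy' : Λ y = _ := hy
  rw [hΛ, Prod.mk.injEq] at hy'
  obtain ⟨u, hu, -, -, eu⟩ := glue hA.continuous hQ.continuous
    (v := fun x => pL x + ML x y.1) (w := fun x => pR x + MR x y.2) (by fun_prop) (by fun_prop)
    (fun x hx => ode_add_apply hpL hML (epL x hx) (eML x hx) y.1)
    (fun x hx => ode_add_apply hpR hMR (epR x hx) (eMR x hx) y.2)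
    (by rw [eq_add_of_sub_eq hy'.1]; abel)
    (by rw [deriv_add_apply hpL hML, deriv_add_apply hpR hMR]
        simp only [eq_add_of_sub_eq hy'.2]; abel)
  exact ⟨u, hu, eu⟩

end

variable {E : Type*} [NormedAddCommGroup E] [InnerProductSpace ℝ E] [FiniteDimensional ℝ E]

/-- **the resolvent**. -/
theorem resolvent {b : ℕ} (hb : 1 ≤ b) {f : ℝ → E} {α : ℝ → ℝ} {β : ℝ → E →L[ℝ] E}
    {h α0 Bb : ℝ} (hf : ContDiff ℝ ∞ f) (hαs : ContDiff ℝ ∞ α) (hβs : ContDiff ℝ ∞ β)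
    (hpos : ∀ x, 0 < α x) (hh : 0 < h) (hα0 : 0 < α0) (hα : ∀ x ∈ Icc (0 : ℝ) 1, α0 ≤ α x)
    (hβ : ∀ x ∈ Icc (0 : ℝ) 1, ‖β x‖ ≤ Bb) (hsmall : h * (Bb ^ 2 / (16 * α0)) < 1) :
    ∃ v : ℝ → E, ContDiff ℝ ∞ v ∧ ∀ x ∈ Icc (0 : ℝ) 1,
      v x - h • (α x • Lop b v x + β x (mu x • deriv v x)) = f x := by
  have : CompleteSpace E := FiniteDimensional.complete ℝ E
  obtain ⟨k, rfl⟩ : ∃ k, b = k + 1 := ⟨b - 1, by omega⟩
  have hi : ContDiff ℝ ∞ fun x => (α x)⁻¹ := hαs.inv fun x => (hpos x).ne'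
  have key : ∀ (g v : ℝ → E) (x : ℝ), Ode ((k : ℝ) + 1)
      (fun x => (h⁻¹ * (α x)⁻¹) • ContinuousLinearMap.id ℝ E) (fun x => -((α x)⁻¹ • β x))
      (fun x => -((h⁻¹ * (α x)⁻¹) • g x)) v x →
      v x - h • (α x • Lop ((k + 1 : ℕ) : ℝ) v x + β x (mu x • deriv v x)) = g x := by
    intro g v x e
    simp only [Ode, ContinuousLinearMap.smul_apply, ContinuousLinearMap.id_apply,
      ContinuousLinearMap.neg_apply] at e
    push_cast
    rw [e]
    have h1 := (hpos x).ne'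
    have h2 := hh.ne'
    match_scalars <;> field_simp <;> ring
  obtain ⟨v, hv, ev⟩ := bvp_exists k
    (A := fun x => (h⁻¹ * (α x)⁻¹) • ContinuousLinearMap.id ℝ E) (Q := fun x => -((α x)⁻¹ • β x))
    (g := fun x => -((h⁻¹ * (α x)⁻¹) • f x)) (by fun_prop) (by fun_prop) (by fun_prop)
    (fun v hv ev => by
      have h1 := stat_max (γ := fun _ => 0) (f := fun _ => 0) (Γ := 0) (F := 0)
        (c := ((k + 1 : ℕ) : ℝ)) hv (by positivity) hh.le hα0 hα hβ (by simp) (by simp)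
        (fun x hx => by
          have := key (fun _ => 0) v x (by simpa using ev x hx)
          simpa using this)
      have h2 : ∀ x ∈ Icc (0 : ℝ) 1, v x = 0 := fun x hx => by
        have := h1 x hx
        rw [add_zero] at this
        have h3 : ‖v x‖ ≤ 0 := by nlinarith [norm_nonneg (v x)]
        exact norm_le_zero_iff.1 h3
      exact ⟨h2 0 (by simp), h2 1 (by simp)⟩)
  exact ⟨v, hv, fun x hx => key f v x (ev x hx)⟩

end Crest.Agent.N207.S.Ex
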