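import Crest.Agent.N207.S.Ex.Bd
import Crest.Agent.N207.S.Ex.Res

/-!
Row 207, S0320, block EX: differentiating the resolvent equation.
-/

set_option autoImplicit false
set_option linter.unusedSectionVars false

open Set Filter
open scoped Topology ContDiff

noncomputable section
namespace Crest.Agent.N207.S.Ex

section
variable {E : Type*} [NormedAddCommGroup E] [NormedSpace ℝ E]

lemma deriv_eqOn_Icc {f g : ℝ → E} (hf : ContDiff ℝ ∞ f) (hg : ContDiff ℝ ∞ g)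
    (h : ∀ x ∈ Icc (0 : ℝ) 1, f x = g x) : ∀ x ∈ Icc (0 : ℝ) 1, deriv f x = deriv g x := by
  intro x hx
  have hu := uniqueDiffOn_Icc (zero_lt_one (α := ℝ)) x hx
  exact hu.eq_deriv _ (hda hf x).hasDerivWithinAt
    ((hda hg x).hasDerivWithinAt.congr h (h x hx))

/-- first order coefficient at level `j`. -/
def bet (α : ℝ → ℝ) (β : ℝ → E →L[ℝ] E) : ℕ → ℝ → E →L[ℝ] E
  | 0 => β
  | j + 1 => fun x => bet α β j x + deriv α x • ContinuousLinearMap.id ℝ E

/-- zero order coefficient at level `j`. -/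
def gam (c : ℝ) (α : ℝ → ℝ) (β : ℝ → E →L[ℝ] E) : ℕ → ℝ → E →L[ℝ] E
  | 0 => fun _ => 0
  | j + 1 => fun x => gam c α β j x +
      ((-2 * (c + j)) • α x + (c + j) • ((1 - 2 * x) • deriv α x)) • ContinuousLinearMap.id ℝ E +
      (mu x • deriv (bet α β j) x + (1 - 2 * x) • bet α β j x)

/-- source at level `j`. -/
def rho (c : ℝ) (α : ℝ → ℝ) (β : ℝ → E →L[ℝ] E) (r v : ℝ → E) : ℕ → ℝ → E
  | 0 => r
  | j + 1 => fun x => deriv (rho c α β r v j) x + deriv (gam c α β j) x (iteratedDeriv j v x)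

variable {c h : ℝ} {α : ℝ → ℝ} {β : ℝ → E →L[ℝ] E} {r u v : ℝ → E}

lemma contDiff_bet (hα : ContDiff ℝ ∞ α) (hβ : ContDiff ℝ ∞ β) (j : ℕ) :
    ContDiff ℝ ∞ (bet α β j) := by
  induction j with
  | zero => exact hβ
  | succ j ih =>
    have := contDiff_deriv hα
    unfold bet; fun_prop

lemma contDiff_gam (hα : ContDiff ℝ ∞ α) (hβ : ContDiff ℝ ∞ β) (j : ℕ) :
    ContDiff ℝ ∞ (gam c α β j) := by
  induction j with
  | zero => exact contDiff_const
  | succ j ih =>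
    have := contDiff_deriv hα
    have h1 := contDiff_bet hα hβ j
    have h2 := contDiff_deriv h1
    have h3 := contDiff_mu
    unfold gam; fun_prop

lemma contDiff_rho' (hα : ContDiff ℝ ∞ α) (hβ : ContDiff ℝ ∞ β) (hr : ContDiff ℝ ∞ r)
    (hv : ContDiff ℝ ∞ v) (j : ℕ) : ContDiff ℝ ∞ (rho c α β r v j) := by
  induction j with
  | zero => exact hr
  | succ j ih =>
    have h1 := contDiff_deriv ih
    have h2 := contDiff_deriv (contDiff_gam (c := c) hα hβ j)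
    have h3 := contDiff_iter j hv
    unfold rho; fun_prop

lemma lev_step {γ : ℝ → E →L[ℝ] E} {f : ℝ → E} (hα : ContDiff ℝ ∞ α) (hβ : ContDiff ℝ ∞ β)
    (hγ : ContDiff ℝ ∞ γ) (hf : ContDiff ℝ ∞ f) (hv : ContDiff ℝ ∞ v)
    (heq : ∀ x ∈ Icc (0 : ℝ) 1,
      v x - h • (α x • Lop c v x + β x (mu x • deriv v x) + γ x (v x)) = f x) :
    ∀ x ∈ Icc (0 : ℝ) 1, deriv v x - h • (α x • Lop (c + 1) (deriv v) x +
      (β x + deriv α x • ContinuousLinearMap.id ℝ E) (mu x • deriv (deriv v) x) +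
      (γ x + ((-2 * c) • α x + c • ((1 - 2 * x) • deriv α x)) • ContinuousLinearMap.id ℝ E +
        (mu x • deriv β x + (1 - 2 * x) • β x)) (deriv v x)) =
      deriv f x + h • deriv γ x (v x) := by
  intro x hx
  have s1 := contDiff_deriv hv
  have s2 := contDiff_deriv s1
  have hm := contDiff_mu
  have e := deriv_eqOn_Icc (by unfold Lop; fun_prop) hf heq x hx
  have hl : HasDerivAt (fun x : ℝ => c * (1 - 2 * x)) (c * (-(2 * 1))) x :=
    (((hasDerivAt_id x).const_mul 2).const_sub 1).const_mul c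
  have d := (hda hv x).fun_sub ((((((hda hα x).fun_smul
    (((hasDerivAt_mu x).fun_smul (hda s2 x)).fun_add (hl.fun_smul (hda s1 x)))).fun_add
    ((hda hβ x).clm_apply ((hasDerivAt_mu x).fun_smul (hda s1 x)))).fun_add
    ((hda hγ x).clm_apply (hda hv x)))).fun_const_smul h)
  have e2 := d.deriv.symm.trans e
  rw [← e2]
  simp only [Lop, ContinuousLinearMap.add_apply, ContinuousLinearMap.smul_apply,
    ContinuousLinearMap.id_apply, map_add, map_smul, smul_eq_mul]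
  module

lemma lev_eq (hα : ContDiff ℝ ∞ α) (hβ : ContDiff ℝ ∞ β) (hr : ContDiff ℝ ∞ r)
    (hu : ContDiff ℝ ∞ u) (hv : ContDiff ℝ ∞ v)
    (heq : ∀ x ∈ Icc (0 : ℝ) 1,
      v x - h • (α x • Lop c v x + β x (mu x • deriv v x)) = u x + h • r x) (j : ℕ) :
    ∀ x ∈ Icc (0 : ℝ) 1, iteratedDeriv j v x - h • (α x • Lop (c + j) (iteratedDeriv j v) x +
      bet α β j x (mu x • deriv (iteratedDeriv j v) x) + gam c α β j x (iteratedDeriv j v x)) =
      iteratedDeriv j u x + h • rho c α β r v j x := by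
  induction j with
  | zero => simpa [bet, gam, rho] using heq
  | succ j ih =>
    intro x hx
    have s1 := contDiff_iter j hu
    have s2 := contDiff_rho' (c := c) hα hβ hr hv j
    have := lev_step hα (contDiff_bet hα hβ j) (contDiff_gam hα hβ j) (by fun_prop)
      (contDiff_iter j hv) ih x hx
    rw [((hda s1 x).fun_add ((hda s2 x).fun_const_smul h)).deriv] at this
    rw [iteratedDeriv_succ, iteratedDeriv_succ, Nat.cast_succ, ← add_assoc]
    simp only [bet, gam, rho]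
    rw [this, smul_add, add_assoc]

lemma bd_bet (hα : ContDiff ℝ ∞ α) (hβ : ContDiff ℝ ∞ β) (j i : ℕ) {N : ℝ} (b1 : Bd i N β)
    (a1 : Bd (i + min j 1) N α) : Bd i ((1 + j) * N) (bet α β j) := by
  induction j with
  | zero => simpa [bet] using b1
  | succ j ih =>
    have h1 : Bd (i + 1) N α := a1.mono (by omega) le_rfl
    have s1 := contDiff_deriv hα
    have h2 := h1.deriv.clm ((ContinuousLinearMap.id ℝ ℝ).smulRight (ContinuousLinearMap.id ℝ E)) s1
    have h3 := (ih (a1.mono (by omega) le_rfl)).add h2 (contDiff_bet hα hβ j) (by fun_prop)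
    refine Bd.mono h3 le_rfl ?_
    have h4 : ‖(ContinuousLinearMap.id ℝ ℝ).smulRight (ContinuousLinearMap.id ℝ E)‖ ≤ 1 := by
      rw [ContinuousLinearMap.norm_smulRight_apply]
      exact mul_le_one₀ ContinuousLinearMap.norm_id_le (norm_nonneg _)
        ContinuousLinearMap.norm_id_le
    push_cast
    nlinarith [b1.nonneg]

lemma bd_gam (c : ℝ) (j i : ℕ) : ∃ C, 0 ≤ C ∧ ∀ {α : ℝ → ℝ} {β : ℝ → E →L[ℝ] E} {N : ℝ},
    ContDiff ℝ ∞ α → ContDiff ℝ ∞ β → Bd (i + min j 1) N β → Bd (i + min j 2) N α →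
    Bd i (C * N) (gam c α β j) := by
  induction j with
  | zero =>
    refine ⟨0, le_rfl, fun _ _ _ _ => ?_⟩
    simpa [gam] using bd_const i (0 : E →L[ℝ] E)
  | succ j ih =>
    obtain ⟨C, hC0, hC⟩ := ih
    obtain ⟨P, hP⟩ := exists_bd i contDiff_mu
    have sq : ContDiff ℝ ∞ fun x : ℝ => 1 - 2 * x := by fun_prop
    obtain ⟨Q, hQ⟩ := exists_bd i sq
    have := hP.nonneg
    have := hQ.nonneg
    refine ⟨C + (|-2 * (c + j)| + |c + j| * (2 ^ i * Q)) + (2 ^ i * (P * (1 + j)) +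
      2 ^ i * (Q * (1 + j))), by positivity, fun {α β N} hα hβ b1 a1 => ?_⟩
    have s1 := contDiff_deriv hα
    have s2 := contDiff_bet hα hβ j
    have s3 := contDiff_deriv s2
    have s4 := contDiff_mu
    have s5 := contDiff_gam (c := c) hα hβ j
    have h1 : Bd (i + 1) N α := a1.mono (by omega) le_rfl
    have h2 := ((h1.mono (Nat.le_succ i) le_rfl).csmul (-2 * (c + j)) hα).add
      ((hQ.smul h1.deriv sq s1).csmul (c + j) (by fun_prop)) (by fun_prop) (by fun_prop)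
    have h3 := h2.clm ((ContinuousLinearMap.id ℝ ℝ).smulRight (ContinuousLinearMap.id ℝ E))
      (by fun_prop)
    have h4 : ‖(ContinuousLinearMap.id ℝ ℝ).smulRight (ContinuousLinearMap.id ℝ E)‖ ≤ 1 := by
      rw [ContinuousLinearMap.norm_smulRight_apply]
      exact mul_le_one₀ ContinuousLinearMap.norm_id_le (norm_nonneg _)
        ContinuousLinearMap.norm_id_le
    have h3' := h3.mono le_rfl (mul_le_of_le_one_left h2.nonneg h4)
    have h5 := bd_bet hα hβ j (i + 1) (b1.mono (by omega) le_rfl) (a1.mono (by omega) le_rfl)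
    have h6 := (hP.smul h5.deriv s4 s3).add
      (hQ.smul (h5.mono (Nat.le_succ i) le_rfl) sq s2) (by fun_prop) (by fun_prop)
    have h7 := ((hC hα hβ (b1.mono (by omega) le_rfl) (a1.mono (by omega) le_rfl)).add h3' s5
      (by fun_prop)).add h6 (by fun_prop) (by fun_prop)
    exact Bd.mono h7 le_rfl (le_of_eq (by ring))

lemma bd_rho (c K : ℝ) (hK : 0 ≤ K) (j : ℕ) : ∀ i : ℕ, ∃ C, 0 ≤ C ∧ ∀ {α : ℝ → ℝ}
    {β : ℝ → E →L[ℝ] E} {r v : ℝ → E} {N : ℝ},
    ContDiff ℝ ∞ α → ContDiff ℝ ∞ β → ContDiff ℝ ∞ r → ContDiff ℝ ∞ v →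
    Bd (i + j) N β → Bd (i + j) N α → Bd (i + j) N r →
    (∀ l < i + j, ∀ x ∈ Icc (0 : ℝ) 1, ‖iteratedDeriv l v x‖ ≤ K) →
    Bd i (C * N) (rho c α β r v j) := by
  induction j with
  | zero => exact fun i => ⟨1, zero_le_one, fun _ _ _ _ _ _ h _ => by simpa [rho] using h⟩
  | succ j ih =>
    intro i
    obtain ⟨C, hC0, hC⟩ := ih (i + 1)
    obtain ⟨D, hD0, hD⟩ := bd_gam (E := E) c j (i + 1)
    refine ⟨C + 2 ^ i * (D * K), by positivity, fun {α β r v N} hα hβ hr hv b1 a1 r1 v1 => ?_⟩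
    have e : i + 1 + j = i + (j + 1) := by omega
    have s1 := contDiff_deriv (contDiff_rho' (c := c) hα hβ hr hv j)
    have s2 := contDiff_deriv (contDiff_gam (c := c) hα hβ j)
    have s3 := contDiff_iter j hv
    have h1 := hC hα hβ hr hv (e ▸ b1) (e ▸ a1) (e ▸ r1) (e ▸ v1)
    have h2 := hD hα hβ (b1.mono (by omega) le_rfl) (a1.mono (by omega) le_rfl)
    have h3 : Bd (i + j) K v := fun l hl => v1 l (by omega)
    have h4 := h1.deriv.add (h2.deriv.app h3.iter s2 s3) s1 (by fun_prop)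
    exact Bd.mono h4 le_rfl (le_of_eq (by ring))

end

variable {E : Type} [NormedAddCommGroup E] [InnerProductSpace ℝ E] [FiniteDimensional ℝ E]

/-- one step of the linearised implicit Euler scheme. -/
def Step (S : Core E) (h : ℝ) (u v : ℝ → E) : Prop :=
  ContDiff ℝ ∞ v ∧ ∀ x ∈ Icc (0 : ℝ) 1,
    v x - h • (S.a (x, u x) • Lop S.b v x + S.B (x, u x) (mu x • deriv v x)) =
      u x + h • S.G (x, u x)

lemma Core.lower (S : Core E) (K : ℝ) :
    ∃ α0, 0 < α0 ∧ ∀ x ∈ Icc (0 : ℝ) 1, ∀ e : E, ‖e‖ ≤ K → α0 ≤ S.a (x, e) := by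
  obtain ⟨C, h0, hC⟩ := bd_comp0 (Φ := fun y => (S.a y)⁻¹)
    (S.ha.continuous.inv₀ fun y => (S.apos y).ne') K
  refine ⟨(C + 1)⁻¹, by positivity, fun x hx e he => ?_⟩
  have h1 := hC x hx e he
  rw [Real.norm_eq_abs, abs_of_pos (inv_pos.2 (S.apos _))] at h1
  exact inv_le_of_inv_le₀ (S.apos _) (by linarith)

lemma step_exists (S : Core E) (K : ℝ) : ∃ h0, 0 < h0 ∧ ∀ h, 0 < h → h ≤ h0 → ∀ u : ℝ → E,
    ContDiff ℝ ∞ u → Bd 0 K u → ∃ v, Step S h u v := by
  obtain ⟨α0, h0, hα⟩ := S.lower K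
  obtain ⟨B, -, hB⟩ := bd_comp0 S.hB.continuous K
  have hp : 0 ≤ B ^ 2 / (16 * α0) := by positivity
  refine ⟨(B ^ 2 / (16 * α0) + 1)⁻¹, by positivity, fun h hh hh0 u hu hK => ?_⟩
  have := S.ha
  have := S.hB
  have := S.hG
  refine resolvent S.hb (f := fun x => u x + h • S.G (x, u x)) (α := fun x => S.a (x, u x))
    (β := fun x => S.B (x, u x)) (by fun_prop) (by fun_prop) (by fun_prop)
    (fun x => S.apos _) hh h0 (fun x hx => hα x hx _ (hK.zero hx))
    (fun x hx => hB x hx _ (hK.zero hx)) ?_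
  have h1 : h * (B ^ 2 / (16 * α0) + 1) ≤ 1 := by
    rwa [← le_div_iff₀ (by positivity), one_div]
  nlinarith

lemma level (S : Core E) (K K' : ℝ) (hK' : 0 ≤ K') (j : ℕ) : ∃ θ C, 0 ≤ θ ∧ 0 ≤ C ∧
    ∀ h, 0 < h → h * θ ≤ 1 / 2 → ∀ (u v : ℝ → E) (N L : ℝ), ContDiff ℝ ∞ u → Step S h u v →
    Bd 2 K u → Bd j N (fun x => S.a (x, u x)) → Bd j N (fun x => S.B (x, u x)) →
    Bd j N (fun x => S.G (x, u x)) → (∀ l < j, ∀ x ∈ Icc (0 : ℝ) 1, ‖iteratedDeriv l v x‖ ≤ K') →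
    (∀ x ∈ Icc (0 : ℝ) 1, ‖iteratedDeriv j u x‖ ≤ L) →
    ∀ x ∈ Icc (0 : ℝ) 1, ‖iteratedDeriv j v x‖ ≤ (1 + 2 * h * θ) * (L + h * (C * N)) := by
  obtain ⟨α0, h0, hα⟩ := S.lower K
  obtain ⟨M1, m1, hM1⟩ := bd_comp 2 S.ha K
  obtain ⟨M2, m2, hM2⟩ := bd_comp 2 S.hB K
  obtain ⟨D, hD0, hD⟩ := bd_gam (E := E) S.b j 0
  obtain ⟨C, hC0, hC⟩ := bd_rho (E := E) S.b K' hK' j 0
  refine ⟨((1 + j) * (M1 + M2)) ^ 2 / (16 * α0) + D * (M1 + M2), C, by positivity, hC0,
    fun h hh hθ u v N L hu hv hK a1 b1 r1 v1 u1 x hx => ?_⟩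
  have := S.ha
  have := S.hB
  have := S.hG
  have sa : ContDiff ℝ ∞ fun x => S.a (x, u x) := by fun_prop
  have sb : ContDiff ℝ ∞ fun x => S.B (x, u x) := by fun_prop
  have sr : ContDiff ℝ ∞ fun x => S.G (x, u x) := by fun_prop
  have a2 := (hM1 u hu hK).mono le_rfl (le_add_of_nonneg_right m2)
  have b2 := (hM2 u hu hK).mono le_rfl (le_add_of_nonneg_left m1)
  have k1 := bd_bet sa sb j 0 (b2.mono (by omega) le_rfl) (a2.mono (by omega) le_rfl)
  have k2 := hD sa sb (b2.mono (by omega) le_rfl) (a2.mono (by omega) le_rfl)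
  have k3 := hC sa sb sr hv.1 (by rwa [zero_add]) (by rwa [zero_add]) (by rwa [zero_add])
    (by rwa [zero_add])
  have k4 := stat_max (F := L + h * (C * N)) (contDiff_iter j hv.1)
    (c := (S.b : ℝ) + j) (by positivity) hh.le h0 (fun x hx => hα x hx _ (hK.zero hx))
    (fun x hx => k1.zero hx) (fun x hx => k2.zero hx) (fun x hx => by
      refine norm_add_le_of_le (u1 x hx) ?_
      rw [norm_smul, Real.norm_eq_abs, abs_of_pos hh]
      exact mul_le_mul_of_nonneg_left (k3.zero hx) hh.le)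
    (lev_eq sa sb sr hu hv.1 hv.2 j) x hx
  set θ := ((1 + j) * (M1 + M2)) ^ 2 / (16 * α0) + D * (M1 + M2) with hθdef
  have hθ0 : 0 ≤ h * θ := by positivity
  have k5 := mul_le_mul_of_nonneg_left k4 (show 0 ≤ 1 + 2 * h * θ by nlinarith)
  refine le_trans ?_ k5
  rw [← mul_assoc]
  refine le_mul_of_one_le_left (norm_nonneg _) ?_
  nlinarith

end Crest.Agent.N207.S.Ex
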