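import Crest.Agent.N207.S.Ex.Pro2
import Crest.Agent.N207.S.Ex.Core

/-!
Row 207, S0320, block EX: the final statement.
-/

namespace Crest.Agent.N207.S.Ex

/-- **block EX** -/
theorem flowStmt : FlowStmt := flow_of_core core

end Crest.Agent.N207.S.Ex
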