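import Crest.Agent.N207.S.Ex.Defs
import Crest.Agent.N207.X.JS

/-!
Row 207, S0320, block EX: joint smoothness on a closed rectangle from a tower of continuous
`x`-jets and an evolution equation.
-/

set_option autoImplicit false
set_option linter.unusedSectionVars false

open Set Filter MeasureTheory
open scoped Topology ContDiff Interval

noncomputable section
namespace Crest.Agent.N207.S.Ex

open Crest.Agent.N207.X

section
variable {V : Type*} [NormedAddCommGroup V] [NormedSpace ℝ V] {a b : ℝ}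

lemma fderiv_of_partial {u Φ : ℝ → ℝ → V} (h : Ev (Icc a b) (Icc 0 1) u Φ)
    (hΦ : ContinuousOn (fun p : ℝ × ℝ => Φ p.1 p.2) (Icc a b ×ˢ Icc 0 1))
    {t : ℝ} (ht : t ∈ Icc a b) {y : ℝ} (hy : y ∈ Icc (0 : ℝ) 1) {L : V}
    (hL : HasDerivWithinAt (u t) L (Icc 0 1) y) :
    HasFDerivWithinAt (fun p : ℝ × ℝ => u p.1 p.2)
      ((ContinuousLinearMap.fst ℝ ℝ ℝ).smulRight (Φ t y) +
        (ContinuousLinearMap.snd ℝ ℝ ℝ).smulRight L) (Icc a b ×ˢ Icc 0 1) (t, y) := by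
  have h2 : HasFDerivWithinAt (fun p : ℝ × ℝ => u t p.2)
      ((ContinuousLinearMap.snd ℝ ℝ ℝ).smulRight L) (Icc a b ×ˢ Icc 0 1) (t, y) := by
    have := HasFDerivWithinAt.comp (t, y) (g := u t) (f := fun p : ℝ × ℝ => p.2)
      hL.hasFDerivWithinAt (ContinuousLinearMap.snd ℝ ℝ ℝ).hasFDerivWithinAt
      (s := Icc a b ×ˢ Icc 0 1) (fun p hp => hp.2)
    refine HasFDerivWithinAt.congr_fderiv this ?_
    ext <;> simp
  have h1 : HasFDerivWithinAt (fun p : ℝ × ℝ => u p.1 p.2 - u t p.2)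
      ((ContinuousLinearMap.fst ℝ ℝ ℝ).smulRight (Φ t y)) (Icc a b ×ˢ Icc 0 1) (t, y) := by
    rw [hasFDerivWithinAt_iff_isLittleO, Asymptotics.isLittleO_iff]
    intro c hc
    have h3 := hΦ (t, y) ⟨ht, hy⟩
    rw [ContinuousWithinAt, Metric.tendsto_nhdsWithin_nhds] at h3
    obtain ⟨δ, hδ, h3⟩ := h3 c hc
    filter_upwards [self_mem_nhdsWithin,
      mem_nhdsWithin_of_mem_nhds (Metric.ball_mem_nhds (t, y) hδ)] with p hp hpδ
    have hp1 : dist p.1 t < δ := (le_max_left _ _).trans_lt hpδ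
    have hp2 : dist p.2 y < δ := (le_max_right _ _).trans_lt hpδ
    have h4 := ((convex_Icc a b).inter
      (convex_ball t δ)).norm_image_sub_le_of_norm_hasDerivWithin_le
      (f := fun s => u s p.2 - s • Φ t y) (f' := fun s => Φ s p.2 - Φ t y) (C := c)
      (fun s hs => by
        have h6 := ((h s hs.1 p.2 hp.2).fun_sub
          ((hasDerivWithinAt_id s (Icc a b)).smul_const (Φ t y))).mono
          (inter_subset_left (t := Metric.ball t δ))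
        simpa using h6)
      (fun s hs => by
        have := h3 (x := (s, p.2)) ⟨hs.1, hp.2⟩ (max_lt hs.2 hp2)
        rw [dist_eq_norm] at this
        exact this.le)
      (x := t) (y := p.1) ⟨ht, Metric.mem_ball_self hδ⟩ ⟨hp.1, hp1⟩
    have h5 : ‖p.1 - t‖ ≤ ‖p - (t, y)‖ := norm_fst_le (p - (t, y))
    refine le_trans (le_of_eq ?_) (h4.trans (mul_le_mul_of_nonneg_left h5 hc.le))
    congr 1
    simp [sub_smul]
    abel
  simpa using h1.fun_add h2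

lemma contDiffOn_of_partial (hab : a < b) {u Φ Ψ : ℝ → ℝ → V} {n : ℕ}
    (h : Ev (Icc a b) (Icc 0 1) u Φ)
    (hx : ∀ t ∈ Icc a b, ∀ y ∈ Icc (0 : ℝ) 1, HasDerivWithinAt (u t) (Ψ t y) (Icc 0 1) y)
    (hΦ : ContDiffOn ℝ n (fun p : ℝ × ℝ => Φ p.1 p.2) (Icc a b ×ˢ Icc 0 1))
    (hΨ : ContDiffOn ℝ n (fun p : ℝ × ℝ => Ψ p.1 p.2) (Icc a b ×ˢ Icc 0 1)) :
    ContDiffOn ℝ (n + 1 : ℕ) (fun p : ℝ × ℝ => u p.1 p.2) (Icc a b ×ˢ Icc 0 1) := by
  have e : ((n + 1 : ℕ) : WithTop ℕ∞) = (n : WithTop ℕ∞) + 1 := by push_cast; rfl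
  rw [e, contDiffOn_succ_iff_hasFDerivWithinAt_of_uniqueDiffOn
    ((uniqueDiffOn_Icc hab).prod (uniqueDiffOn_Icc zero_lt_one))]
  refine ⟨by simp, fun p => (ContinuousLinearMap.fst ℝ ℝ ℝ).smulRight (Φ p.1 p.2) +
    (ContinuousLinearMap.snd ℝ ℝ ℝ).smulRight (Ψ p.1 p.2), ?_, fun p hp => ?_⟩
  · exact ((ContinuousLinearMap.smulRightL ℝ (ℝ × ℝ) V
      (ContinuousLinearMap.fst ℝ ℝ ℝ)).contDiff.comp_contDiffOn hΦ).add
      ((ContinuousLinearMap.smulRightL ℝ (ℝ × ℝ) V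
      (ContinuousLinearMap.snd ℝ ℝ ℝ)).contDiff.comp_contDiffOn hΨ)
  · exact fderiv_of_partial h hΦ.continuousOn hp.1 hp.2 (hx p.1 hp.1 p.2 hp.2)

variable [CompleteSpace V]

lemma ev_comm (hab : a < b) {u u1 Φ Φ1 : ℝ → ℝ → V} (h : Ev (Icc a b) (Icc 0 1) u Φ)
    (hu : ∀ t ∈ Icc a b, ∀ y ∈ Icc (0 : ℝ) 1, HasDerivWithinAt (u t) (u1 t y) (Icc 0 1) y)
    (hΦ : ∀ t ∈ Icc a b, ∀ y ∈ Icc (0 : ℝ) 1, HasDerivWithinAt (Φ t) (Φ1 t y) (Icc 0 1) y)
    (cu1 : ContinuousOn (fun p : ℝ × ℝ => u1 p.1 p.2) (Icc a b ×ˢ Icc 0 1))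
    (cΦ : ContinuousOn (fun p : ℝ × ℝ => Φ p.1 p.2) (Icc a b ×ˢ Icc 0 1))
    (cΦ1 : ContinuousOn (fun p : ℝ × ℝ => Φ1 p.1 p.2) (Icc a b ×ˢ Icc 0 1)) :
    Ev (Icc a b) (Icc 0 1) u1 Φ1 := by
  intro t ht y hy
  refine hasDerivWithinAt_of_int (f := fun r => u1 r y) (g := fun r => Φ1 r y)
    (cont_slice cΦ1 hy) (fun r hr => ?_) ht
  obtain ⟨C, hC⟩ := (isCompact_Icc.prod isCompact_Icc).exists_bound_of_continuousOn cΦ1
  have hsub : Ι a r ⊆ Icc a b := by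
    rw [uIoc_of_le hr.1]
    exact fun s hs => ⟨hs.1.le, hs.2.trans hr.2⟩
  have hsub' : Icc a r ⊆ Icc a b := Icc_subset_Icc_right hr.2
  have ha : a ∈ Icc a b := ⟨le_rfl, hab.le⟩
  have key : EqOn (fun y => u1 r y) (fun y => u1 a y + ∫ s in a..r, Φ1 s y) (Ioo 0 1) := by
    intro z hz
    have hz' := Ioo_subset_Icc_self hz
    have h1 := (intervalIntegral.hasDerivAt_integral_of_dominated_loc_of_deriv_le (𝕜 := ℝ)
      (μ := volume) (a := a) (b := r) (F := fun z s => Φ s z) (F' := fun z s => Φ1 s z)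
      (bound := fun _ => C) (Ioo_mem_nhds hz.1 hz.2)
      (by
        filter_upwards [Icc_mem_nhds hz.1 hz.2] with w hw
        exact ((cont_slice cΦ hw).mono hsub).aestronglyMeasurable measurableSet_uIoc)
      (((cont_slice cΦ hz').mono hsub').intervalIntegrable_of_Icc hr.1)
      (((cont_slice cΦ1 hz').mono hsub).aestronglyMeasurable measurableSet_uIoc)
      (Eventually.of_forall fun s hs w hw => hC (s, w) ⟨hsub hs, Ioo_subset_Icc_self hw⟩)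
      intervalIntegrable_const
      (Eventually.of_forall fun s hs w hw => (hΦ s (hsub hs) w
        (Ioo_subset_Icc_self hw)).hasDerivAt (Icc_mem_nhds hw.1 hw.2))).2
    have h2 := ((hu a ha z hz').hasDerivAt (Icc_mem_nhds hz.1 hz.2)).add h1
    have h3 : u r =ᶠ[𝓝 z] fun z => u a z + ∫ s in a..r, Φ s z := by
      filter_upwards [Icc_mem_nhds hz.1 hz.2] with w hw
      exact h.int cΦ hr hw
    exact ((hu r hr z hz').hasDerivAt (Icc_mem_nhds hz.1 hz.2)).unique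
      (h2.congr_of_eventuallyEq h3)
  have hc : Continuous fun p : ℝ × ℝ =>
      Φ1 (projIcc a b hab.le p.2) (projIcc (0 : ℝ) 1 zero_le_one p.1) :=
    cΦ1.comp_continuous (f := fun p : ℝ × ℝ =>
      ((projIcc a b hab.le p.2 : ℝ), (projIcc (0 : ℝ) 1 zero_le_one p.1 : ℝ)))
      (by
        have := continuous_projIcc (a := a) (b := b) (h := hab.le)
        have := continuous_projIcc (a := (0 : ℝ)) (b := 1) (h := zero_le_one)
        fun_prop)
      fun p => ⟨(projIcc a b hab.le p.2).2, (projIcc (0 : ℝ) 1 zero_le_one p.1).2⟩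
  have hc2 : ContinuousOn (fun y => ∫ s in a..r, Φ1 s y) (Icc 0 1) := by
    refine (intervalIntegral.continuous_parametric_intervalIntegral_of_continuous'
      (μ := volume) (f := fun y s =>
        Φ1 (projIcc a b hab.le s) (projIcc (0 : ℝ) 1 zero_le_one y)) hc a r).continuousOn.congr
      fun w hw => ?_
    refine intervalIntegral.integral_congr fun s hs => ?_
    rw [uIcc_of_le hr.1] at hs
    simp only [projIcc_of_mem hab.le (hsub' hs), projIcc_of_mem zero_le_one hw]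
  exact key.of_subset_closure (cont_slice' cu1 hr) ((cont_slice' cu1 ha).add hc2)
    Ioo_subset_Icc_self (by rw [closure_Ioo zero_ne_one]) hy

end

/-- a tower of jointly continuous `x`-jets. -/
structure Tow {V : Type*} [NormedAddCommGroup V] [NormedSpace ℝ V] (a b : ℝ)
    (D : ℕ → ℝ → ℝ → V) : Prop where
  cont : ∀ j, ContinuousOn (fun p : ℝ × ℝ => D j p.1 p.2) (Icc a b ×ˢ Icc 0 1)
  dx : ∀ j, ∀ t ∈ Icc a b, ∀ y ∈ Icc (0 : ℝ) 1,
    HasDerivWithinAt (D j t) (D (j + 1) t y) (Icc 0 1) y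

lemma Tow.up {V : Type} [NormedAddCommGroup V] [NormedSpace ℝ V] [CompleteSpace V] {a b : ℝ}
    (hab : a < b) {D : ℕ → ℝ → ℝ → V} (hD : Tow a b D) {Φ : ℝ × V × V × V → V}
    (hΦ : ContDiff ℝ ∞ Φ)
    (h : Ev (Icc a b) (Icc 0 1) (D 0) fun t y => Φ (y, D 0 t y, D 1 t y, D 2 t y)) :
    Tow a b (fun j t y => (D j t y, D (j + 1) t y)) ∧
      ∃ Ψ : ℝ × (V × V) × (V × V) × (V × V) → V × V, ContDiff ℝ ∞ Ψ ∧
        Ev (Icc a b) (Icc 0 1) (fun t y => (D 0 t y, D 1 t y)) fun t y =>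
          Ψ (y, (D 0 t y, D 1 t y), (D 1 t y, D 2 t y), (D 2 t y, D 3 t y)) := by
  have sD : ContDiff ℝ ∞ (fderiv ℝ Φ) := (contDiff_infty_iff_fderiv.1 hΦ).2
  refine ⟨⟨fun j => (hD.cont j).prodMk (hD.cont (j + 1)), fun j t ht y hy =>
    (hD.dx j t ht y hy).prodMk (hD.dx (j + 1) t ht y hy)⟩,
    fun z => (Φ (z.1, z.2.1.1, z.2.2.1.1, z.2.2.2.1),
      fderiv ℝ Φ (z.1, z.2.1.1, z.2.2.1.1, z.2.2.2.1) (1, z.2.1.2, z.2.2.1.2, z.2.2.2.2)),
    by fun_prop, ?_⟩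
  have c0 := hD.cont 0
  have c1 := hD.cont 1
  have c2 := hD.cont 2
  have c3 := hD.cont 3
  have cz : ContinuousOn (fun p : ℝ × ℝ => (p.2, D 0 p.1 p.2, D 1 p.1 p.2, D 2 p.1 p.2))
      (Icc a b ×ˢ Icc 0 1) := continuousOn_snd.prodMk (c0.prodMk (c1.prodMk c2))
  have k := ev_comm hab (u1 := D 1) (Φ1 := fun t y => fderiv ℝ Φ (y, D 0 t y, D 1 t y, D 2 t y)
    (1, D 1 t y, D 2 t y, D 3 t y)) h (hD.dx 0)
    (fun t ht y hy => (hΦ.differentiable (by simp) _).hasFDerivAt.comp_hasDerivWithinAt y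
      ((hasDerivWithinAt_id y _).prodMk ((hD.dx 0 t ht y hy).prodMk
        ((hD.dx 1 t ht y hy).prodMk (hD.dx 2 t ht y hy)))))
    c1 (hΦ.continuous.comp_continuousOn cz)
    ((sD.continuous.comp_continuousOn cz).clm_apply
      (continuousOn_const.prodMk (c1.prodMk (c2.prodMk c3))))
  exact fun t ht y hy => (h t ht y hy).prodMk (k t ht y hy)

lemma Tow.cd {a b : ℝ} (hab : a < b) (n : ℕ) : ∀ {V : Type} [NormedAddCommGroup V]
    [NormedSpace ℝ V] [CompleteSpace V] {D : ℕ → ℝ → ℝ → V}, Tow a b D →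
    ∀ {Φ : ℝ × V × V × V → V}, ContDiff ℝ ∞ Φ →
    (Ev (Icc a b) (Icc 0 1) (D 0) fun t y => Φ (y, D 0 t y, D 1 t y, D 2 t y)) →
    ContDiffOn ℝ n (fun p : ℝ × ℝ => D 0 p.1 p.2) (Icc a b ×ˢ Icc 0 1) := by
  induction n with
  | zero =>
    intro V _ _ _ D hD Φ _ _
    simpa using hD.cont 0
  | succ n ih =>
    intro V _ _ _ D hD Φ hΦ h
    obtain ⟨h1, Ψ, hΨ, e1⟩ := hD.up hab hΦ h
    obtain ⟨h2, Θ, hΘ, e2⟩ := h1.up hab hΨ e1
    have k := ih h2 hΘ e2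
    have k0 : ContDiffOn ℝ n (fun p : ℝ × ℝ => D 0 p.1 p.2) (Icc a b ×ˢ Icc 0 1) := k.fst.fst
    have k1 : ContDiffOn ℝ n (fun p : ℝ × ℝ => D 1 p.1 p.2) (Icc a b ×ˢ Icc 0 1) := k.fst.snd
    have k2 : ContDiffOn ℝ n (fun p : ℝ × ℝ => D 2 p.1 p.2) (Icc a b ×ˢ Icc 0 1) := k.snd.snd
    refine contDiffOn_of_partial hab h (hD.dx 0) ?_ k1
    exact (hΦ.of_le (by exact_mod_cast le_top)).comp_contDiffOn
      (contDiffOn_snd.prodMk (k0.prodMk (k1.prodMk k2)))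

lemma Tow.jet_eq {V : Type*} [NormedAddCommGroup V] [NormedSpace ℝ V] {a b : ℝ}
    {D : ℕ → ℝ → ℝ → V} (hD : Tow a b D) (j : ℕ) {t : ℝ} (ht : t ∈ Icc a b) :
    ∀ y ∈ Icc (0 : ℝ) 1, jet j (D 0 t) y = D j t y := by
  induction j with
  | zero => intro y _; simp [jet]
  | succ j ih =>
    intro y hy
    rw [jet, iteratedDerivWithin_succ, derivWithin_congr (f := D j t) ih (ih y hy)]
    exact (hD.dx j t ht y hy).derivWithin (uniqueDiffOn_Icc zero_lt_one y hy)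

/-- **joint smoothness**. -/
theorem Tow.isSolF {V : Type} [NormedAddCommGroup V] [NormedSpace ℝ V] [CompleteSpace V]
    {a b : ℝ} (hab : a < b) {D : ℕ → ℝ → ℝ → V} (hD : Tow a b D) {F : ℝ × V → V → V → V}
    (hF : ContDiff ℝ ∞ fun z : ℝ × V × V × V => F (z.1, z.2.1) z.2.2.1 z.2.2.2)
    (h : Ev (Icc a b) (Icc 0 1) (D 0) fun t y => F (y, D 0 t y) (D 1 t y) (D 2 t y)) :
    IsSolF F a b (D 0) := by
  refine ⟨contDiffOn_infty.2 fun n => Tow.cd hab n hD hF h, fun t ht x hx => ?_⟩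
  rw [hD.jet_eq 1 ht x hx, hD.jet_eq 2 ht x hx]
  exact h t ht x hx

end Crest.Agent.N207.S.Ex
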