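import Crest.Agent.N207.S.Ex.JS01
import Crest.Agent.N207.S.Ex.Bd

/-!
Row 207, S0320, block EX: the limit of a time-discrete scheme along an ultrafilter.
-/

set_option autoImplicit false
set_option linter.unusedSectionVars false

open Set Filter
open scoped Topology ContDiff NNReal

noncomputable section
namespace Crest.Agent.N207.S.Ex

open Crest.Agent.N207.X

section
variable {V : Type*} [NormedAddCommGroup V] [NormedSpace ℝ V]

lemma tele {f : ℕ → V} {c : ℝ} {n m : ℕ} (hnm : n ≤ m)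
    (h : ∀ i, n ≤ i → i < m → ‖f (i + 1) - f i‖ ≤ c) : ‖f m - f n‖ ≤ ((m : ℝ) - n) * c := by
  induction m, hnm using Nat.le_induction with
  | base => simp
  | succ m hm ih =>
    have h1 := ih fun i a b => h i a (by omega)
    have h2 := h m hm (by omega)
    have h3 : f (m + 1) - f n = (f (m + 1) - f m) + (f m - f n) := by abel
    rw [h3]
    refine (norm_add_le_of_le h2 h1).trans (le_of_eq ?_)
    push_cast; ring

lemma tele2 {f : ℕ → V} {c : ℝ} (hc : 0 ≤ c) {n m i p : ℕ} (hi : n ≤ i) (hi' : i ≤ m) (hp : n ≤ p)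
    (hp' : p ≤ m) (h : ∀ i, n ≤ i → i < m → ‖f (i + 1) - f i‖ ≤ c) :
    ‖f i - f p‖ ≤ ((m : ℝ) - n) * c := by
  have a1 : (n : ℝ) ≤ i := by exact_mod_cast hi
  have a2 : (i : ℝ) ≤ m := by exact_mod_cast hi'
  have a3 : (n : ℝ) ≤ p := by exact_mod_cast hp
  have a4 : (p : ℝ) ≤ m := by exact_mod_cast hp'
  rcases le_total p i with e | e
  · refine (tele e fun k a b => h k (by omega) (by omega)).trans ?_
    exact mul_le_mul_of_nonneg_right (by linarith) hc
  · rw [norm_sub_rev]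
    refine (tele e fun k a b => h k (by omega) (by omega)).trans ?_
    exact mul_le_mul_of_nonneg_right (by linarith) hc

lemma hasDerivWithinAt_of_sq {f : ℝ → V} {d : V} {s : Set ℝ} {x C : ℝ}
    (h : ∀ y ∈ s, ‖f y - f x - (y - x) • d‖ ≤ C * (y - x) ^ 2) : HasDerivWithinAt f d s x := by
  rw [hasDerivWithinAt_iff_isLittleO, Asymptotics.isLittleO_iff]
  intro c hc
  have h1 : ∀ᶠ y in 𝓝 x, |C| * |y - x| < c := by
    have : Continuous fun y : ℝ => |C| * |y - x| := by fun_prop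
    exact this.continuousAt.eventually_lt continuousAt_const (by simpa using hc)
  filter_upwards [self_mem_nhdsWithin, mem_nhdsWithin_of_mem_nhds h1] with y hy hy'
  refine (h y hy).trans ?_
  rw [Real.norm_eq_abs, ← sq_abs, sq, ← mul_assoc]
  refine mul_le_mul_of_nonneg_right ?_ (abs_nonneg _)
  exact (mul_le_mul_of_nonneg_right (le_abs_self C) (abs_nonneg _)).trans hy'.le

lemma Bd.lip {g : ℝ → V} {c : ℝ} {j : ℕ} (hg : ContDiff ℝ ∞ g) (h : Bd (j + 1) c g) {x y : ℝ}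
    (hx : x ∈ Icc (0 : ℝ) 1) (hy : y ∈ Icc (0 : ℝ) 1) :
    ‖iteratedDeriv j g y - iteratedDeriv j g x‖ ≤ c * |y - x| :=
  (convex_Icc (0 : ℝ) 1).norm_image_sub_le_of_norm_hasDerivWithin_le
    (f' := fun z => iteratedDeriv (j + 1) g z) (fun z _ => by
      rw [iteratedDeriv_succ]
      exact (hda (contDiff_iter j hg) z).hasDerivWithinAt) (h (j + 1) le_rfl) hx hy

lemma Bd.taylor {g : ℝ → V} {c : ℝ} {j : ℕ} (hg : ContDiff ℝ ∞ g) (h : Bd (j + 2) c g) {x y : ℝ}
    (hx : x ∈ Icc (0 : ℝ) 1) (hy : y ∈ Icc (0 : ℝ) 1) :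
    ‖iteratedDeriv j g y - iteratedDeriv j g x - (y - x) • iteratedDeriv (j + 1) g x‖ ≤
      c * (y - x) ^ 2 := by
  have hs : uIcc x y ⊆ Icc (0 : ℝ) 1 := uIcc_subset_Icc hx hy
  have k := (convex_uIcc x y).norm_image_sub_le_of_norm_hasDerivWithin_le
    (f := fun z => iteratedDeriv j g z - z • iteratedDeriv (j + 1) g x)
    (f' := fun z => iteratedDeriv (j + 1) g z - iteratedDeriv (j + 1) g x) (C := c * |y - x|)
    (fun z _ => by
      have := ((hda (contDiff_iter j hg) z).fun_sub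
        ((hasDerivAt_id z).smul_const (iteratedDeriv (j + 1) g x))).hasDerivWithinAt
        (s := uIcc x y)
      rw [← iteratedDeriv_succ, one_smul] at this
      exact this)
    (fun z hz => (h.lip hg hx (hs hz)).trans
      (mul_le_mul_of_nonneg_left (abs_sub_left_of_mem_uIcc hz) h.nonneg))
    left_mem_uIcc right_mem_uIcc
  refine le_trans (le_of_eq ?_) (k.trans (le_of_eq ?_))
  · congr 1; rw [sub_smul]; abel
  · rw [Real.norm_eq_abs, mul_assoc, ← sq, sq_abs]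

end

/-- the step size. -/
def hN (N : ℕ) : ℝ := 1 / ((N : ℝ) + 1)

/-- the index of the time `t`. -/
def idx (N : ℕ) (t : ℝ) : ℕ := ⌊t * ((N : ℝ) + 1)⌋₊

lemma hN_pos (N : ℕ) : 0 < hN N := by unfold hN; positivity

lemma tendsto_hN : Tendsto hN atTop (𝓝 0) := tendsto_one_div_add_atTop_nhds_zero_nat

lemma idx_le (N : ℕ) {t : ℝ} (ht : 0 ≤ t) : idx N t * hN N ≤ t := by
  unfold idx hN
  rw [mul_one_div, div_le_iff₀ (by positivity)]
  exact Nat.floor_le (by positivity)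

lemma idx_mono (N : ℕ) {s t : ℝ} (h : s ≤ t) : idx N s ≤ idx N t :=
  Nat.floor_le_floor (mul_le_mul_of_nonneg_right h (by positivity))

lemma tendsto_idx {t : ℝ} (ht : 0 ≤ t) : Tendsto (fun N => idx N t * hN N) atTop (𝓝 t) := by
  have h1 : Tendsto (fun N => t - hN N) atTop (𝓝 t) := by simpa using tendsto_hN.const_sub t
  refine tendsto_of_tendsto_of_tendsto_of_le_of_le h1 tendsto_const_nhds (fun N => ?_)
    fun N => idx_le N ht
  have h2 := (Nat.lt_floor_add_one (t * ((N : ℝ) + 1))).le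
  have h3 : t ≤ (idx N t + 1) * hN N := by
    unfold idx hN
    rwa [mul_one_div, le_div_iff₀ (by positivity)]
  simp only
  linarith

/-- a free ultrafilter on `ℕ`. -/
def UF : Ultrafilter ℕ := Ultrafilter.of atTop

lemma UF_le : (UF : Filter ℕ) ≤ atTop := Ultrafilter.of_le _

variable {E : Type} [NormedAddCommGroup E] [NormedSpace ℝ E] [FiniteDimensional ℝ E]

lemma tendsto_UF {f : ℕ → E} {C : ℝ} (h : ∀ᶠ N in atTop, ‖f N‖ ≤ C) :
    Tendsto f UF (𝓝 (limUnder UF f)) := by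
  have : ProperSpace E := FiniteDimensional.proper ℝ E
  obtain ⟨a, -, ha⟩ := (isCompact_closedBall (0 : E) C).ultrafilter_le_nhds (UF.map f) (by
    rw [le_principal_iff]
    exact (h.filter_mono UF_le).mono fun N hN => by simpa using hN)
  exact tendsto_nhds_limUnder ⟨a, ha⟩

theorem scheme_limit {τ : ℝ} {w : ℕ → ℕ → ℝ → E} {F : ℝ × E → E → E → E} {c : ℕ → ℝ}
    {u0 : ℝ → E} {C0 : ℝ}
    (hF : ContDiff ℝ ∞ fun z : ℝ × E × E × E => F (z.1, z.2.1) z.2.2.1 z.2.2.2)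
    (hw : ∀ N n, ContDiff ℝ ∞ (w N n)) (h0 : ∀ N, w N 0 = u0)
    (hB : ∀ j, ∀ᶠ N in atTop, ∀ n : ℕ, n * hN N ≤ τ → Bd j (c j) (w N n))
    (hI : ∀ j, ∃ C, 0 ≤ C ∧ (j = 0 → C = C0) ∧ ∀ᶠ N in atTop, ∀ n : ℕ, (n + 1 : ℕ) * hN N ≤ τ →
      ∀ x ∈ Icc (0 : ℝ) 1, ‖iteratedDeriv j (w N (n + 1)) x - iteratedDeriv j (w N n) x‖ ≤
        hN N * C)
    (hE : ∀ᶠ N in atTop, ∀ n : ℕ, (n + 1 : ℕ) * hN N ≤ τ → ∀ x ∈ Icc (0 : ℝ) 1,
      w N (n + 1) x - w N n x = hN N • F (x, w N n x) (iteratedDeriv 1 (w N (n + 1)) x)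
        (iteratedDeriv 2 (w N (n + 1)) x)) :
    ∃ D : ℕ → ℝ → ℝ → E, Tow 0 τ D ∧
      (Ev (Icc 0 τ) (Icc 0 1) (D 0) fun t y => F (y, D 0 t y) (D 1 t y) (D 2 t y)) ∧
      (∀ x ∈ Icc (0 : ℝ) 1, D 0 0 x = u0 x) ∧
      ∀ t ∈ Icc 0 τ, ∀ x ∈ Icc (0 : ℝ) 1, ‖D 0 t x - u0 x‖ ≤ t * C0 ∧ ∀ j, ‖D j t x‖ ≤ c j := by
  have : ProperSpace E := FiniteDimensional.proper ℝ E
  let D : ℕ → ℝ → ℝ → E := fun j t x => limUnder UF fun N => iteratedDeriv j (w N (idx N t)) x
  have hB' : ∀ j, ∀ t ∈ Icc 0 τ, ∀ᶠ N in atTop, Bd j (c j) (w N (idx N t)) := fun j t ht =>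
    (hB j).mono fun N hN => hN _ ((idx_le N ht.1).trans ht.2)
  have hT : ∀ j, ∀ t ∈ Icc 0 τ, ∀ x ∈ Icc (0 : ℝ) 1,
      Tendsto (fun N => iteratedDeriv j (w N (idx N t)) x) UF (𝓝 (D j t x)) := fun j t ht x hx =>
    tendsto_UF ((hB' j t ht).mono fun N hN => hN j le_rfl x hx)
  have hstep : ∀ N (t : ℝ), t ∈ Icc 0 τ → ∀ i, i < idx N t → (i + 1 : ℕ) * hN N ≤ τ :=
    fun N t ht i hi => le_trans (mul_le_mul_of_nonneg_right (by exact_mod_cast hi)
      (hN_pos N).le) ((idx_le N ht.1).trans ht.2)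
  have hdiff : ∀ s ∈ Icc 0 τ, ∀ t ∈ Icc 0 τ,
      Tendsto (fun N => ((idx N t : ℝ) - idx N s) * hN N) UF (𝓝 (t - s)) := fun s hs t ht => by
    simp only [sub_mul]
    exact ((tendsto_idx ht.1).sub (tendsto_idx hs.1)).mono_left UF_le
  have hLt : ∀ j, ∃ C, 0 ≤ C ∧ (j = 0 → C = C0) ∧ ∀ s ∈ Icc 0 τ, ∀ t ∈ Icc 0 τ, s ≤ t →
      ∀ x ∈ Icc (0 : ℝ) 1, ‖D j t x - D j s x‖ ≤ (t - s) * C := fun j => by
    obtain ⟨C, pC, e0, hC⟩ := hI j
    refine ⟨C, pC, e0, fun s hs t ht hst x hx => ?_⟩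
    refine le_of_tendsto_of_tendsto ((hT j t ht x hx).sub (hT j s hs x hx)).norm
      ((hdiff s hs t ht).mul_const C) ((hC.filter_mono UF_le).mono fun N hN' => ?_)
    simp only [mul_assoc]
    exact tele (f := fun i => iteratedDeriv j (w N i) x) (idx_mono N hst)
      fun i _ hi => hN' i (hstep N t ht i hi) x hx
  have hD0 : ∀ x ∈ Icc (0 : ℝ) 1, 0 ≤ τ → D 0 0 x = u0 x := fun x hx hτ => by
    have := hT 0 0 ⟨le_rfl, hτ⟩ x hx
    simp only [idx, zero_mul, Nat.floor_zero, h0, iteratedDeriv_zero] at this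
    exact tendsto_nhds_unique this tendsto_const_nhds
  have hbd : ∀ j, ∀ t ∈ Icc 0 τ, ∀ x ∈ Icc (0 : ℝ) 1, ‖D j t x‖ ≤ c j := fun j t ht x hx =>
    le_of_tendsto (hT j t ht x hx).norm
      (((hB' j t ht).filter_mono UF_le).mono fun N hN => hN j le_rfl x hx)
  refine ⟨D, ⟨fun j => ?_, fun j t ht x hx => ?_⟩, fun t0 ht0 x hx => ?_, fun x hx => ?_,
    fun t ht x hx => ⟨?_, fun j => hbd j t ht x hx⟩⟩
  · obtain ⟨C, pC, -, hC⟩ := hLt j
    have hx : ∀ t ∈ Icc 0 τ, ∀ x ∈ Icc (0 : ℝ) 1, ∀ y ∈ Icc (0 : ℝ) 1,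
        ‖D j t y - D j t x‖ ≤ c (j + 1) * |y - x| := fun t ht x hx y hy =>
      le_of_tendsto ((hT j t ht y hy).sub (hT j t ht x hx)).norm
        (((hB' (j + 1) t ht).filter_mono UF_le).mono fun N hN => hN.lip (hw _ _) hx hy)
    refine (LipschitzOnWith.of_dist_le_mul (K := Real.toNNReal (C + |c (j + 1)|))
      fun p hp q hq => ?_).continuousOn
    have h1 : ‖D j p.1 p.2 - D j q.1 p.2‖ ≤ |p.1 - q.1| * C := by
      rcases le_total q.1 p.1 with e | e
      · rw [abs_of_nonneg (sub_nonneg.2 e)]; exact hC _ hq.1 _ hp.1 e _ hp.2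
      · rw [norm_sub_rev, abs_sub_comm, abs_of_nonneg (sub_nonneg.2 e)]
        exact hC _ hp.1 _ hq.1 e _ hp.2
    have h2 := hx q.1 hq.1 q.2 hq.2 p.2 hp.2
    have h3 : |p.1 - q.1| ≤ dist p q := le_max_left _ _
    have h4 : |p.2 - q.2| ≤ dist p q := le_max_right _ _
    rw [dist_eq_norm, Real.coe_toNNReal _ (by positivity)]
    refine (norm_sub_le_norm_sub_add_norm_sub _ (D j q.1 p.2) _).trans ?_
    nlinarith [le_abs_self (c (j + 1)), abs_nonneg (c (j + 1)), abs_nonneg (p.2 - q.2)]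
  · refine hasDerivWithinAt_of_sq (C := c (j + 2)) fun y hy => ?_
    exact le_of_tendsto (((hT j t ht y hy).sub (hT j t ht x hx)).sub
      ((hT (j + 1) t ht x hx).const_smul (y - x))).norm
      (((hB' (j + 2) t ht).filter_mono UF_le).mono fun N hN => hN.taylor (hw _ _) hx hy)
  · obtain ⟨C1, p1, -, h1⟩ := hI 0
    obtain ⟨C2, p2, -, h2⟩ := hI 1
    obtain ⟨C3, p3, -, h3⟩ := hI 2
    obtain ⟨L, hL⟩ := hF.contDiffOn.exists_lipschitzOnWith (by simp)
      (convex_closedBall (0 : ℝ × E × E × E) (1 + |c 2|)) (isCompact_closedBall _ _)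
    set Φ : ℝ × E × E × E → E := fun z => F (z.1, z.2.1) z.2.2.1 z.2.2.2 with hΦ
    have key : ∀ s ∈ Icc 0 τ, ∀ t ∈ Icc 0 τ, s ≤ t → ∀ r ∈ Icc s t,
        ‖D 0 t x - D 0 s x - (t - s) • Φ (x, D 0 r x, D 1 r x, D 2 r x)‖ ≤
          (t - s) * (L * ((t - s) * (C1 + C2 + C3))) := by
      intro s hs t ht hst r hr
      have hr' : r ∈ Icc 0 τ := ⟨hs.1.trans hr.1, hr.2.trans ht.2⟩
      refine le_of_tendsto_of_tendsto (((hT 0 t ht x hx).sub (hT 0 s hs x hx)).sub
        ((hdiff s hs t ht).smul ((hF.continuous.tendsto _).comp (tendsto_const_nhds.prodMk_nhds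
          ((hT 0 r hr' x hx).prodMk_nhds ((hT 1 r hr' x hx).prodMk_nhds (hT 2 r hr' x hx))))))).norm
        ((hdiff s hs t ht).mul (((hdiff s hs t ht).mul_const (C1 + C2 + C3)).const_mul (L : ℝ)))
        ((((hB 2).and (h1.and (h2.and (h3.and hE)))).filter_mono UF_le).mono ?_)
      rintro N ⟨b, a1, a2, a3, e⟩
      dsimp only [Function.comp_apply]
      set n := idx N s
      set m := idx N t
      set p := idx N r
      have hnm : n ≤ m := idx_mono N hst
      have hnp : n ≤ p := idx_mono N hr.1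
      have hpm : p ≤ m := idx_mono N hr.2
      have hh := hN_pos N
      have bb : ∀ i ≤ m, ∀ l ≤ 2, ‖iteratedDeriv l (w N i) x‖ ≤ 1 + |c 2| := fun i hi l hl =>
        (b i (le_trans (mul_le_mul_of_nonneg_right (by exact_mod_cast hi) hh.le)
          ((idx_le N ht.1).trans ht.2)) l hl x hx).trans (by linarith [le_abs_self (c 2)])
      have mem : ∀ i ≤ m, ∀ k ≤ m, (x, iteratedDeriv 0 (w N i) x, iteratedDeriv 1 (w N k) x,
          iteratedDeriv 2 (w N k) x) ∈ Metric.closedBall (0 : ℝ × E × E × E) (1 + |c 2|) :=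
        fun i hi k hk => by
          rw [mem_closedBall_zero_iff, norm_prod_le_iff, norm_prod_le_iff, norm_prod_le_iff]
          refine ⟨?_, bb i hi 0 (by omega), bb k hk 1 (by omega), bb k hk 2 le_rfl⟩
          rw [Real.norm_eq_abs, abs_of_nonneg hx.1]
          linarith [hx.2, abs_nonneg (c 2)]
      have d0 : (0 : ℝ) ≤ (m : ℝ) - n := sub_nonneg.2 (by exact_mod_cast hnm)
      have k := tele (c := hN N * (L * (((m : ℝ) - n) * hN N * (C1 + C2 + C3))))
        (f := fun i => w N i x - ((i : ℝ) * hN N) • Φ (x, iteratedDeriv 0 (w N p) x,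
          iteratedDeriv 1 (w N p) x, iteratedDeriv 2 (w N p) x)) hnm fun i hi hi' => by
        have e1 := e i (hstep N t ht i hi') x hx
        have l1 := hL.norm_sub_le (mem i hi'.le (i + 1) hi') (mem p hpm p hpm)
        have t1 := tele2 (f := fun i => iteratedDeriv 0 (w N i) x) (by positivity) hi hi'.le hnp
          hpm fun i _ hi => a1 i (hstep N t ht i hi) x hx
        have t2 := tele2 (f := fun i => iteratedDeriv 1 (w N i) x) (by positivity)
          (Nat.le_succ_of_le hi) hi' hnp hpm fun i _ hi => a2 i (hstep N t ht i hi) x hx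
        have t3 := tele2 (f := fun i => iteratedDeriv 2 (w N i) x) (by positivity)
          (Nat.le_succ_of_le hi) hi' hnp hpm fun i _ hi => a3 i (hstep N t ht i hi) x hx
        have q1 : 0 ≤ ((m : ℝ) - n) * hN N * C1 := by positivity
        have q2 : 0 ≤ ((m : ℝ) - n) * hN N * C2 := by positivity
        have q3 : 0 ≤ ((m : ℝ) - n) * hN N * C3 := by positivity
        have l2 := l1.trans (mul_le_mul_of_nonneg_left (show _ ≤
            ((m : ℝ) - n) * hN N * (C1 + C2 + C3) by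
          rw [norm_prod_le_iff, norm_prod_le_iff, norm_prod_le_iff]
          simp only [Prod.fst_sub, Prod.snd_sub, sub_self, norm_zero]
          exact ⟨by positivity, by linarith, by linarith, by linarith⟩) L.2)
        have e2 : ∀ z : E, w N (i + 1) x - (((i + 1 : ℕ) : ℝ) * hN N) • z -
            (w N i x - ((i : ℝ) * hN N) • z) = (w N (i + 1) x - w N i x) - hN N • z := fun z => by
          push_cast; module
        rw [e2, e1, ← smul_sub, norm_smul, Real.norm_eq_abs, abs_of_pos hh]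
        exact mul_le_mul_of_nonneg_left l2 hh.le
      refine le_trans (le_of_eq ?_) (k.trans (le_of_eq (by ring)))
      congr 1
      simp only [iteratedDeriv_zero]
      module
    refine hasDerivWithinAt_of_sq (C := L * (C1 + C2 + C3)) fun t ht => ?_
    rcases le_total t0 t with e | e
    · exact (key t0 ht0 t ht e t0 ⟨le_rfl, e⟩).trans (le_of_eq (by ring))
    · have := key t ht t0 ht0 e t0 ⟨e, le_rfl⟩
      rw [← norm_neg] at this
      refine le_trans (le_of_eq ?_) (this.trans (le_of_eq (by ring)))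
      congr 1
      simp only [hΦ]
      module
  · have := hT 0 0
    simp only [D, idx, zero_mul, Nat.floor_zero, h0, iteratedDeriv_zero]
    exact (tendsto_const_nhds (f := (UF : Filter ℕ))).limUnder_eq
  · obtain ⟨C, -, e0, hC⟩ := hLt 0
    have := hC 0 ⟨le_rfl, ht.1.trans ht.2⟩ t ht ht.1 x hx
    rwa [hD0 x hx (ht.1.trans ht.2), sub_zero, e0 rfl] at this

end Crest.Agent.N207.S.Ex
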