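import Crest.Agent.N207.S.Ex.Stab2

/-!
Row 207, S0320, block EX (helper49): propagation of the constraint `P = U'` for the prolonged
system.
-/

set_option autoImplicit false

open Set Filter
open scoped Topology ContDiff

noncomputable section
namespace Crest.Agent.N207.S.Ex

variable {E : Type} [NormedAddCommGroup E] [InnerProductSpace ℝ E]

/-- first row of the prolonged system -/
def Glob.FU (G : Glob E) (x : ℝ) (u p u1 u2 : E) : E :=
  G.a (x, u) • (mu x • u2 + (((G.b : ℝ) + 1) * (1 - 2 * x)) • u1) +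
    (G.Psi ((x, u), p) - (G.a (x, u) * ((G.b : ℝ) + 1) * (1 - 2 * x)) • p)

/-- second row of the prolonged system -/
def Glob.FP (G : Glob E) (x : ℝ) (u p p1 p2 : E) : E :=
  G.a (x, u) • (mu x • p2 + (((G.b : ℝ) + 1) * (1 - 2 * x)) • p1) +
    (fderiv ℝ G.a (x, u) (1, p) • mu x • p1 + G.β ((x, u), p) (mu x • p1)) +
    fderiv ℝ G.Psi ((x, u), p) ((1, p), 0)

/-- space derivative of the first row -/
def Glob.DU (G : Glob E) (x : ℝ) (u p u1 p1 u2 u3 : E) : E :=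
  G.a (x, u) • (mu x • u3 + (1 - 2 * x) • u2 + ((((G.b : ℝ) + 1) * (1 - 2 * x)) • u2 -
      (2 * ((G.b : ℝ) + 1)) • u1)) +
    fderiv ℝ G.a (x, u) (1, u1) • (mu x • u2 + (((G.b : ℝ) + 1) * (1 - 2 * x)) • u1) +
    (fderiv ℝ G.Psi ((x, u), p) ((1, u1), p1) -
      ((G.a (x, u) * ((G.b : ℝ) + 1) * (1 - 2 * x)) • p1 +
        (fderiv ℝ G.a (x, u) (1, u1) * ((G.b : ℝ) + 1) * (1 - 2 * x) -
          2 * G.a (x, u) * ((G.b : ℝ) + 1)) • p))

theorem Glob.hd_FU (G : Glob E) {u p : ℝ → E} (hu : ContDiffOn ℝ ∞ u (Icc 0 1))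
    (hp : ContDiffOn ℝ ∞ p (Icc 0 1)) {x : ℝ} (hx : x ∈ Icc (0 : ℝ) 1) :
    HasDerivWithinAt (fun y => G.FU y (u y) (p y) (jet 1 u y) (jet 2 u y))
      (G.DU x (u x) (p x) (jet 1 u x) (jet 1 p x) (jet 2 u x) (jet 3 u x)) (Icc 0 1) x := by
  have c1 : HasDerivWithinAt (fun y => ((y, u y) : ℝ × E)) (1, jet 1 u x) (Icc 0 1) x :=
    (hasDerivWithinAt_id x _).prodMk (jet_hd0 hu hx)
  have ha : HasDerivWithinAt (fun y => G.a (y, u y)) (fderiv ℝ G.a (x, u x) (1, jet 1 u x))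
      (Icc 0 1) x :=
    (G.ha.differentiable (by simp) (x, u x)).hasFDerivAt.comp_hasDerivWithinAt x c1
  have hΨ : HasDerivWithinAt (fun y => G.Psi ((y, u y), p y))
      (fderiv ℝ G.Psi ((x, u x), p x) ((1, jet 1 u x), jet 1 p x)) (Icc 0 1) x :=
    (G.hPsi.differentiable (by simp) ((x, u x), p x)).hasFDerivAt.comp_hasDerivWithinAt
      (f := fun y => (((y, u y), p y) : (ℝ × E) × E)) x (c1.prodMk (jet_hd0 hp hx))
  have hk : HasDerivWithinAt (fun y : ℝ => 1 - 2 * y) (-2) (Icc 0 1) x := by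
    simpa using (((hasDerivAt_id' x).const_mul 2).const_sub 1).hasDerivWithinAt
  refine HasDerivWithinAt.congr_deriv ((ha.fun_smul
    (((hasDerivAt_mu x).hasDerivWithinAt.fun_smul (jet_hd hu 2 hx)).fun_add
      ((hk.const_mul ((G.b : ℝ) + 1)).fun_smul (jet_hd hu 1 hx)))).fun_add
    (hΨ.fun_sub (((ha.mul_const ((G.b : ℝ) + 1)).fun_mul hk).fun_smul (jet_hd0 hp hx)))) ?_
  unfold Glob.DU
  module

theorem Glob.rem (G : Glob E) (x : ℝ) (u p u1 p1 u2 p2 u3 : E) :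
    G.FP x u p p1 p2 - G.DU x u p u1 p1 u2 u3 -
      G.a (x, u) • (mu x • (p2 - u3) + (((G.b : ℝ) + 2) * (1 - 2 * x)) • (p1 - u2)) =
    fderiv ℝ G.a (x, u) (1, u1) • mu x • (p1 - u2) +
      ((mu x * fderiv ℝ G.a (x, u) (0, p - u1)) • p1 +
        (((G.b : ℝ) + 1) * ((1 - 2 * x) * fderiv ℝ G.a (x, u) (1, u1) - 2 * G.a (x, u))) • (p - u1) +
        fderiv ℝ G.Psi ((x, u), p) ((0, p - u1), 0)) := by
  have e1 : fderiv ℝ G.a (x, u) (1, p) =
      fderiv ℝ G.a (x, u) (1, u1) + fderiv ℝ G.a (x, u) (0, p - u1) := by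
    rw [← map_add]; simp
  have e2 := congrArg (fun L : E →L[ℝ] E => L p1) (G.dP ((x, u), p))
  simp only [ContinuousLinearMap.comp_apply, ContinuousLinearMap.inr_apply,
    add_apply, smul_apply,
    ContinuousLinearMap.id_apply] at e2
  have e3 : fderiv ℝ G.Psi ((x, u), p) ((1, u1), p1) =
      fderiv ℝ G.Psi ((x, u), p) ((1, p), 0) - fderiv ℝ G.Psi ((x, u), p) ((0, p - u1), 0) +
        fderiv ℝ G.Psi ((x, u), p) (0, p1) := by
    rw [← map_sub, ← map_add]; simp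
  unfold Glob.FP Glob.DU
  rw [e1, e3, e2, map_smul]
  module

/-- **the constraint is preserved** -/
theorem Glob.constraint (G : Glob E) {τ : ℝ} (hτ : 0 < τ) {U P : ℝ → ℝ → E} (sU : SmR 0 τ U)
    (sP : SmR 0 τ P)
    (eU : ∀ t ∈ Icc 0 τ, ∀ x ∈ Icc (0 : ℝ) 1, HasDerivWithinAt (fun s => U s x)
      (G.FU x (U t x) (P t x) (jet 1 (U t) x) (jet 2 (U t) x)) (Icc 0 τ) t)
    (eP : ∀ t ∈ Icc 0 τ, ∀ x ∈ Icc (0 : ℝ) 1, HasDerivWithinAt (fun s => P s x)
      (G.FP x (U t x) (P t x) (jet 1 (P t) x) (jet 2 (P t) x)) (Icc 0 τ) t)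
    (h0 : ∀ x ∈ Icc (0 : ℝ) 1, P 0 x = jet 1 (U 0) x) :
    ∀ t ∈ Icc 0 τ, ∀ x ∈ Icc (0 : ℝ) 1, P t x = jet 1 (U t) x := by
  have c1 : ContinuousOn (fun p : ℝ × ℝ => ((p.2, U p.1 p.2) : ℝ × E)) (Icc 0 τ ×ˢ Icc 0 1) :=
    continuousOn_snd.prodMk sU.continuousOn
  have cU1 := (sU.jet1 hτ).continuousOn
  have ca := G.ha.continuous.comp_continuousOn c1
  have cD := (G.ha.continuous_fderiv (by simp)).comp_continuousOn c1
  obtain ⟨α0, hα0, hα⟩ := (isCompact_Icc.prod isCompact_Icc).exists_forall_le' ca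
    fun p _ => G.apos _
  obtain ⟨B, hB0, hB⟩ := SmR.bdd (t0 := 0) (t1 := τ)
    (g := fun t x => fderiv ℝ G.a (x, U t x) (1, jet 1 (U t) x))
    (cD.clm_apply (continuousOn_const.prodMk cU1))
  obtain ⟨N1, hN10, hN1⟩ := SmR.bdd (t0 := 0) (t1 := τ) (g := fun t x => fderiv ℝ G.a (x, U t x))
    (by exact cD)
  obtain ⟨N2, hN20, hN2⟩ := SmR.bdd (t0 := 0) (t1 := τ) (g := fun t x => jet 1 (P t) x)
    (sP.jet1 hτ).continuousOn
  obtain ⟨N3, hN30, hN3⟩ := SmR.bdd (t0 := 0) (t1 := τ) (g := fun t x => ((G.b : ℝ) + 1) *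
    ((1 - 2 * x) * fderiv ℝ G.a (x, U t x) (1, jet 1 (U t) x) - 2 * G.a (x, U t x)))
    (continuousOn_const.mul (((continuousOn_const.sub (continuousOn_const.mul continuousOn_snd)).mul
      (cD.clm_apply (continuousOn_const.prodMk cU1))).sub (continuousOn_const.mul ca)))
  obtain ⟨N4, hN40, hN4⟩ := SmR.bdd (t0 := 0) (t1 := τ)
    (g := fun t x => fderiv ℝ G.Psi ((x, U t x), P t x))
    (by exact (G.hPsi.continuous_fderiv (by simp)).comp_continuousOn (c1.prodMk sP.continuousOn))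
  have key := par_max (δ := fun t x => P t x - jet 1 (U t) x)
    (δ1 := fun t x => jet 1 (P t) x - jet 2 (U t) x)
    (δ2 := fun t x => jet 2 (P t) x - jet 3 (U t) x) (B := B) (Γ := N1 * N2 + N3 + N4) (M := 0)
    (sP.continuousOn.sub cU1)
    (fun t ht x hx => (eP t ht x hx).fun_sub
      (sU.mixed hτ eU ht hx (G.hd_FU (sU.slice ht) (sP.slice ht) hx)))
    (fun t ht x hx => (jet_hd0 (sP.slice ht) hx).fun_sub (jet_hd (sU.slice ht) 1 hx))
    (fun t ht x hx => (jet_hd (sP.slice ht) 1 hx).fun_sub (jet_hd (sU.slice ht) 2 hx)) hα0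
    (fun t ht x hx => ?_) (fun x hx => by rw [h0 x hx, sub_self, norm_zero])
  · intro t ht x hx
    have := key t ht x hx
    rwa [zero_mul, norm_le_zero_iff, sub_eq_zero] at this
  have hb0 : (0 : ℝ) ≤ G.b := Nat.cast_nonneg _
  refine ⟨G.a (x, U t x), ((G.b : ℝ) + 2) * (1 - 2 * x), hα (t, x) ⟨ht, hx⟩,
    fun h => by rw [h]; linarith, fun h => by rw [h]; linarith, ?_⟩
  rw [G.rem]
  have hm := mu_nonneg hx
  have hm1 : mu x ≤ 1 / 4 := mu_le
  have hd := norm_nonneg (P t x - jet 1 (U t) x)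
  refine (norm_add_le _ _).trans (add_le_add ?_ (norm_add₃_le.trans ?_))
  · rw [norm_smul, norm_smul, Real.norm_of_nonneg hm]
    exact mul_le_mul_of_nonneg_right (hB t ht x hx) (by positivity)
  · rw [add_mul (N1 * N2 + N3), add_mul (N1 * N2)]
    refine add_le_add (add_le_add ?_ ?_) ?_
    · rw [norm_smul, norm_mul, Real.norm_of_nonneg hm]
      have h1 : ‖fderiv ℝ G.a (x, U t x) (0, P t x - jet 1 (U t) x)‖ ≤
          N1 * ‖P t x - jet 1 (U t) x‖ := by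
        simpa [Prod.norm_def] using (fderiv ℝ G.a (x, U t x)).le_of_opNorm_le (hN1 t ht x hx)
          (0, P t x - jet 1 (U t) x)
      calc _ ≤ 1 * (N1 * ‖P t x - jet 1 (U t) x‖) * N2 :=
            mul_le_mul (mul_le_mul (by linarith) h1 (norm_nonneg _) zero_le_one) (hN2 t ht x hx)
              (norm_nonneg _) (by positivity)
        _ = _ := by ring
    · rw [norm_smul]
      exact mul_le_mul_of_nonneg_right (hN3 t ht x hx) hd
    · simpa [Prod.norm_def] using (fderiv ℝ G.Psi ((x, U t x), P t x)).le_of_opNorm_le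
        (hN4 t ht x hx) ((0, P t x - jet 1 (U t) x), 0)

end Crest.Agent.N207.S.Ex
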