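import Crest.Agent.N207.S.Ex.Pro1
import Crest.Agent.N207.S.Ex.Asm2
import Crest.Agent.N207.S.Gc1

/-!
Row 207, S0320, block EX (helper49): `CoreStmt → LocStmt → FlowStmt`.
-/

set_option autoImplicit false

open Set Filter
open scoped Topology ContDiff

noncomputable section
namespace Crest.Agent.N207.S.Ex

/-- a space of pairs -/
structure Pair (E F : Type) [NormedAddCommGroup E] [NormedSpace ℝ E] [NormedAddCommGroup F]
    [NormedSpace ℝ F] where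
  π1 : F →L[ℝ] E
  π2 : F →L[ℝ] E
  ι1 : E →L[ℝ] F
  ι2 : E →L[ℝ] F
  h11 : ∀ u, π1 (ι1 u) = u
  h12 : ∀ u, π1 (ι2 u) = 0
  h21 : ∀ u, π2 (ι1 u) = 0
  h22 : ∀ u, π2 (ι2 u) = u
  n1 : ∀ w, ‖π1 w‖ ≤ ‖w‖
  m1 : ∀ u, ‖ι1 u‖ ≤ ‖u‖
  m2 : ∀ u, ‖ι2 u‖ ≤ ‖u‖

variable {E : Type} [NormedAddCommGroup E] [InnerProductSpace ℝ E]

/-- the Euclidean pair space -/
def pair2 (E : Type) [NormedAddCommGroup E] [InnerProductSpace ℝ E] :
    Pair E (WithLp 2 (E × E)) where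
  π1 := WithLp.fstL 2 ℝ E E
  π2 := WithLp.sndL 2 ℝ E E
  ι1 := (WithLp.prodContinuousLinearEquiv 2 ℝ E E).symm.toContinuousLinearMap.comp (.inl ℝ E E)
  ι2 := (WithLp.prodContinuousLinearEquiv 2 ℝ E E).symm.toContinuousLinearMap.comp (.inr ℝ E E)
  h11 _ := rfl
  h12 _ := rfl
  h21 _ := rfl
  h22 _ := rfl
  n1 w := WithLp.norm_fst_le _ w
  m1 u := (WithLp.norm_toLp_fst 2 E E u).le
  m2 u := (WithLp.norm_toLp_snd 2 E E u).le

variable {F : Type} [NormedAddCommGroup F] [InnerProductSpace ℝ F]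

/-- the prolonged system -/
def Glob.core (G : Glob E) (Q : Pair E F) : Core F where
  b := G.b + 1
  hb := Nat.le_add_left 1 _
  a y := G.a (y.1, Q.π1 y.2)
  B y := Q.ι2.comp ((fderiv ℝ G.a (y.1, Q.π1 y.2) (1, Q.π2 y.2) • ContinuousLinearMap.id ℝ E +
    G.β ((y.1, Q.π1 y.2), Q.π2 y.2)).comp Q.π2)
  G y := Q.ι1 (G.Psi ((y.1, Q.π1 y.2), Q.π2 y.2) -
      (G.a (y.1, Q.π1 y.2) * ((G.b : ℝ) + 1) * (1 - 2 * y.1)) • Q.π2 y.2) +
    Q.ι2 (fderiv ℝ G.Psi ((y.1, Q.π1 y.2), Q.π2 y.2) ((1, Q.π2 y.2), 0))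
  ha := G.ha.comp (by fun_prop)
  hB := by
    have h1 : ContDiff ℝ ∞ fun y : ℝ × F => fderiv ℝ G.a (y.1, Q.π1 y.2) :=
      (G.ha.fderiv_right (m := ∞) (by simp)).comp (by fun_prop)
    have h2 : ContDiff ℝ ∞ fun y : ℝ × F => G.β ((y.1, Q.π1 y.2), Q.π2 y.2) :=
      G.hβ.comp (by fun_prop)
    exact contDiff_const.clm_comp ((((h1.clm_apply (by fun_prop)).smul contDiff_const).add
      h2).clm_comp contDiff_const)
  hG := by
    have h1 : ContDiff ℝ ∞ fun y : ℝ × F => G.a (y.1, Q.π1 y.2) := G.ha.comp (by fun_prop)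
    have h2 : ContDiff ℝ ∞ fun y : ℝ × F => G.Psi ((y.1, Q.π1 y.2), Q.π2 y.2) :=
      G.hPsi.comp (by fun_prop)
    have h3 : ContDiff ℝ ∞ fun y : ℝ × F => fderiv ℝ G.Psi ((y.1, Q.π1 y.2), Q.π2 y.2) :=
      (G.hPsi.fderiv_right (m := ∞) (by simp)).comp (by fun_prop)
    exact (Q.ι1.contDiff.comp (h2.sub (((h1.mul contDiff_const).mul (by fun_prop)).smul
      (by fun_prop)))).add (Q.ι2.contDiff.comp (h3.clm_apply (by fun_prop)))
  apos _ := G.apos _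

theorem Glob.core1 (G : Glob E) (Q : Pair E F) (x : ℝ) (w d1 d2 : F) :
    Q.π1 ((G.core Q).F (x, w) d1 d2) = G.FU x (Q.π1 w) (Q.π2 w) (Q.π1 d1) (Q.π1 d2) := by
  simp only [Core.F, Glob.core, Glob.FU, map_add, map_smul, ContinuousLinearMap.comp_apply, Q.h11,
    Q.h12, add_zero, smul_zero, Nat.cast_add, Nat.cast_one]

theorem Glob.core2 (G : Glob E) (Q : Pair E F) (x : ℝ) (w d1 d2 : F) :
    Q.π2 ((G.core Q).F (x, w) d1 d2) = G.FP x (Q.π1 w) (Q.π2 w) (Q.π2 d1) (Q.π2 d2) := by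
  simp only [Core.F, Glob.core, Glob.FP, map_add, map_smul, ContinuousLinearMap.comp_apply, Q.h21,
    Q.h22, zero_add, Nat.cast_add, Nat.cast_one, add_apply, smul_apply,
    ContinuousLinearMap.id_apply]
  module

theorem jet_add {V : Type*} [NormedAddCommGroup V] [NormedSpace ℝ V] {f g : ℝ → V}
    (hf : ContDiffOn ℝ ∞ f (Icc 0 1)) (hg : ContDiffOn ℝ ∞ g (Icc 0 1))
    (j : ℕ) {x : ℝ} (hx : x ∈ Icc (0 : ℝ) 1) :
    jet j (fun y => f y + g y) x = jet j f x + jet j g x :=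
  iteratedDerivWithin_add hx ud01 ((hf x hx).of_le (by exact_mod_cast le_top))
    ((hg x hx).of_le (by exact_mod_cast le_top))

theorem loc_of_core (hc : CoreStmt) : LocStmt := by
  intro E _ _ _ S K hK hKO C
  have : CompleteSpace E := FiniteDimensional.complete ℝ E
  obtain ⟨η, hη, hηO⟩ := hK.exists_cthickening_subset_open S.isOpen hKO
  obtain ⟨G, -, hG⟩ := ex_glob S Metric.isClosed_cthickening hηO
  set Q := pair2 E
  obtain ⟨τ, hτ, H⟩ := hc _ (G.core Q) (C + C) η hη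
  refine ⟨τ, hτ, _, hK.cthickening, hηO, fun c => ?_⟩
  obtain ⟨c', H⟩ := H fun j => 2 * ∑ i ∈ Finset.range (j + 2), |c i|
  refine ⟨c', fun u0 hu hb => ?_⟩
  obtain ⟨g, hg, eg⟩ := Gc.ext_univ (f := fun p : ℝ × ℝ => u0 p.2)
    (hu.comp contDiffOn_snd fun p hp => hp.2)
  set v : ℝ → E := fun x => g (0, x) with hv
  have sv : ContDiff ℝ ∞ v := hg.comp (by fun_prop)
  have ev : ∀ x ∈ Icc (0 : ℝ) 1, v x = u0 x := fun x hx => eg (0, x) hx
  have sv' := contDiff_deriv sv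
  have sW : ContDiff ℝ ∞ fun x => Q.ι1 (v x) + Q.ι2 (deriv v x) :=
    (Q.ι1.contDiff.comp sv).add (Q.ι2.contDiff.comp sv')
  have bW : ∀ i, ∀ x ∈ Icc (0 : ℝ) 1, ‖iteratedDeriv i (fun x => Q.ι1 (v x) + Q.ι2 (deriv v x)) x‖ ≤
      ‖jet i u0 x‖ + ‖jet (i + 1) u0 x‖ := by
    intro i x hx
    rw [← jet_global sW i hx, jet_add (f := fun x => Q.ι1 (v x))
      (g := fun x => Q.ι2 (deriv v x)) (Q.ι1.contDiff.comp sv).contDiffOn
      (Q.ι2.contDiff.comp sv').contDiffOn i hx, jet_clm _ sv.contDiffOn i hx,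
      jet_clm _ sv'.contDiffOn i hx, jet_global sv' i hx, ← iteratedDeriv_succ',
      ← jet_global sv _ hx, jet_congr ev _ hx, jet_congr ev _ hx]
    exact (norm_add_le _ _).trans (add_le_add (Q.m1 _) (Q.m2 _))
  obtain ⟨W, hW, h0, hB⟩ := H _ sW
    (fun i hi x hx => (bW i x hx).trans
      (add_le_add ((hb x hx).2.1 i (by omega)) ((hb x hx).2.1 (i + 1) (by omega))))
    (fun j i hi x hx => (bW i x hx).trans (by
      have h1 : ∀ k < j + 2, ‖jet k u0 x‖ ≤ ∑ i ∈ Finset.range (j + 2), |c i| := fun k hk =>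
        (((hb x hx).2.2 k).trans (le_abs_self _)).trans
          (Finset.single_le_sum (f := fun i => |c i|) (fun _ _ => abs_nonneg _)
            (Finset.mem_range.2 hk))
      linarith [h1 i (by omega), h1 (i + 1) (by omega)]))
  have sU : SmR 0 τ fun t x => Q.π1 (W t x) := Q.π1.contDiff.comp_contDiffOn hW.smooth
  have sP : SmR 0 τ fun t x => Q.π2 (W t x) := Q.π2.contDiff.comp_contDiffOn hW.smooth
  have j1 : ∀ j, ∀ t ∈ Icc 0 τ, ∀ x ∈ Icc (0 : ℝ) 1,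
      jet j (fun x => Q.π1 (W t x)) x = Q.π1 (jet j (W t) x) := fun j t ht x hx =>
    jet_clm _ (SmR.slice hW.smooth ht) j hx
  have j2 : ∀ j, ∀ t ∈ Icc 0 τ, ∀ x ∈ Icc (0 : ℝ) 1,
      jet j (fun x => Q.π2 (W t x)) x = Q.π2 (jet j (W t) x) := fun j t ht x hx =>
    jet_clm _ (SmR.slice hW.smooth ht) j hx
  have i1 : ∀ x ∈ Icc (0 : ℝ) 1, Q.π1 (W 0 x) = v x := fun x hx => by
    rw [h0 x hx, map_add, Q.h11, Q.h12, add_zero]
  have eU : ∀ t ∈ Icc 0 τ, ∀ x ∈ Icc (0 : ℝ) 1, HasDerivWithinAt (fun s => Q.π1 (W s x))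
      (G.FU x (Q.π1 (W t x)) (Q.π2 (W t x)) (jet 1 (fun x => Q.π1 (W t x)) x)
        (jet 2 (fun x => Q.π1 (W t x)) x)) (Icc 0 τ) t := fun t ht x hx => by
    rw [j1 1 t ht x hx, j1 2 t ht x hx, ← G.core1]
    exact Q.π1.hasFDerivAt.comp_hasDerivWithinAt t (hW.eqn t ht x hx)
  have con := G.constraint hτ sU sP eU
    (fun t ht x hx => by
      rw [j2 1 t ht x hx, j2 2 t ht x hx, ← G.core2]
      exact Q.π2.hasFDerivAt.comp_hasDerivWithinAt t (hW.eqn t ht x hx))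
    (fun x hx => by
      rw [jet_congr i1 1 hx, jet_global sv 1 hx, h0 x hx, map_add, Q.h21, Q.h22, zero_add,
        iteratedDeriv_one])
  have mem : ∀ t ∈ Icc 0 τ, ∀ x ∈ Icc (0 : ℝ) 1, (x, Q.π1 (W t x)) ∈ Metric.cthickening η K := by
    intro t ht x hx
    refine Metric.mem_cthickening_of_dist_le _ _ _ _ (hb x hx).1 ?_
    rw [Prod.dist_eq, dist_self, dist_eq_norm, ← ev x hx, ← i1 x hx, ← map_sub, h0 x hx]
    exact max_le hη.le ((Q.n1 _).trans (hB t ht x hx).1)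
  refine ⟨fun t x => Q.π1 (W t x), ⟨⟨sU, fun t ht x hx => ?_⟩, fun t ht x hx => hηO (mem t ht x hx)⟩,
    fun x hx => (i1 x hx).trans (ev x hx), fun t ht x hx => ⟨mem t ht x hx, fun j => ?_⟩⟩
  · refine HasDerivWithinAt.congr_deriv (eU t ht x hx) ?_
    have h1 : Q.π2 (W t x) = _ := con t ht x hx
    rw [h1, Glob.FU, Sys.F, ← (hG _ (mem t ht x hx)).1, ← (hG _ (mem t ht x hx)).2]
    module
  · rw [j1 j t ht x hx]
    exact (Q.n1 _).trans ((hB t ht x hx).2 j)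

/-- **block EX from the core statement** -/
theorem flow_of_core (hc : CoreStmt) : FlowStmt := flow_of_loc (loc_of_core hc)

end Crest.Agent.N207.S.Ex
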