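import Crest.Agent.N207.S.Ex.MaxP
import Crest.Agent.N207.S.Ex.LDefs

/-!
Row 207, S0320, block EX (helper49): vector valued jets on a rectangle, elementary operations on
solutions and the parabolic maximum principle.
-/

set_option autoImplicit false

open Set Filter
open scoped Topology ContDiff RealInnerProductSpace

noncomputable section
namespace Crest.Agent.N207.S.Ex

section Jets
variable {E : Type*} [NormedAddCommGroup E] [NormedSpace ℝ E]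

theorem ud01 : UniqueDiffOn ℝ (Icc (0 : ℝ) 1) := uniqueDiffOn_Icc zero_lt_one

theorem jet_hd {f : ℝ → E} (hf : ContDiffOn ℝ ∞ f (Icc 0 1)) (j : ℕ) {x : ℝ}
    (hx : x ∈ Icc (0 : ℝ) 1) : HasDerivWithinAt (jet j f) (jet (j + 1) f x) (Icc 0 1) x := by
  have h := (hf.differentiableOn_iteratedDerivWithin (m := j)
    (by exact_mod_cast ENat.natCast_lt_top j) ud01 x hx).hasDerivWithinAt
  rw [jet, iteratedDerivWithin_succ]
  exact h

theorem jet_hd0 {f : ℝ → E} (hf : ContDiffOn ℝ ∞ f (Icc 0 1)) {x : ℝ}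
    (hx : x ∈ Icc (0 : ℝ) 1) : HasDerivWithinAt f (jet 1 f x) (Icc 0 1) x := jet_hd hf 0 hx

theorem jet_congr {f g : ℝ → E} (h : ∀ x ∈ Icc (0 : ℝ) 1, f x = g x) (j : ℕ) {x : ℝ}
    (hx : x ∈ Icc (0 : ℝ) 1) : jet j f x = jet j g x := iteratedDerivWithin_congr h hx

theorem jet_sub {f g : ℝ → E} (hf : ContDiffOn ℝ ∞ f (Icc 0 1)) (hg : ContDiffOn ℝ ∞ g (Icc 0 1))
    (j : ℕ) {x : ℝ} (hx : x ∈ Icc (0 : ℝ) 1) :
    jet j (fun y => f y - g y) x = jet j f x - jet j g x :=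
  iteratedDerivWithin_sub hx ud01 ((hf x hx).of_le (by exact_mod_cast le_top))
    ((hg x hx).of_le (by exact_mod_cast le_top))

theorem jet_clm {F : Type*} [NormedAddCommGroup F] [NormedSpace ℝ F] (L : E →L[ℝ] F) {f : ℝ → E}
    (hf : ContDiffOn ℝ ∞ f (Icc 0 1)) (j : ℕ) {x : ℝ} (hx : x ∈ Icc (0 : ℝ) 1) :
    jet j (fun y => L (f y)) x = L (jet j f x) := by
  have h := L.iteratedFDerivWithin_comp_left
    ((hf x hx).of_le (m := j) (by exact_mod_cast le_top)) ud01 hx le_rfl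
  exact congrArg (fun L => L fun _ => (1 : ℝ)) h

theorem jet_global {f : ℝ → E} (hf : ContDiff ℝ ∞ f) (j : ℕ) {x : ℝ} (hx : x ∈ Icc (0 : ℝ) 1) :
    jet j f x = iteratedDeriv j f x :=
  iteratedDerivWithin_eq_iteratedDeriv ud01 (hf.contDiffAt.of_le (by exact_mod_cast le_top)) hx

/-- smoothness on the closed rectangle -/
abbrev SmR (t0 t1 : ℝ) (U : ℝ → ℝ → E) : Prop :=
  ContDiffOn ℝ ∞ (fun p : ℝ × ℝ => U p.1 p.2) (Icc t0 t1 ×ˢ Icc 0 1)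

variable {t0 t1 : ℝ} {U V : ℝ → ℝ → E}

theorem SmR.slice (hU : SmR t0 t1 U) {t : ℝ} (ht : t ∈ Icc t0 t1) :
    ContDiffOn ℝ ∞ (U t) (Icc 0 1) :=
  ContDiffOn.comp (f := fun y : ℝ => ((t, y) : ℝ × ℝ)) hU (by fun_prop) fun _ hy => ⟨ht, hy⟩

theorem ud_rect (h : t0 < t1) : UniqueDiffOn ℝ (Icc t0 t1 ×ˢ Icc (0 : ℝ) 1) :=
  (uniqueDiffOn_Icc h).prod ud01

theorem SmR.hd_x (hU : SmR t0 t1 U) {t x : ℝ} (ht : t ∈ Icc t0 t1) (hx : x ∈ Icc (0 : ℝ) 1) :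
    HasDerivWithinAt (U t) (fderivWithin ℝ (fun p : ℝ × ℝ => U p.1 p.2)
      (Icc t0 t1 ×ˢ Icc 0 1) (t, x) (0, 1)) (Icc 0 1) x :=
  (hU.differentiableOn (by simp) (t, x) ⟨ht, hx⟩).hasFDerivWithinAt.comp_hasDerivWithinAt
    (f := fun y : ℝ => ((t, y) : ℝ × ℝ)) x
    ((hasDerivAt_const x t).prodMk (hasDerivAt_id x)).hasDerivWithinAt fun _ hy => ⟨ht, hy⟩

theorem SmR.hd_t (hU : SmR t0 t1 U) {t x : ℝ} (ht : t ∈ Icc t0 t1) (hx : x ∈ Icc (0 : ℝ) 1) :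
    HasDerivWithinAt (fun s => U s x) (fderivWithin ℝ (fun p : ℝ × ℝ => U p.1 p.2)
      (Icc t0 t1 ×ˢ Icc 0 1) (t, x) (1, 0)) (Icc t0 t1) t :=
  (hU.differentiableOn (by simp) (t, x) ⟨ht, hx⟩).hasFDerivWithinAt.comp_hasDerivWithinAt
    (f := fun s : ℝ => ((s, x) : ℝ × ℝ)) t
    ((hasDerivAt_id t).prodMk (hasDerivAt_const t x)).hasDerivWithinAt fun _ hy => ⟨hy, hx⟩

theorem SmR.jet1_eq (hU : SmR t0 t1 U) {t x : ℝ} (ht : t ∈ Icc t0 t1) (hx : x ∈ Icc (0 : ℝ) 1) :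
    jet 1 (U t) x = fderivWithin ℝ (fun p : ℝ × ℝ => U p.1 p.2)
      (Icc t0 t1 ×ˢ Icc 0 1) (t, x) (0, 1) :=
  (ud01 x hx).eq_deriv _ (jet_hd0 (hU.slice ht) hx) (hU.hd_x ht hx)

theorem SmR.jet1 (h : t0 < t1) (hU : SmR t0 t1 U) : SmR t0 t1 fun t x => jet 1 (U t) x :=
  ((hU.fderivWithin (ud_rect h) (m := ∞) le_rfl).clm_apply
    (g := fun _ => ((0, 1) : ℝ × ℝ)) contDiffOn_const).congr fun _ hp => hU.jet1_eq hp.1 hp.2

theorem jet_succ' (j : ℕ) (f : ℝ → E) (x : ℝ) : jet (j + 1) f x = jet j (jet 1 f) x := by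
  rw [jet, iteratedDerivWithin_succ', jet, ← iteratedDerivWithin_one]

theorem SmR.jet (h : t0 < t1) (j : ℕ) : ∀ {U : ℝ → ℝ → E}, SmR t0 t1 U →
    SmR t0 t1 fun t x => jet j (U t) x := by
  induction j with
  | zero => exact fun hU => hU
  | succ j ih => exact fun hU => (ih (hU.jet1 h)).congr fun p _ => jet_succ' j _ _

/-- the time derivative commutes with the space derivative -/
theorem SmR.mixed (h : t0 < t1) (hU : SmR t0 t1 U)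
    (hV : ∀ t ∈ Icc t0 t1, ∀ x ∈ Icc (0 : ℝ) 1,
      HasDerivWithinAt (fun s => U s x) (V t x) (Icc t0 t1) t) {t x : ℝ} (ht : t ∈ Icc t0 t1)
    (hx : x ∈ Icc (0 : ℝ) 1) {d : E} (hd : HasDerivWithinAt (V t) d (Icc 0 1) x) :
    HasDerivWithinAt (fun s => Ex.jet 1 (U s) x) d (Icc t0 t1) t := by
  have hR := ud_rect h
  set R := Icc t0 t1 ×ˢ Icc (0 : ℝ) 1 with hRdef
  set F := fun p : ℝ × ℝ => U p.1 p.2 with hF
  have h1 := ((hU.fderivWithin hR (m := ∞) le_rfl).differentiableOn (by simp) (t, x)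
    ⟨ht, hx⟩).hasFDerivWithinAt
  have h2 : (t, x) ∈ closure (interior R) := by
    rw [interior_prod_eq, closure_prod_eq, interior_Icc, interior_Icc, closure_Ioo h.ne,
      closure_Ioo zero_ne_one]
    exact ⟨ht, hx⟩
  have h3 := (hU (t, x) ⟨ht, hx⟩).isSymmSndFDerivWithinAt
    (by rw [minSmoothness_of_isRCLikeNormedField]; exact WithTop.coe_le_coe.2 le_top) hR h2 ⟨ht, hx⟩
  have a1 := (h1.comp_hasDerivWithinAt (f := fun s : ℝ => ((s, x) : ℝ × ℝ)) t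
    ((hasDerivAt_id t).prodMk (hasDerivAt_const t x)).hasDerivWithinAt
    (s := Icc t0 t1) fun _ hy => ⟨hy, hx⟩).clm_apply
    (hasDerivWithinAt_const t _ ((0, 1) : ℝ × ℝ))
  have a2 := (h1.comp_hasDerivWithinAt (f := fun y : ℝ => ((t, y) : ℝ × ℝ)) x
    ((hasDerivAt_const x t).prodMk (hasDerivAt_id x)).hasDerivWithinAt
    (s := Icc 0 1) fun _ hy => ⟨ht, hy⟩).clm_apply
    (hasDerivWithinAt_const x _ ((1, 0) : ℝ × ℝ))
  have e : ∀ y ∈ Icc (0 : ℝ) 1, V t y = fderivWithin ℝ F R (t, y) (1, 0) := fun y hy =>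
    (uniqueDiffOn_Icc h t ht).eq_deriv _ (hV t ht y hy) (hU.hd_t ht hy)
  have e2 := (ud01 x hx).eq_deriv _ hd (a2.congr e (e x hx))
  refine HasDerivWithinAt.congr_deriv
    (a1.congr (fun s hs => hU.jet1_eq hs hx) (hU.jet1_eq ht hx)) ?_
  rw [e2]
  simp only [map_zero, add_zero]
  exact h3.eq _ _

theorem SmR.bdd {F : Type*} [NormedAddCommGroup F] {g : ℝ → ℝ → F}
    (h : ContinuousOn (fun p : ℝ × ℝ => g p.1 p.2) (Icc t0 t1 ×ˢ Icc 0 1)) :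
    ∃ C, 0 ≤ C ∧ ∀ t ∈ Icc t0 t1, ∀ x ∈ Icc (0 : ℝ) 1, ‖g t x‖ ≤ C := by
  obtain ⟨C, hC⟩ := (isCompact_Icc.prod isCompact_Icc).exists_bound_of_continuousOn h
  exact ⟨max C 0, le_max_right _ _, fun t ht x hx => (hC (t, x) ⟨ht, hx⟩).trans (le_max_left _ _)⟩

end Jets

section Ops
variable {E : Type} [NormedAddCommGroup E] [NormedSpace ℝ E] {S : Sys E} {t0 t1 s0 s1 : ℝ}
  {U V : ℝ → ℝ → E}

theorem IsSol.mono (h : IsSol S t0 t1 U) (h0 : t0 ≤ s0) (h1 : s1 ≤ t1) : IsSol S s0 s1 U where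
  smooth := h.smooth.mono (prod_mono (Icc_subset_Icc h0 h1) subset_rfl)
  eqn t ht x hx := (h.eqn t (Icc_subset_Icc h0 h1 ht) x hx).mono (Icc_subset_Icc h0 h1)
  mem t ht x hx := h.mem t (Icc_subset_Icc h0 h1 ht) x hx

theorem IsSol.congr (h : IsSol S t0 t1 U)
    (e : ∀ t ∈ Icc t0 t1, ∀ x ∈ Icc (0 : ℝ) 1, V t x = U t x) : IsSol S t0 t1 V where
  smooth := h.smooth.congr fun p hp => e p.1 hp.1 p.2 hp.2
  eqn t ht x hx := by
    rw [jet_congr (e t ht) 1 hx, jet_congr (e t ht) 2 hx, e t ht x hx]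
    exact (h.eqn t ht x hx).congr (fun s hs => e s hs x hx) (e t ht x hx)
  mem t ht x hx := by rw [e t ht x hx]; exact h.mem t ht x hx

theorem IsSol.shift (h : IsSol S 0 t1 U) (s : ℝ) : IsSol S s (s + t1) fun t => U (t - s) where
  smooth := h.smooth.comp (f := fun p : ℝ × ℝ => ((p.1 - s, p.2) : ℝ × ℝ)) (by fun_prop)
    fun p hp => ⟨⟨by linarith [hp.1.1], by linarith [hp.1.2]⟩, hp.2⟩
  eqn t ht x hx := by
    have h1 := (h.eqn (t - s) ⟨by linarith [ht.1], by linarith [ht.2]⟩ x hx).scomp t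
      ((hasDerivAt_id' t).sub_const s).hasDerivWithinAt (s := Icc s (s + t1))
      fun r hr => (⟨by linarith [hr.1], by linarith [hr.2]⟩ : r - s ∈ Icc 0 t1)
    rw [one_smul] at h1
    exact h1
  mem t ht x hx := h.mem (t - s) ⟨by linarith [ht.1], by linarith [ht.2]⟩ x hx

theorem IsSol.union (h : IsSol S t0 t1 U) (h' : IsSol S s0 s1 U) (hs : s0 < t1) :
    IsSol S t0 s1 U := by
  have key : ∀ t ∈ Icc t0 s1, (t ∈ Icc t0 t1 ∧ Icc t0 t1 ∈ 𝓝[Icc t0 s1] t) ∨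
      (t ∈ Icc s0 s1 ∧ Icc s0 s1 ∈ 𝓝[Icc t0 s1] t) := by
    intro t ht
    rcases lt_or_ge t t1 with h1 | h1
    · refine Or.inl ⟨⟨ht.1, h1.le⟩, ?_⟩
      filter_upwards [self_mem_nhdsWithin, mem_nhdsWithin_of_mem_nhds (Iio_mem_nhds h1)]
        with r h2 h3 using ⟨h2.1, le_of_lt h3⟩
    · refine Or.inr ⟨⟨(hs.trans_le h1).le, ht.2⟩, ?_⟩
      filter_upwards [self_mem_nhdsWithin,
        mem_nhdsWithin_of_mem_nhds (Ioi_mem_nhds (hs.trans_le h1))]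
        with r h2 h3 using ⟨le_of_lt h3, h2.2⟩
  refine ⟨⟨fun p hp => ?_, fun t ht x hx => ?_⟩, fun t ht x hx => ?_⟩
  · rcases key p.1 hp.1 with ⟨h1, h2⟩ | ⟨h1, h2⟩
    · refine (h.smooth p ⟨h1, hp.2⟩).mono_of_mem_nhdsWithin ?_
      rw [show p = (p.1, p.2) from rfl, nhdsWithin_prod_eq]
      exact prod_mem_prod h2 self_mem_nhdsWithin
    · refine (h'.smooth p ⟨h1, hp.2⟩).mono_of_mem_nhdsWithin ?_
      rw [show p = (p.1, p.2) from rfl, nhdsWithin_prod_eq]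
      exact prod_mem_prod h2 self_mem_nhdsWithin
  · rcases key t ht with ⟨h1, h2⟩ | ⟨h1, h2⟩
    · exact (h.eqn t h1 x hx).mono_of_mem_nhdsWithin h2
    · exact (h'.eqn t h1 x hx).mono_of_mem_nhdsWithin h2
  · rcases key t ht with ⟨h1, -⟩ | ⟨h1, -⟩
    · exact h.mem t h1 x hx
    · exact h'.mem t h1 x hx

end Ops

variable {E : Type*} [NormedAddCommGroup E] [InnerProductSpace ℝ E]

/-- **parabolic maximum principle** -/
theorem par_max {δ δt δ1 δ2 : ℝ → ℝ → E} {t0 t1 α0 B Γ M : ℝ}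
    (hc : ContinuousOn (fun p : ℝ × ℝ => δ p.1 p.2) (Icc t0 t1 ×ˢ Icc 0 1))
    (ht : ∀ t ∈ Icc t0 t1, ∀ x ∈ Icc (0 : ℝ) 1,
      HasDerivWithinAt (fun s => δ s x) (δt t x) (Icc t0 t1) t)
    (h1 : ∀ t ∈ Icc t0 t1, ∀ x ∈ Icc (0 : ℝ) 1, HasDerivWithinAt (δ t) (δ1 t x) (Icc 0 1) x)
    (h2 : ∀ t ∈ Icc t0 t1, ∀ x ∈ Icc (0 : ℝ) 1, HasDerivWithinAt (δ1 t) (δ2 t x) (Icc 0 1) x)
    (hα0 : 0 < α0)
    (heq : ∀ t ∈ Icc t0 t1, ∀ x ∈ Icc (0 : ℝ) 1, ∃ α κ : ℝ, α0 ≤ α ∧ (x = 0 → 0 ≤ κ) ∧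
      (x = 1 → κ ≤ 0) ∧ ‖δt t x - α • (mu x • δ2 t x + κ • δ1 t x)‖ ≤
        B * (mu x * ‖δ1 t x‖) + Γ * ‖δ t x‖)
    (h0 : ∀ x ∈ Icc (0 : ℝ) 1, ‖δ t0 x‖ ≤ M) :
    ∀ t ∈ Icc t0 t1, ∀ x ∈ Icc (0 : ℝ) 1,
      ‖δ t x‖ ≤ M * Real.exp ((B ^ 2 / (16 * α0) + Γ + 1) * (t - t0)) := by
  have hM : 0 ≤ M := (norm_nonneg _).trans (h0 0 ⟨le_rfl, zero_le_one⟩)
  set L := B ^ 2 / (16 * α0) + Γ + 1 with hL
  have key : ∀ ε > 0, ∀ t ∈ Icc t0 t1, ∀ x ∈ Icc (0 : ℝ) 1,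
      ‖δ t x‖ ≤ (M + ε) * Real.exp (L * (t - t0)) := by
    intro ε hε t ht' x hx
    have hR : MP.Reg (fun _ => 0) (fun _ => 1) t0 t1 = Icc t0 t1 ×ˢ Icc 0 1 := by
      ext p; simp only [MP.Reg, mem_ofPred_eq, mem_prod, mem_Icc, and_assoc]
    have hneg := MP.neg_of_no_touch (ι := Unit) (l := fun _ => 0) (r := fun _ => 1)
      continuousOn_const continuousOn_const
      (fun _ t x => ⟪δ t x, δ t x⟫ - ((M + ε) * Real.exp (L * (t - t0))) ^ 2)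
      (fun _ => by rw [hR]; exact (hc.inner hc).sub (by fun_prop))
      (fun _ x a b => by
        have := h0 x ⟨a, b⟩
        rw [real_inner_self_eq_norm_sq, sub_self, mul_zero, Real.exp_zero, mul_one]
        nlinarith [norm_nonneg (δ t0 x)])
      (fun _ t x a1 a2 a3 a4 hz hp => ?_) (fun _ _ _ => one_pos) () t x ht'.1 ht'.2 hx.1 hx.2
    · rw [real_inner_self_eq_norm_sq, sub_neg] at hneg
      exact (abs_lt_of_sq_lt_sq' hneg (by positivity)).2.le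
    have htm : t ∈ Icc t0 t1 := ⟨a1.le, a2⟩
    have hxm : x ∈ Icc (0 : ℝ) 1 := ⟨a3, a4⟩
    obtain ⟨α, κ, b1, b2, b3, b4⟩ := heq t htm x hxm
    set G := (M + ε) * Real.exp (L * (t - t0)) with hG
    have hG0 : 0 < G := by positivity
    have hz' : ‖δ t x‖ ^ 2 = G ^ 2 := by rw [← real_inner_self_eq_norm_sq]; linarith
    have hmax : ∀ y ∈ Icc (0 : ℝ) 1, ‖δ t y‖ ≤ ‖δ t x‖ := fun y hy => by
      have := hp () t y a1.le le_rfl hy.1 hy.2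
      rw [real_inner_self_eq_norm_sq] at this
      exact abs_le_of_sq_le_sq' (by linarith) (norm_nonneg _) |>.2
    have k1 := max_inner hxm (h1 t htm) (h2 t htm x hxm) hmax b2 b3
    have hd : HasDerivWithinAt
        (fun s => ⟪δ s x, δ s x⟫ - ((M + ε) * Real.exp (L * (s - t0))) ^ 2)
        (2 * ⟪δ t x, δt t x⟫ - 2 * L * G ^ 2) (Iic t) t := by
      have c1 := ((ht t htm x hxm).inner ℝ (ht t htm x hxm)).fun_sub
        ((((((hasDerivAt_id' t).sub_const t0).const_mul L).exp.const_mul (M + ε)).fun_pow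
          2).hasDerivWithinAt)
      refine HasDerivWithinAt.congr_deriv (c1.mono_of_mem_nhdsWithin ?_) ?_
      · filter_upwards [self_mem_nhdsWithin, mem_nhdsWithin_of_mem_nhds (Ioi_mem_nhds a1)]
          with r c2 c3 using ⟨le_of_lt c3, le_trans c2 a2⟩
      · rw [real_inner_comm (δ t x) (δt t x), hG]; norm_num; ring
    have k2 := MP.deriv_nonneg_of_past a1 hd hz fun s c1 c2 => hp () s x c1.le c2.le a3 a4
    have k3 : ⟪δ t x, δt t x⟫ ≤ α * ⟪δ t x, mu x • δ2 t x + κ • δ1 t x⟫ +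
        ‖δ t x‖ * (B * (mu x * ‖δ1 t x‖) + Γ * ‖δ t x‖) := by
      have c1 := (real_inner_le_norm (δ t x) _).trans
        (mul_le_mul_of_nonneg_left b4 (norm_nonneg _))
      rw [inner_sub_right, inner_smul_right] at c1
      linarith
    have hm0 := mu_nonneg hxm
    have hm1 : mu x ≤ 1 / 4 := mu_le
    have k4 : α * ⟪δ t x, mu x • δ2 t x + κ • δ1 t x⟫ ≤ -(α0 * (mu x * ‖δ1 t x‖ ^ 2)) := by
      have : 0 ≤ mu x * ‖δ1 t x‖ ^ 2 := by positivity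
      nlinarith
    have k5 : ‖δ t x‖ * B * ‖δ1 t x‖ ≤ α0 * ‖δ1 t x‖ ^ 2 + B ^ 2 / (4 * α0) * ‖δ t x‖ ^ 2 := by
      have : α0 * ‖δ1 t x‖ ^ 2 + B ^ 2 / (4 * α0) * ‖δ t x‖ ^ 2 - ‖δ t x‖ * B * ‖δ1 t x‖ =
          (2 * α0 * ‖δ1 t x‖ - B * ‖δ t x‖) ^ 2 / (4 * α0) := by field_simp; ring
      have h3 : 0 ≤ (2 * α0 * ‖δ1 t x‖ - B * ‖δ t x‖) ^ 2 / (4 * α0) := by positivity
      linarith
    have k6 : mu x * (B ^ 2 / (4 * α0) * ‖δ t x‖ ^ 2) ≤ B ^ 2 / (16 * α0) * ‖δ t x‖ ^ 2 := by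
      rw [show B ^ 2 / (16 * α0) * ‖δ t x‖ ^ 2 = 1 / 4 * (B ^ 2 / (4 * α0) * ‖δ t x‖ ^ 2) by
        field_simp; ring]
      exact mul_le_mul_of_nonneg_right hm1 (by positivity)
    have k7 := mul_le_mul_of_nonneg_left k5 hm0
    have k8 : 0 < G ^ 2 := by positivity
    rw [← hz'] at k2 k8
    rw [hL] at k2
    nlinarith
  intro t ht' x hx
  refine le_of_forall_pos_le_add fun ε hε => ?_
  have hE := Real.exp_pos (L * (t - t0))
  have := key (ε / Real.exp (L * (t - t0))) (by positivity) t ht' x hx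
  rwa [add_mul, div_mul_cancel₀ _ hE.ne'] at this

end Crest.Agent.N207.S.Ex
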