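import Crest.Agent.N207.S.Ex.Stab
import Crest.Agent.N250.Or.Had

/-!
Row 207, S0320, block EX (helper49): globalisation of a system, stability and uniqueness.
-/

set_option autoImplicit false

open Set Filter
open scoped Topology ContDiff Manifold

noncomputable section
namespace Crest.Agent.N207.S.Ex

/-- a globally defined system in normal form -/
structure Glob (E : Type) [NormedAddCommGroup E] [NormedSpace ℝ E] where
  b : ℕ
  a : ℝ × E → ℝ
  Psi : (ℝ × E) × E → E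
  β : (ℝ × E) × E → E →L[ℝ] E
  ha : ContDiff ℝ ∞ a
  hPsi : ContDiff ℝ ∞ Psi
  hβ : ContDiff ℝ ∞ β
  apos : ∀ y, 0 < a y
  dP : ∀ q : (ℝ × E) × E, (fderiv ℝ Psi q).comp (ContinuousLinearMap.inr ℝ (ℝ × E) E) =
    (a q.1 * b * (1 - 2 * q.1.1)) • ContinuousLinearMap.id ℝ E + mu q.1.1 • β q

theorem smooth_cut {X F : Type*} [NormedAddCommGroup X] [NormedSpace ℝ X] [NormedAddCommGroup F]
    [NormedSpace ℝ F] {O : Set X} (hO : IsOpen O) {f : X → F} (hf : ContDiffOn ℝ ∞ f O)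
    {χ : X → ℝ} (hχ : ContDiff ℝ ∞ χ) (h0 : ∀ y ∉ O, ∀ᶠ z in 𝓝 y, χ z = 0) :
    ContDiff ℝ ∞ fun y => χ y • f y := by
  rw [contDiff_iff_contDiffAt]
  intro y
  by_cases hy : y ∈ O
  · exact hχ.contDiffAt.smul (hf.contDiffAt (hO.mem_nhds hy))
  · refine (contDiffAt_const (c := 0)).congr_of_eventuallyEq ?_
    filter_upwards [h0 y hy] with z hz
    rw [hz, zero_smul]

variable {E : Type} [NormedAddCommGroup E] [InnerProductSpace ℝ E] [FiniteDimensional ℝ E]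

omit [FiniteDimensional ℝ E] in
theorem hasFDerivAt_inr {Ψ : (ℝ × E) × E → E} (h : ContDiff ℝ ∞ Ψ) (y : ℝ × E) (p : E) :
    HasFDerivAt (fun r => Ψ (y, r))
      ((fderiv ℝ Ψ (y, p)).comp (ContinuousLinearMap.inr ℝ (ℝ × E) E)) p :=
  HasFDerivAt.comp (f := fun r : E => (y, r)) p (h.differentiable (by simp) (y, p)).hasFDerivAt
    (hasFDerivAt_prodMk_right y p)

theorem ex_glob (S : Sys E) {K : Set (ℝ × E)} (hK : IsClosed K) (hKO : K ⊆ S.Om) :
    ∃ G : Glob E, G.b = S.b ∧ ∀ y ∈ K, G.a y = S.a y ∧ ∀ p, G.Psi (y, p) = S.Psi (y, p) := by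
  have : CompleteSpace E := FiniteDimensional.complete ℝ E
  obtain ⟨χ, h0, h1, h01⟩ := exists_contMDiffMap_zero_one_nhds_of_isClosed (n := ⊤) 𝓘(ℝ, ℝ × E)
    S.isOpen.isClosed_compl hK (disjoint_compl_left_iff_subset.2 hKO)
  have hχ : ContDiff ℝ ∞ χ := χ.contMDiff.contDiff
  have h0' : ∀ y ∉ S.Om, ∀ᶠ z in 𝓝 y, χ z = 0 := fun y hy =>
    (eventually_nhdsSet_iff_forall.1 h0) y hy
  set a : ℝ × E → ℝ := fun y => χ y • S.a y + (1 - χ y) with ha
  set Ψ : (ℝ × E) × E → E := fun q =>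
    χ q.1 • S.Psi q + ((1 - χ q.1) * S.b * (1 - 2 * q.1.1)) • q.2 with hΨ
  have sa : ContDiff ℝ ∞ a := (smooth_cut S.isOpen S.ha hχ h0').add (contDiff_const.sub hχ)
  have sΨ : ContDiff ℝ ∞ Ψ := by
    refine (smooth_cut (χ := fun q : (ℝ × E) × E => χ q.1) (S.isOpen.prod isOpen_univ) S.hPsi
      (hχ.comp contDiff_fst) fun q hq => ?_).add ?_
    · exact (continuous_fst.tendsto q).eventually (h0' q.1 fun h => hq ⟨h, trivial⟩)
    · exact (((contDiff_const.sub (hχ.comp contDiff_fst)).mul contDiff_const).mul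
        (by fun_prop)).smul contDiff_snd
  set R : (ℝ × E) × E → E →L[ℝ] E := fun q =>
    (fderiv ℝ Ψ q).comp (ContinuousLinearMap.inr ℝ (ℝ × E) E) -
      (a q.1 * S.b * (1 - 2 * q.1.1)) • ContinuousLinearMap.id ℝ E with hR
  have sR : ContDiff ℝ ∞ R :=
    ((sΨ.fderiv_right (m := ∞) (by simp)).clm_comp contDiff_const).sub
      ((((sa.comp contDiff_fst).mul contDiff_const).mul (by fun_prop)).smul contDiff_const)
  have hz : ∀ (x : ℝ) (u p : E), (∀ r, Ψ ((x, u), r) = Ψ ((x, u), 0) +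
      (a (x, u) * S.b * (1 - 2 * x)) • r) → R ((x, u), p) = 0 := by
    intro x u p h
    have h2 : HasFDerivAt (fun r : E => Ψ ((x, u), 0) + (a (x, u) * S.b * (1 - 2 * x)) • r)
        ((a (x, u) * S.b * (1 - 2 * x)) • ContinuousLinearMap.id ℝ E) p :=
      ((hasFDerivAt_id p).const_smul _).const_add _
    rw [← funext h] at h2
    exact sub_eq_zero.2 ((hasFDerivAt_inr sΨ (x, u) p).unique h2)
  have z0 : ∀ u p : E, R ((0, u), p) = 0 := fun u p => hz 0 u p fun r => by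
    by_cases h : ((0 : ℝ), u) ∈ S.Om
    · simp only [hΨ, ha, S.pole0 u r h, smul_eq_mul]
      module
    · simp only [hΨ, ha, (h0' _ h).self_of_nhds, smul_eq_mul]
      module
  have z1 : ∀ u p : E, R ((1, u), p) = 0 := fun u p => hz 1 u p fun r => by
    by_cases h : ((1 : ℝ), u) ∈ S.Om
    · simp only [hΨ, ha, S.pole1 u r h, smul_eq_mul]
      module
    · simp only [hΨ, ha, (h0' _ h).self_of_nhds, smul_eq_mul]
      module
  set l : ((ℝ × E) × E) →L[ℝ] ℝ :=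
    (ContinuousLinearMap.fst ℝ ℝ E).comp (ContinuousLinearMap.fst ℝ (ℝ × E) E) with hl
  obtain ⟨g0, sg0, e0⟩ := N250.Or.hadamard_lin sR l ((1, 0), 0) 0
  obtain ⟨g1, sg1, e1⟩ := N250.Or.hadamard_lin sR l ((1, 0), 0) ((1, 0), 0)
  refine ⟨⟨S.b, a, Ψ, fun q => g0 q - g1 q, sa, sΨ, sg0.sub sg1, fun y => ?_, fun q => ?_⟩, rfl,
    fun y hy => ?_⟩
  · by_cases h : y ∈ S.Om
    · have := S.apos y h
      rcases (h01 y).2.eq_or_lt with h2 | h2
      · simpa [ha, h2] using this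
      · have := mul_nonneg (h01 y).1 this.le
        simp only [ha, smul_eq_mul]; linarith
    · simp [ha, (h0' _ h).self_of_nhds]
  · obtain ⟨⟨x, u⟩, p⟩ := q
    have f0 := e0 ((x, u), p)
    have f1 := e1 ((x, u), p)
    rw [show ((x, u), p) - l (((x, u), p) - 0) • ((((1 : ℝ), (0 : E)), (0 : E)) : (ℝ × E) × E) =
      ((0, u), p) by simp [hl], z0, zero_add, show l (((x, u), p) - 0) = x by simp [hl]] at f0
    rw [show ((x, u), p) - l (((x, u), p) - ((1, 0), 0)) •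
      ((((1 : ℝ), (0 : E)), (0 : E)) : (ℝ × E) × E) = ((1, u), p) by simp [hl], z1, zero_add,
      show l (((x, u), p) - ((1, 0), 0)) = x - 1 by simp [hl]] at f1
    rw [← sub_eq_iff_eq_add']
    change R ((x, u), p) = mu x • (g0 ((x, u), p) - g1 ((x, u), p))
    calc R ((x, u), p) = (1 - x) • R ((x, u), p) + x • R ((x, u), p) := by module
      _ = (1 - x) • x • g0 ((x, u), p) + x • (x - 1) • g1 ((x, u), p) := by rw [← f0, ← f1]
      _ = _ := by unfold mu; module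
  · have h2 : χ y = 1 := h1.self_of_nhdsSet y hy
    exact ⟨by simp [ha, h2], fun p => by simp [hΨ, h2]⟩

/-- **stability** -/
theorem stab (S : Sys E) {K : Set (ℝ × E)} (hK : IsCompact K) (hKO : K ⊆ S.Om) (C : ℝ) :
    ∃ L : ℝ, 0 ≤ L ∧ ∀ (t0 t1 M : ℝ) (U V : ℝ → ℝ → E), IsSol S t0 t1 U → IsSol S t0 t1 V →
      (∀ t ∈ Icc t0 t1, ∀ x ∈ Icc (0 : ℝ) 1, (x, U t x) ∈ K ∧ (x, V t x) ∈ K ∧
        ‖jet 1 (U t) x‖ ≤ C ∧ ‖jet 1 (V t) x‖ ≤ C ∧ ‖jet 2 (V t) x‖ ≤ C) →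
      (∀ x ∈ Icc (0 : ℝ) 1, ‖U t0 x - V t0 x‖ ≤ M) →
      ∀ t ∈ Icc t0 t1, ∀ x ∈ Icc (0 : ℝ) 1, ‖U t x - V t x‖ ≤ M * Real.exp (L * (t - t0)) := by
  obtain ⟨G, hb, hG⟩ := ex_glob S hK.isClosed hKO
  have hK2 : IsCompact (K ×ˢ Metric.closedBall (0 : E) C) := hK.prod (isCompact_closedBall _ _)
  obtain ⟨La, hLa⟩ := (G.ha.of_le (m := 1) (by exact_mod_cast le_top)).locallyLipschitz
    |>.locallyLipschitzOn.exists_lipschitzOnWith_of_compact hK
  obtain ⟨LP, hLP⟩ := (G.hPsi.of_le (m := 1) (by exact_mod_cast le_top)).locallyLipschitz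
    |>.locallyLipschitzOn.exists_lipschitzOnWith_of_compact hK2
  obtain ⟨B, hB⟩ := hK2.exists_bound_of_continuousOn G.hβ.continuous.continuousOn
  obtain ⟨α0, hα0, hα⟩ := hK.exists_forall_le' G.ha.continuous.continuousOn fun y _ => G.apos y
  refine ⟨B ^ 2 / (16 * α0) + (La * |C| + LP) + 1, by positivity,
    fun t0 t1 M U V hU hV hb' h0 => ?_⟩
  refine par_max (δ := fun t x => U t x - V t x)
    (δ1 := fun t x => jet 1 (U t) x - jet 1 (V t) x)
    (δ2 := fun t x => jet 2 (U t) x - jet 2 (V t) x)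
    (hU.smooth.continuousOn.sub hV.smooth.continuousOn)
    (fun t ht x hx => (hU.eqn t ht x hx).fun_sub (hV.eqn t ht x hx))
    (fun t ht x hx => (jet_hd0 (SmR.slice hU.smooth ht) hx).fun_sub
      (jet_hd0 (SmR.slice hV.smooth ht) hx))
    (fun t ht x hx => (jet_hd (SmR.slice hU.smooth ht) 1 hx).fun_sub
      (jet_hd (SmR.slice hV.smooth ht) 1 hx)) hα0 (fun t ht x hx => ?_) h0
  obtain ⟨k1, k2, k3, k4, k5⟩ := hb' t ht x hx
  have hb0 : (0 : ℝ) ≤ G.b := Nat.cast_nonneg _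
  refine ⟨G.a (x, U t x), G.b * (1 - 2 * x), hα _ k1, fun h => by rw [h]; linarith,
    fun h => by rw [h]; linarith, ?_⟩
  generalize jet 1 (U t) x = u1 at k3 ⊢
  generalize jet 1 (V t) x = v1 at k4 ⊢
  generalize jet 2 (U t) x = u2
  generalize jet 2 (V t) x = v2 at k5 ⊢
  generalize U t x = u at k1 ⊢
  generalize V t x = v at k2 ⊢
  have m1 : u1 ∈ Metric.closedBall (0 : E) C := by simpa using k3
  have m2 : v1 ∈ Metric.closedBall (0 : E) C := by simpa using k4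
  have hm := mu_nonneg hx
  have e1 : ‖(G.Psi ((x, u), u1) - (G.a (x, u) * G.b * (1 - 2 * x)) • u1) -
      (G.Psi ((x, u), v1) - (G.a (x, u) * G.b * (1 - 2 * x)) • v1)‖ ≤ mu x * B * ‖u1 - v1‖ := by
    refine (convex_closedBall (0 : E) C).norm_image_sub_le_of_norm_hasFDerivWithin_le
      (𝕜 := ℝ) (f := fun r => G.Psi ((x, u), r) - (G.a (x, u) * G.b * (1 - 2 * x)) • r)
      (f' := fun r => mu x • G.β ((x, u), r)) (fun r _ => ?_) (fun r hr => ?_) m2 m1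
    · have h1 := (hasFDerivAt_inr G.hPsi (x, u) r).fun_sub
        ((hasFDerivAt_id r).fun_const_smul (G.a (x, u) * G.b * (1 - 2 * x)))
      rw [G.dP, add_sub_cancel_left] at h1
      exact h1.hasFDerivWithinAt
    · rw [norm_smul, Real.norm_of_nonneg hm]
      exact mul_le_mul_of_nonneg_left (hB ((x, u), r) ⟨k1, hr⟩) hm
  have e2 : ‖G.Psi ((x, u), v1) - G.Psi ((x, v), v1)‖ ≤ LP * ‖u - v‖ := by
    have := hLP.norm_sub_le (x := ((x, u), v1)) (y := ((x, v), v1)) ⟨k1, m2⟩ ⟨k2, m2⟩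
    simpa [Prod.norm_def] using this
  have e3 : ‖((G.a (x, u) - G.a (x, v)) * mu x) • v2‖ ≤ La * |C| * ‖u - v‖ := by
    have h1 := hLa.norm_sub_le k1 k2
    have h2 : ‖((x, u) : ℝ × E) - (x, v)‖ = ‖u - v‖ := by simp [Prod.norm_def]
    rw [h2] at h1
    rw [norm_smul, norm_mul, Real.norm_of_nonneg hm]
    have h3 : mu x * ‖v2‖ ≤ |C| := by
      have : mu x ≤ 1 / 4 := mu_le
      nlinarith [le_abs_self C, norm_nonneg v2]
    calc _ = ‖G.a (x, u) - G.a (x, v)‖ * (mu x * ‖v2‖) := by ring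
      _ ≤ La * ‖u - v‖ * |C| := mul_le_mul h1 h3 (by positivity) (by positivity)
      _ = _ := by ring
  have e4 : S.F (x, u) u1 u2 - S.F (x, v) v1 v2 -
      G.a (x, u) • (mu x • (u2 - v2) + ((G.b : ℝ) * (1 - 2 * x)) • (u1 - v1)) =
      ((G.Psi ((x, u), u1) - (G.a (x, u) * G.b * (1 - 2 * x)) • u1) -
        (G.Psi ((x, u), v1) - (G.a (x, u) * G.b * (1 - 2 * x)) • v1)) +
      (G.Psi ((x, u), v1) - G.Psi ((x, v), v1)) + ((G.a (x, u) - G.a (x, v)) * mu x) • v2 := by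
    simp only [Sys.F, ← (hG _ k1).1, ← (hG _ k2).1, ← (hG _ k1).2, ← (hG _ k2).2]
    module
  rw [e4]
  refine (norm_add₃_le).trans ?_
  linarith

omit [FiniteDimensional ℝ E] in
theorem IsSol.cpt {S : Sys E} {t0 t1 : ℝ} {U : ℝ → ℝ → E} (h : t0 < t1) (hU : IsSol S t0 t1 U) :
    ∃ K : Set (ℝ × E), IsCompact K ∧ K ⊆ S.Om ∧ ∃ c : ℕ → ℝ, ∀ t ∈ Icc t0 t1,
      ∀ x ∈ Icc (0 : ℝ) 1, (x, U t x) ∈ K ∧ ∀ j, ‖jet j (U t) x‖ ≤ c j := by
  choose c _ hc using fun j => SmR.bdd (t0 := t0) (t1 := t1) (g := fun t x => jet j (U t) x)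
    (SmR.jet h j hU.smooth).continuousOn
  refine ⟨(fun p : ℝ × ℝ => (p.2, U p.1 p.2)) '' (Icc t0 t1 ×ˢ Icc 0 1),
    (isCompact_Icc.prod isCompact_Icc).image_of_continuousOn
      (continuousOn_snd.prodMk hU.smooth.continuousOn), ?_, c,
    fun t ht x hx => ⟨⟨(t, x), ⟨ht, hx⟩, rfl⟩, fun j => hc j t ht x hx⟩⟩
  rintro _ ⟨p, hp, rfl⟩
  exact hU.mem p.1 hp.1 p.2 hp.2

/-- **uniqueness** -/
theorem IsSol.uniq {S : Sys E} {t0 t1 : ℝ} {U V : ℝ → ℝ → E} (hU : IsSol S t0 t1 U)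
    (hV : IsSol S t0 t1 V) (h0 : ∀ x ∈ Icc (0 : ℝ) 1, U t0 x = V t0 x) :
    ∀ t ∈ Icc t0 t1, ∀ x ∈ Icc (0 : ℝ) 1, U t x = V t x := by
  intro t ht x hx
  rcases ht.1.eq_or_lt with rfl | h
  · exact h0 x hx
  obtain ⟨K, hK, hKO, c, hc⟩ := hU.cpt (h.trans_le ht.2)
  obtain ⟨K', hK', hKO', c', hc'⟩ := hV.cpt (h.trans_le ht.2)
  obtain ⟨L, -, hL⟩ := stab S (hK.union hK') (union_subset hKO hKO') (max (c 1) (max (c' 1) (c' 2)))
  have := hL t0 t1 0 U V hU hV (fun s hs y hy => ⟨Or.inl (hc s hs y hy).1, Or.inr (hc' s hs y hy).1,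
    ((hc s hs y hy).2 1).trans (le_max_left _ _),
    ((hc' s hs y hy).2 1).trans ((le_max_left _ _).trans (le_max_right _ _)),
    ((hc' s hs y hy).2 2).trans ((le_max_right _ _).trans (le_max_right _ _))⟩)
    (fun y hy => by rw [h0 y hy, sub_self, norm_zero]) t ht x hx
  rwa [zero_mul, norm_le_zero_iff, sub_eq_zero] at this

end Crest.Agent.N207.S.Ex
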