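import Crest.Agent.N207.S.Ex.Defs

/-!
Row 207, S0320, block EX: the averaging operators `T_k φ (x) = ∫₀¹ s^k φ(s x) ds`.
-/

set_option autoImplicit false
set_option linter.unusedSectionVars false

open Set Filter MeasureTheory intervalIntegral
open scoped Topology ContDiff

noncomputable section
namespace Crest.Agent.N207.S.Ex

variable {E : Type*} [NormedAddCommGroup E] [NormedSpace ℝ E] [CompleteSpace E]

/-- `T_k φ (x) = ∫₀¹ s^k φ(s x) ds`. -/
def Tk (k : ℕ) (φ : ℝ → E) (x : ℝ) : E := ∫ s in (0 : ℝ)..1, s ^ k • φ (s * x)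

omit [CompleteSpace E] in
lemma continuous_Tk (k : ℕ) {φ : ℝ → E} (hφ : Continuous φ) : Continuous (Tk k φ) := by
  unfold Tk
  refine intervalIntegral.continuous_parametric_intervalIntegral_of_continuous' ?_ 0 1
  unfold Function.uncurry
  fun_prop

omit [CompleteSpace E] in
lemma Tk_sub (k : ℕ) {φ ψ : ℝ → E} (hφ : Continuous φ) (hψ : Continuous ψ) (x : ℝ) :
    Tk k φ x - Tk k ψ x = Tk k (fun r => φ r - ψ r) x := by
  unfold Tk
  rw [← intervalIntegral.integral_sub]
  · simp only [smul_sub]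
  · exact Continuous.intervalIntegrable (by fun_prop) _ _
  · exact Continuous.intervalIntegrable (by fun_prop) _ _

lemma hasDerivAt_Tk (k : ℕ) {φ φ' : ℝ → E} (hφ : ∀ x, HasDerivAt φ (φ' x) x)
    (hφ' : Continuous φ') (x : ℝ) : HasDerivAt (Tk k φ) (Tk (k + 1) φ' x) x := by
  have hc : Continuous φ := continuous_iff_continuousAt.2 fun x => (hφ x).continuousAt
  obtain ⟨C, hC⟩ := (isCompact_Icc (a := -(|x| + 1)) (b := |x| + 1)).exists_bound_of_continuousOn
    hφ'.continuousOn
  have key := intervalIntegral.hasDerivAt_integral_of_dominated_loc_of_deriv_le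
    (𝕜 := ℝ) (μ := volume) (a := 0) (b := 1) (x₀ := x) (s := Metric.ball x 1)
    (F := fun y s => s ^ k • φ (s * y)) (F' := fun y s => s ^ (k + 1) • φ' (s * y))
    (bound := fun _ => C) (Metric.ball_mem_nhds x one_pos)
    (Eventually.of_forall fun y => Continuous.aestronglyMeasurable (by fun_prop))
    (Continuous.intervalIntegrable (by fun_prop) _ _)
    (Continuous.aestronglyMeasurable (by fun_prop))
    (Eventually.of_forall fun s hs y hy => by
      rw [uIoc_of_le zero_le_one] at hs
      have h1 : |y - x| < 1 := by simpa [Real.dist_eq] using hy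
      have h2 : |y| ≤ |x| + 1 := by
        have := abs_sub_abs_le_abs_sub y x
        linarith
      have h3 : |s * y| ≤ |x| + 1 := by
        rw [abs_mul, abs_of_pos hs.1]
        nlinarith [abs_nonneg y, hs.2, hs.1]
      have h4 := hC (s * y) ⟨by linarith [neg_abs_le (s * y)], by linarith [le_abs_self (s * y)]⟩
      rw [norm_smul, Real.norm_eq_abs, abs_of_nonneg (pow_nonneg hs.1.le _)]
      have h5 : s ^ (k + 1) ≤ 1 := pow_le_one₀ hs.1.le hs.2
      nlinarith [norm_nonneg (φ' (s * y)), pow_nonneg hs.1.le (k + 1)])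
    (by simp)
    (Eventually.of_forall fun s _ y _ => by
      have h1 : HasDerivAt (fun y => φ (s * y)) (s • φ' (s * y)) y := by
        have := (hφ (s * y)).scomp y ((hasDerivAt_id y).const_mul s)
        rw [mul_one] at this
        exact this
      have h2 := h1.const_smul (s ^ k)
      refine h2.congr_deriv ?_
      rw [smul_smul, pow_succ])
  exact key.2

lemma contDiff_Tk (n : ℕ) : ∀ (k : ℕ) {φ : ℝ → E}, ContDiff ℝ n φ → ContDiff ℝ n (Tk k φ) := by
  induction n with
  | zero =>
    intro k φ h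
    simp only [Nat.cast_zero, contDiff_zero] at h ⊢
    exact continuous_Tk k h
  | succ n ih =>
    intro k φ h
    have h' : ContDiff ℝ ((n : ℕ∞ω) + 1) φ := by exact_mod_cast h
    rw [contDiff_succ_iff_deriv] at h'
    have hd : ∀ x, HasDerivAt (Tk k φ) (Tk (k + 1) (deriv φ) x) x :=
      hasDerivAt_Tk k (fun x => (h'.1 x).hasDerivAt) h'.2.2.continuous
    have : ContDiff ℝ ((n : ℕ∞ω) + 1) (Tk k φ) := by
      rw [contDiff_succ_iff_deriv]
      refine ⟨fun x => (hd x).differentiableAt, by simp, ?_⟩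
      have : deriv (Tk k φ) = Tk (k + 1) (deriv φ) := funext fun x => (hd x).deriv
      rw [this]
      exact ih (k + 1) h'.2.2
    exact_mod_cast this

lemma pow_smul_Tk (k : ℕ) (φ : ℝ → E) (x : ℝ) :
    x ^ (k + 1) • Tk k φ x = ∫ r in (0 : ℝ)..x, r ^ k • φ r := by
  have h := intervalIntegral.smul_integral_comp_mul_right (a := 0) (b := 1)
    (fun r : ℝ => r ^ k • φ r) x
  simp only [zero_mul, one_mul] at h
  rw [← h, pow_succ', mul_smul, Tk, ← intervalIntegral.integral_smul]
  congr 1
  refine intervalIntegral.integral_congr fun s _ => ?_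
  simp only [smul_smul, mul_pow]
  rw [mul_comm]

lemma Tk_zero (k : ℕ) (φ : ℝ → E) : ((k : ℝ) + 1) • Tk k φ 0 = φ 0 := by
  unfold Tk
  simp only [mul_zero]
  rw [intervalIntegral.integral_smul_const, integral_pow, smul_smul]
  have : ((k : ℝ) + 1) ≠ 0 := by positivity
  simp [this]

/-- `(x T_k φ)' = φ - k T_k φ`. -/
lemma hasDerivAt_mul_Tk (k : ℕ) {φ : ℝ → E} (hφ : Continuous φ) (x : ℝ) :
    HasDerivAt (fun y => y • Tk k φ y) (φ x - (k : ℝ) • Tk k φ x) x := by
  by_cases hx : x = 0
  · subst hx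
    have h0 : φ 0 - (k : ℝ) • Tk k φ 0 = Tk k φ 0 := by
      rw [← Tk_zero k φ, add_smul, one_smul]; abel
    rw [h0, hasDerivAt_iff_tendsto_slope_zero]
    have h1 : Tendsto (Tk k φ) (𝓝[≠] 0) (𝓝 (Tk k φ 0)) :=
      ((continuous_Tk k hφ).tendsto 0).mono_left nhdsWithin_le_nhds
    refine h1.congr' ?_
    filter_upwards [self_mem_nhdsWithin] with t ht
    have ht' : t ≠ 0 := ht
    simp [smul_smul, ht']
  · have hI : HasDerivAt (fun y => ∫ r in (0 : ℝ)..y, r ^ k • φ r) (x ^ k • φ x) x :=
      intervalIntegral.integral_hasDerivAt_right (Continuous.intervalIntegrable (by fun_prop) _ _)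
        (Continuous.stronglyMeasurableAtFilter (by fun_prop) _ _) (by fun_prop)
    have hp : HasDerivAt (fun y : ℝ => (y ^ k)⁻¹) (-((k : ℝ) * x ^ (k - 1)) / (x ^ k) ^ 2) x :=
      (hasDerivAt_pow k x).inv (pow_ne_zero k hx)
    have h2 := hp.smul hI
    have h3 : (fun y => y • Tk k φ y) =ᶠ[𝓝 x]
        fun y => (y ^ k)⁻¹ • ∫ r in (0 : ℝ)..y, r ^ k • φ r := by
      filter_upwards [isOpen_ne.mem_nhds hx] with y hy
      rw [← pow_smul_Tk, smul_smul]
      congr 1
      have : y ^ k ≠ 0 := pow_ne_zero k hy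
      field_simp
      ring
    refine (h2.congr_of_eventuallyEq h3).congr_deriv ?_
    rw [← pow_smul_Tk, smul_smul, smul_smul, inv_mul_cancel₀ (pow_ne_zero k hx), one_smul,
      sub_eq_add_neg, ← neg_smul]
    congr 2
    rcases k with _ | k
    · simp
    · have : x ^ k ≠ 0 := pow_ne_zero k hx
      simp only [Nat.add_sub_cancel]
      field_simp
      ring

lemma contDiff_mul_Tk (n k : ℕ) {φ : ℝ → E} (hφ : ContDiff ℝ n φ) :
    ContDiff ℝ ((n : ℕ∞ω) + 1) (fun y => y • Tk k φ y) := by
  have hd := hasDerivAt_mul_Tk k hφ.continuous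
  rw [contDiff_succ_iff_deriv]
  refine ⟨fun x => (hd x).differentiableAt, by simp, ?_⟩
  have : deriv (fun y => y • Tk k φ y) = fun x => φ x - (k : ℝ) • Tk k φ x :=
    funext fun x => (hd x).deriv
  rw [this]
  exact hφ.sub ((contDiff_Tk n k hφ).const_smul _)

lemma contDiff_primitive (n : ℕ) {φ : ℝ → E} (hφ : ContDiff ℝ n φ) :
    ContDiff ℝ ((n : ℕ∞ω) + 1) (fun y => ∫ r in (0 : ℝ)..y, φ r) := by
  have hd : ∀ x, HasDerivAt (fun y => ∫ r in (0 : ℝ)..y, φ r) (φ x) x := fun x =>
    intervalIntegral.integral_hasDerivAt_right (hφ.continuous.intervalIntegrable _ _)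
      (hφ.continuous.stronglyMeasurableAtFilter _ _) hφ.continuous.continuousAt
  rw [contDiff_succ_iff_deriv]
  refine ⟨fun x => (hd x).differentiableAt, by simp, ?_⟩
  have : deriv (fun y => ∫ r in (0 : ℝ)..y, φ r) = φ := funext fun x => (hd x).deriv
  rw [this]
  exact hφ

omit [CompleteSpace E] in
lemma norm_primitive_le {φ : ℝ → E} {D L : ℝ} (hL : 0 < L)
    (h : ∀ r, ‖φ r‖ ≤ D * Real.exp (L * |r|)) (x : ℝ) :
    ‖∫ r in (0 : ℝ)..x, φ r‖ ≤ D / L * Real.exp (L * |x|) := by
  have hD : 0 ≤ D := by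
    have := (norm_nonneg _).trans (h 0)
    simpa using this
  have hI : ∀ y : ℝ, 0 ≤ y → ∫ r in (0 : ℝ)..y, D * Real.exp (L * r) ≤
      D / L * Real.exp (L * y) := by
    intro y _
    have : ∫ r in (0 : ℝ)..y, D * Real.exp (L * r) =
        D / L * Real.exp (L * y) - D / L * Real.exp (L * 0) := by
      refine intervalIntegral.integral_eq_sub_of_hasDerivAt (f := fun r => D / L * Real.exp (L * r))
        (fun r _ => ?_) (Continuous.intervalIntegrable (by fun_prop) _ _)
      have := (((hasDerivAt_id r).const_mul L).exp).const_mul (D / L)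
      refine HasDerivAt.congr_deriv this ?_
      simp only [id]; field_simp
    rw [this]
    have : 0 ≤ D / L * Real.exp (L * 0) := by positivity
    linarith
  rcases le_total 0 x with hx | hx
  · rw [abs_of_nonneg hx]
    refine le_trans (intervalIntegral.norm_integral_le_of_norm_le hx
      (Eventually.of_forall fun r hr => ?_) (Continuous.intervalIntegrable
        (by fun_prop : Continuous fun r => D * Real.exp (L * r)) _ _)) (hI x hx)
    have := h r
    rwa [abs_of_pos hr.1] at this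
  · rw [abs_of_nonpos hx]
    have h1 : ∫ r in (0 : ℝ)..x, φ r = -∫ r in (0 : ℝ)..(-x), φ (-r) := by
      rw [intervalIntegral.integral_comp_neg, neg_neg, neg_zero, intervalIntegral.integral_symm]
    rw [h1, norm_neg]
    refine le_trans (intervalIntegral.norm_integral_le_of_norm_le (by linarith)
      (Eventually.of_forall fun r hr => ?_) (Continuous.intervalIntegrable
        (by fun_prop : Continuous fun r => D * Real.exp (L * r)) _ _)) (hI (-x) (by linarith))
    have := h (-r)
    rwa [abs_neg, abs_of_pos hr.1] at this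

omit [CompleteSpace E] in
lemma norm_Tk_le (k : ℕ) {φ : ℝ → E} {D L : ℝ} (hL : 0 < L)
    (h : ∀ r, ‖φ r‖ ≤ D * Real.exp (L * |r|)) (x : ℝ) :
    ‖Tk k φ x‖ ≤ D * Real.exp (L * |x|) := by
  have hD : 0 ≤ D := by
    have := (norm_nonneg _).trans (h 0)
    simpa using this
  have := intervalIntegral.norm_integral_le_of_norm_le_const (a := 0) (b := 1)
    (f := fun s : ℝ => s ^ k • φ (s * x)) (C := D * Real.exp (L * |x|)) fun s hs => by
      rw [uIoc_of_le zero_le_one] at hs
      rw [norm_smul, Real.norm_eq_abs, abs_of_nonneg (pow_nonneg hs.1.le _)]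
      have h5 : s ^ k ≤ 1 := pow_le_one₀ hs.1.le hs.2
      have h6 : Real.exp (L * |s * x|) ≤ Real.exp (L * |x|) := by
        apply Real.exp_le_exp.2
        rw [abs_mul, abs_of_pos hs.1]
        have := abs_nonneg x
        have h7 : s * |x| ≤ |x| := by nlinarith [hs.2]
        exact mul_le_mul_of_nonneg_left h7 hL.le
      have h7 := (h (s * x)).trans (mul_le_mul_of_nonneg_left h6 hD)
      nlinarith [norm_nonneg (φ (s * x)), pow_nonneg hs.1.le k]
  simpa [Tk] using this

lemma norm_mul_Tk_le (k : ℕ) {φ : ℝ → E} {D L : ℝ} (hL : 0 < L)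
    (h : ∀ r, ‖φ r‖ ≤ D * Real.exp (L * |r|)) (x : ℝ) :
    ‖x • Tk k φ x‖ ≤ D / L * Real.exp (L * |x|) := by
  have h1 := intervalIntegral.smul_integral_comp_mul_right (a := 0) (b := 1)
    (fun r : ℝ => (r / x) ^ k • φ r) x
  simp only [zero_mul, one_mul] at h1
  have hD : 0 ≤ D := by
    have := (norm_nonneg _).trans (h 0)
    simpa using this
  by_cases hx : x = 0
  · subst hx; simp; positivity
  have h2 : x • Tk k φ x = ∫ r in (0 : ℝ)..x, (if |r| ≤ |x| then (r / x) ^ k else 0) • φ r := by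
    have h3 : ∫ r in (0 : ℝ)..x, (if |r| ≤ |x| then (r / x) ^ k else 0) • φ r =
        ∫ r in (0 : ℝ)..x, (r / x) ^ k • φ r := by
      refine intervalIntegral.integral_congr fun r hr => ?_
      have : |r| ≤ |x| := by simpa using Set.abs_sub_left_of_mem_uIcc hr
      simp only [this, if_true]
    rw [h3, ← h1, Tk]
    congr 1
    refine intervalIntegral.integral_congr fun s _ => ?_
    simp only [mul_div_assoc, div_self hx, mul_one]
  rw [h2]
  refine norm_primitive_le hL (fun r => ?_) x
  rw [norm_smul]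
  have h4 : ‖(if |r| ≤ |x| then (r / x) ^ k else 0 : ℝ)‖ ≤ 1 := by
    split_ifs with hr
    · rw [Real.norm_eq_abs, abs_pow, abs_div]
      exact pow_le_one₀ (by positivity) ((div_le_one (abs_pos.2 hx)).2 hr)
    · simp
  nlinarith [h r, norm_nonneg (φ r), norm_nonneg (if |r| ≤ |x| then (r / x) ^ k else 0 : ℝ)]

end Crest.Agent.N207.S.Ex
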