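import Crest.Agent.N207.S.Ex.Volt

/-!
Row 207, S0320, block EX: the regular solution of the singular ODE at the left pole.
-/

set_option autoImplicit false
set_option linter.unusedSectionVars false

open Set Filter MeasureTheory intervalIntegral BoundedContinuousFunction
open scoped Topology ContDiff

noncomputable section
namespace Crest.Agent.N207.S.Ex

variable {E : Type*} [NormedAddCommGroup E] [NormedSpace ℝ E] [CompleteSpace E]

/-- the Volterra map. -/
def volt (k : ℕ) (ρ : ℝ → ℝ) (A Q : ℝ → E →L[ℝ] E) (φ : ℝ → E) (x : ℝ) : E :=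
  A x (∫ r in (0 : ℝ)..x, ρ r • Tk k φ r) + Q x (x • Tk k φ x)

lemma continuous_volt (k : ℕ) {ρ : ℝ → ℝ} {A Q : ℝ → E →L[ℝ] E} (hρ : Continuous ρ)
    (hA : Continuous A) (hQ : Continuous Q) {φ : ℝ → E} (hφ : Continuous φ) :
    Continuous (volt k ρ A Q φ) := by
  have h1 := continuous_Tk k hφ
  have h2 : Continuous fun x => ∫ r in (0 : ℝ)..x, ρ r • Tk k φ r :=
    intervalIntegral.continuous_primitive
      (fun a b => Continuous.intervalIntegrable (by fun_prop) a b) 0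
  unfold volt
  fun_prop

lemma volt_sub (k : ℕ) {ρ : ℝ → ℝ} (A Q : ℝ → E →L[ℝ] E) (hρ : Continuous ρ)
    {φ ψ : ℝ → E} (hφ : Continuous φ) (hψ : Continuous ψ) (x : ℝ) :
    volt k ρ A Q φ x - volt k ρ A Q ψ x = volt k ρ A Q (fun r => φ r - ψ r) x := by
  have h1 := continuous_Tk k hφ
  have h2 := continuous_Tk k hψ
  unfold volt
  simp only [← Tk_sub k hφ hψ, smul_sub]
  rw [intervalIntegral.integral_sub (Continuous.intervalIntegrable (by fun_prop) _ _)
    (Continuous.intervalIntegrable (by fun_prop) _ _), map_sub, map_sub]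
  abel

lemma norm_volt_le (k : ℕ) {ρ : ℝ → ℝ} {A Q : ℝ → E →L[ℝ] E} {M : ℝ} (hρ : ∀ x, ‖ρ x‖ ≤ M)
    (hA : ∀ x, ‖A x‖ ≤ M) (hQ : ∀ x, ‖Q x‖ ≤ M) {φ : ℝ → E} {D L : ℝ} (hL : 0 < L)
    (h : ∀ r, ‖φ r‖ ≤ D * Real.exp (L * |r|)) (x : ℝ) :
    ‖volt k ρ A Q φ x‖ ≤ (M * M + M) / L * D * Real.exp (L * |x|) := by
  have hM : 0 ≤ M := (norm_nonneg _).trans (hρ 0)
  have h1 : ‖∫ r in (0 : ℝ)..x, ρ r • Tk k φ r‖ ≤ (M * D) / L * Real.exp (L * |x|) :=
    norm_primitive_le hL (fun r => by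
      rw [norm_smul, mul_assoc]
      exact mul_le_mul (hρ r) (norm_Tk_le k hL h r) (norm_nonneg _) hM) x
  have h2 := norm_mul_Tk_le k hL h x
  have h3 := ((A x).le_opNorm _).trans (mul_le_mul (hA x) h1 (norm_nonneg _) hM)
  have h4 := ((Q x).le_opNorm _).trans (mul_le_mul (hQ x) h2 (norm_nonneg _) hM)
  refine (norm_add_le _ _).trans ((add_le_add h3 h4).trans (le_of_eq ?_))
  field_simp

lemma volt_exists_cont (k : ℕ) {ρ : ℝ → ℝ} {A Q : ℝ → E →L[ℝ] E} {g : ℝ → E} {M : ℝ}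
    (hρc : Continuous ρ) (hAc : Continuous A) (hQc : Continuous Q) (hgc : Continuous g)
    (hρ : ∀ x, ‖ρ x‖ ≤ M) (hA : ∀ x, ‖A x‖ ≤ M) (hQ : ∀ x, ‖Q x‖ ≤ M) (hg : ∀ x, ‖g x‖ ≤ M) :
    ∃ φ : ℝ → E, Continuous φ ∧ ∀ x, φ x = volt k ρ A Q φ x + g x := by
  have hM : 0 ≤ M := (norm_nonneg _).trans (hρ 0)
  set L : ℝ := 2 * (M * M + M) + 1 with hLdef
  have hL : 0 < L := by positivity
  have hθ : (M * M + M) / L ≤ 1 / 2 := by
    rw [div_le_iff₀ hL]; linarith
  have hθ0 : 0 ≤ (M * M + M) / L := by positivity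
  let up : (ℝ →ᵇ E) → ℝ → E := fun w r => Real.exp (L * |r|) • w r
  have upc : ∀ w, Continuous (up w) := fun w => by
    have := w.continuous
    simp only [up]; fun_prop
  have upb : ∀ w r, ‖up w r‖ ≤ ‖w‖ * Real.exp (L * |r|) := fun w r => by
    simp only [up]
    rw [norm_smul, Real.norm_eq_abs, abs_of_pos (Real.exp_pos _), mul_comm]
    exact mul_le_mul_of_nonneg_right (w.norm_coe_le_norm r) (Real.exp_pos _).le
  have hdown : ∀ (z : E) (c x : ℝ), ‖z‖ ≤ c * Real.exp (L * |x|) →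
      ‖Real.exp (-(L * |x|)) • z‖ ≤ c := fun z c x hz => by
    rw [norm_smul, Real.norm_eq_abs, abs_of_pos (Real.exp_pos _), Real.exp_neg,
      inv_mul_le_iff₀ (Real.exp_pos _), mul_comm]
    exact hz
  let Φ : (ℝ →ᵇ E) → (ℝ →ᵇ E) := fun w =>
    BoundedContinuousFunction.ofNormedAddCommGroup
      (fun x => Real.exp (-(L * |x|)) • (volt k ρ A Q (up w) x + g x))
      (by have := continuous_volt k hρc hAc hQc (upc w); fun_prop)
      ((M * M + M) / L * ‖w‖ + M) (fun x => hdown _ _ x (by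
        refine (norm_add_le _ _).trans ?_
        have h1 := norm_volt_le k hρ hA hQ hL (upb w) x
        have h2 : 1 ≤ Real.exp (L * |x|) := Real.one_le_exp (by positivity)
        have h3 := hg x
        nlinarith))
  have hΦ : ∀ w x, Φ w x = Real.exp (-(L * |x|)) • (volt k ρ A Q (up w) x + g x) :=
    fun w x => rfl
  have hc : ContractingWith (1 / 2) Φ := by
    refine ⟨by norm_num, LipschitzWith.of_dist_le_mul fun w w' => ?_⟩
    rw [dist_eq_norm, dist_eq_norm]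
    refine (BoundedContinuousFunction.norm_le (by positivity)).2 fun x => ?_
    rw [BoundedContinuousFunction.sub_apply, hΦ, hΦ, ← smul_sub, add_sub_add_right_eq_sub,
      volt_sub k A Q hρc (upc w) (upc w')]
    refine hdown _ _ x ?_
    have h1 : ∀ r, ‖up w r - up w' r‖ ≤ ‖w - w'‖ * Real.exp (L * |r|) := fun r => by
      have := upb (w - w') r
      simpa only [up, BoundedContinuousFunction.sub_apply, smul_sub] using this
    refine (norm_volt_le k hρ hA hQ hL h1 x).trans ?_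
    refine mul_le_mul_of_nonneg_right ?_ (Real.exp_pos _).le
    push_cast
    exact mul_le_mul_of_nonneg_right hθ (norm_nonneg _)
  refine ⟨up (hc.fixedPoint Φ), upc _, fun x => ?_⟩
  have h1 : Φ (hc.fixedPoint Φ) = hc.fixedPoint Φ := hc.fixedPoint_isFixedPt
  have h2 := hΦ (hc.fixedPoint Φ) x
  rw [h1] at h2
  show Real.exp (L * |x|) • (hc.fixedPoint Φ) x = _
  rw [h2, smul_smul, ← Real.exp_add]
  simp

lemma volt_smooth (k : ℕ) {ρ : ℝ → ℝ} {A Q : ℝ → E →L[ℝ] E} {g φ : ℝ → E}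
    (hρ : ContDiff ℝ ∞ ρ) (hA : ContDiff ℝ ∞ A) (hQ : ContDiff ℝ ∞ Q) (hg : ContDiff ℝ ∞ g)
    (hφ : Continuous φ) (h : ∀ x, φ x = volt k ρ A Q φ x + g x) : ContDiff ℝ ∞ φ := by
  rw [contDiff_infty]
  intro n
  induction n with
  | zero => simpa using hφ
  | succ n ih =>
    have hle : ((n + 1 : ℕ) : ℕ∞ω) ≤ ∞ := by exact_mod_cast le_top
    have hle' : ((n : ℕ) : ℕ∞ω) ≤ ∞ := by exact_mod_cast le_top
    have h1 : ContDiff ℝ ((n + 1 : ℕ) : ℕ∞ω) fun x => ∫ r in (0 : ℝ)..x, ρ r • Tk k φ r := by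
      have := contDiff_primitive n ((hρ.of_le hle').smul (contDiff_Tk n k ih))
      exact_mod_cast this
    have h2 : ContDiff ℝ ((n + 1 : ℕ) : ℕ∞ω) fun x => x • Tk k φ x := by
      have := contDiff_mul_Tk n k ih
      exact_mod_cast this
    have h3 : φ = fun x => volt k ρ A Q φ x + g x := funext h
    rw [h3]
    unfold volt
    exact (((hA.of_le hle).clm_apply h1).add ((hQ.of_le hle).clm_apply h2)).add (hg.of_le hle)

/-- a bump equal to `1` on `[-1/8,5/8]`, supported in `(-1/4,3/4)`. -/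
def chiL : ContDiffBump (1 / 4 : ℝ) := ⟨3 / 8, 1 / 2, by norm_num, by norm_num⟩

lemma chiL_one {x : ℝ} (hx : x ∈ Ioo (-1 / 8 : ℝ) (5 / 8)) : chiL x = 1 := by
  apply chiL.one_of_mem_closedBall
  rw [Metric.mem_closedBall, Real.dist_eq, abs_le]
  simp only [chiL]
  constructor <;> linarith [hx.1, hx.2]

lemma bdd_chiL {F : Type*} [NormedAddCommGroup F] [NormedSpace ℝ F] {f : ℝ → F}
    (hf : Continuous fun x => chiL x • f x) : ∃ M, ∀ x, ‖chiL x • f x‖ ≤ M :=
  hf.bounded_above_of_compact_support (chiL.hasCompactSupport.smul_right (f' := f))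

lemma contDiff_rho (k : ℕ) : ContDiff ℝ ∞ fun x : ℝ => chiL x • ((1 - x) ^ (k + 1))⁻¹ := by
  rw [contDiff_iff_contDiffAt]
  intro x
  by_cases hx : x < 1
  · exact chiL.contDiff.contDiffAt.smul
      (ContDiffAt.inv (by fun_prop) (pow_ne_zero _ (by linarith)))
  · have : (fun x : ℝ => chiL x • ((1 - x) ^ (k + 1))⁻¹) =ᶠ[𝓝 x] fun _ => 0 := by
      filter_upwards [Ioi_mem_nhds (show (3 / 4 : ℝ) < x by linarith)] with y hy
      have : chiL y = 0 := by
        apply chiL.zero_of_le_dist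
        rw [Real.dist_eq]
        simp only [chiL]
        have : (3 / 4 : ℝ) < y := hy
        rw [abs_of_pos (by linarith)]; linarith
      simp [this]
    exact contDiffAt_const.congr_of_eventuallyEq this

/-- the regular solution at the left pole with prescribed value. -/
theorem left_sol (k : ℕ) {A Q : ℝ → E →L[ℝ] E} {g : ℝ → E} (hA : ContDiff ℝ ∞ A)
    (hQ : ContDiff ℝ ∞ Q) (hg : ContDiff ℝ ∞ g) (v0 : E) :
    ∃ v : ℝ → E, ContDiff ℝ ∞ v ∧ v 0 = v0 ∧ ∀ x ∈ Ioo (-1 / 8 : ℝ) (5 / 8),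
      Lop ((k : ℝ) + 1) v x = A x (v x) + Q x (mu x • deriv v x) + g x := by
  have hχ : ContDiff ℝ ∞ chiL := chiL.contDiff
  have hρ := contDiff_rho k
  have hA' : ContDiff ℝ ∞ fun x : ℝ => chiL x • ((1 - x) ^ k • A x) := by fun_prop
  have hQ' : ContDiff ℝ ∞ fun x : ℝ => chiL x • Q x := by fun_prop
  have hg' : ContDiff ℝ ∞ fun x : ℝ => chiL x • ((1 - x) ^ k • (A x v0 + g x)) := by fun_prop
  obtain ⟨M1, h1⟩ := bdd_chiL (f := fun x : ℝ => ((1 - x) ^ (k + 1))⁻¹) hρ.continuous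
  obtain ⟨M2, h2⟩ := bdd_chiL (f := fun x : ℝ => (1 - x) ^ k • A x) hA'.continuous
  obtain ⟨M3, h3⟩ := bdd_chiL (f := Q) hQ'.continuous
  obtain ⟨M4, h4⟩ := bdd_chiL (f := fun x : ℝ => (1 - x) ^ k • (A x v0 + g x))
    hg'.continuous
  obtain ⟨φ, hφc, hφ⟩ := volt_exists_cont k (M := max (max M1 M2) (max M3 M4)) hρ.continuous
    hA'.continuous hQ'.continuous hg'.continuous
    (fun x => (h1 x).trans ((le_max_left _ _).trans (le_max_left _ _)))
    (fun x => (h2 x).trans ((le_max_right _ _).trans (le_max_left _ _)))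
    (fun x => (h3 x).trans ((le_max_left _ _).trans (le_max_right _ _)))
    (fun x => (h4 x).trans ((le_max_right _ _).trans (le_max_right _ _)))
  have hφs := volt_smooth k hρ hA' hQ' hg' hφc hφ
  have hT : ContDiff ℝ ∞ (Tk k φ) := contDiff_infty.2 fun n =>
    contDiff_Tk n k (contDiff_infty.1 hφs n)
  set y : ℝ → E := fun r => (chiL r • ((1 - r) ^ (k + 1))⁻¹) • Tk k φ r with hy
  have hys : ContDiff ℝ ∞ y := hρ.smul hT
  set v : ℝ → E := fun x => v0 + ∫ r in (0 : ℝ)..x, y r with hv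
  have hd : ∀ x, HasDerivAt v (y x) x := fun x =>
    (intervalIntegral.integral_hasDerivAt_right (hys.continuous.intervalIntegrable _ _)
      (hys.continuous.stronglyMeasurableAtFilter _ _) hys.continuous.continuousAt).const_add v0
  have hdv : deriv v = y := funext fun x => (hd x).deriv
  have hvs : ContDiff ℝ ∞ v := by
    rw [contDiff_infty_iff_deriv, hdv]
    exact ⟨fun x => (hd x).differentiableAt, hys⟩
  refine ⟨v, hvs, by simp [hv], fun x hx => ?_⟩
  have hx1 : ∀ z ∈ Ioo (-1 / 8 : ℝ) (5 / 8), (1 - z) ≠ 0 := fun z hz => by linarith [hz.2]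
  have hTy : ∀ z ∈ Ioo (-1 / 8 : ℝ) (5 / 8), Tk k φ z = (1 - z) ^ (k + 1) • y z := fun z hz => by
    simp only [hy, chiL_one hz, smul_smul, smul_eq_mul, one_mul]
    rw [mul_inv_cancel₀ (pow_ne_zero _ (hx1 z hz)), one_smul]
  have hy' : HasDerivAt y (deriv y x) x := (hys.differentiable (by simp) x).hasDerivAt
  have e1 : HasDerivAt (fun z : ℝ => z * (1 - z) ^ (k + 1))
      ((1 - x) ^ (k + 1) - x * (((k : ℝ) + 1) * (1 - x) ^ k)) x := by
    have := (hasDerivAt_id x).mul (((hasDerivAt_id x).const_sub 1).pow (k + 1))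
    refine HasDerivAt.congr_deriv this ?_
    simp only [id, Nat.add_sub_cancel, Pi.pow_apply]
    push_cast; ring
  have e2 := e1.smul hy'
  have e3 : (fun z => z • Tk k φ z) =ᶠ[𝓝 x] fun z => (z * (1 - z) ^ (k + 1)) • y z := by
    filter_upwards [Ioo_mem_nhds hx.1 hx.2] with z hz
    rw [hTy z hz, smul_smul]
  have e4 := (hasDerivAt_mul_Tk k hφc x).unique (e2.congr_of_eventuallyEq e3)
  have e5 := hφ x
  simp only [volt, chiL_one hx, one_smul, ContinuousLinearMap.smul_apply] at e5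
  rw [hTy x hx] at e4 e5
  have e6 : φ x = (1 - x) ^ k • Lop ((k : ℝ) + 1) v x := by
    rw [Lop, hdv, eq_add_of_sub_eq e4]
    simp only [mu]
    module
  have e7 : (1 - x) ^ k • Lop ((k : ℝ) + 1) v x =
      (1 - x) ^ k • (A x (v x) + Q x (mu x • deriv v x) + g x) := by
    rw [← e6, e5, hdv]
    simp only [hv, map_add, map_smul, mu, hy]
    module
  exact smul_right_injective E (pow_ne_zero k (hx1 x hx)) e7

end Crest.Agent.N207.S.Ex
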